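import Vale.Agent.P245.General.EpBasic

/-!
# P245, general measures: growth of the posterior covariance

The smoothed trace of a high power of the posterior covariance is a slowly growing submartingale
along the channel.
-/

open MeasureTheory Matrix
open scoped Matrix

namespace Vale.Agent.P245.General

noncomputable section

variable {n : ℕ} {η : ℝ} {ρ : (Fin n → ℝ) → ℝ}

/-! ### Linear algebra -/

theorem exists_eigen (A : Matrix (Fin n) (Fin n) ℝ) (hA : A.IsSymm) :
    ∃ (U : Matrix (Fin n) (Fin n) ℝ) (lam : Fin n → ℝ), Uᵀ * U = 1 ∧ U * Uᵀ = 1 ∧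
      ∀ p : ℕ, A ^ p = U * diagonal (fun l => lam l ^ p) * Uᵀ := by
  have hH : A.IsHermitian := (Matrix.conjTranspose_eq_transpose_of_trivial A).trans hA
  have h1 := Unitary.coe_star_mul_self hH.eigenvectorUnitary
  simp only [Matrix.star_eq_conjTranspose, Matrix.conjTranspose_eq_transpose_of_trivial] at h1
  set W : Matrix (Fin n) (Fin n) ℝ := (hH.eigenvectorUnitary : Matrix (Fin n) (Fin n) ℝ) with hW
  have h2 : W * Wᵀ = 1 := mul_eq_one_comm.1 h1
  refine ⟨W, hH.eigenvalues, h1, h2, fun p => ?_⟩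
  have hA1 : A = W * diagonal hH.eigenvalues * Wᵀ := by
    have := hH.spectral_theorem
    simpa [Unitary.conjStarAlgAut_apply, Matrix.star_eq_conjTranspose, Function.comp_def, ← hW]
      using this
  induction p with
  | zero => simp [h2]
  | succ p ih =>
    rw [pow_succ, ih]
    conv_lhs => arg 2; rw [hA1]
    calc W * diagonal (fun l => hH.eigenvalues l ^ p) * Wᵀ * (W * diagonal hH.eigenvalues * Wᵀ)
        = W * (diagonal (fun l => hH.eigenvalues l ^ p) * ((Wᵀ * W) * diagonal hH.eigenvalues))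
            * Wᵀ := by simp only [Matrix.mul_assoc]
      _ = _ := by
          rw [h1, Matrix.one_mul, diagonal_mul_diagonal]
          simp only [pow_succ]

theorem quad_eigen {U : Matrix (Fin n) (Fin n) ℝ} (lam u : Fin n → ℝ) :
    u ⬝ᵥ ((U * diagonal lam * Uᵀ) *ᵥ u) = ∑ l, lam l * (Uᵀ *ᵥ u) l ^ 2 := by
  rw [← Matrix.mulVec_mulVec, ← Matrix.mulVec_mulVec, Matrix.dotProduct_mulVec,
    ← Matrix.mulVec_transpose]
  refine Finset.sum_congr rfl fun l _ => ?_
  rw [mulVec_diagonal]
  ring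

theorem trace_eigen {U : Matrix (Fin n) (Fin n) ℝ} (a b : Fin n → ℝ)
    (T : Matrix (Fin n) (Fin n) ℝ) :
    trace (U * diagonal a * Uᵀ * T * (U * diagonal b * Uᵀ) * T)
      = ∑ i, ∑ j, a i * b j * ((Uᵀ * T * U) i j * (Uᵀ * T * U) j i) := by
  have e : trace (U * diagonal a * Uᵀ * T * (U * diagonal b * Uᵀ) * T)
      = trace ((diagonal a * (Uᵀ * T * U) * diagonal b) * (Uᵀ * T * U)) := by
    rw [show U * diagonal a * Uᵀ * T * (U * diagonal b * Uᵀ) * T
      = U * (diagonal a * (Uᵀ * T * U) * diagonal b * (Uᵀ * T)) by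
        simp only [Matrix.mul_assoc], trace_mul_comm]
    simp only [Matrix.mul_assoc]
  rw [e, trace]
  refine Finset.sum_congr rfl fun i _ => ?_
  rw [diag, Matrix.mul_apply]
  refine Finset.sum_congr rfl fun j _ => ?_
  rw [mul_diagonal, diagonal_mul]
  ring

theorem sum_sym_le {w : Fin n → Fin n → ℝ} (hw : ∀ i j, 0 ≤ w i j) (hs : ∀ i j, w i j = w j i)
    {lam : Fin n → ℝ} (hl : ∀ i, 0 ≤ lam i) (p q : ℕ) :
    ∑ i, ∑ j, lam i ^ p * lam j ^ q * w i j ≤ ∑ i, ∑ j, lam i ^ (p + q) * w i j := by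
  have e1 : ∑ i, ∑ j, lam i ^ p * lam j ^ q * w i j
      = ∑ i, ∑ j, lam j ^ p * lam i ^ q * w i j := by
    rw [Finset.sum_comm]
    exact Finset.sum_congr rfl fun i _ => Finset.sum_congr rfl fun j _ => by rw [hs j i]
  have e2 : ∑ i, ∑ j, lam i ^ (p + q) * w i j = ∑ i, ∑ j, lam j ^ (p + q) * w i j := by
    rw [Finset.sum_comm]
    exact Finset.sum_congr rfl fun i _ => Finset.sum_congr rfl fun j _ => by rw [hs j i]
  have h : ∑ i, ∑ j, (lam i ^ p * lam j ^ q * w i j + lam j ^ p * lam i ^ q * w i j)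
      ≤ ∑ i, ∑ j, (lam i ^ (p + q) * w i j + lam j ^ (p + q) * w i j) := by
    refine Finset.sum_le_sum fun i _ => Finset.sum_le_sum fun j _ => ?_
    rw [← sub_nonneg, show lam i ^ (p + q) * w i j + lam j ^ (p + q) * w i j
      - (lam i ^ p * lam j ^ q * w i j + lam j ^ p * lam i ^ q * w i j)
      = (lam i ^ p - lam j ^ p) * (lam i ^ q - lam j ^ q) * w i j by ring]
    refine mul_nonneg ?_ (hw i j)
    rcases le_total (lam i) (lam j) with hle | hle
    · exact mul_nonneg_of_nonpos_of_nonpos (sub_nonpos.2 (pow_le_pow_left₀ (hl i) hle p))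
        (sub_nonpos.2 (pow_le_pow_left₀ (hl i) hle q))
    · exact mul_nonneg (sub_nonneg.2 (pow_le_pow_left₀ (hl j) hle p))
        (sub_nonneg.2 (pow_le_pow_left₀ (hl j) hle q))
  simp only [Finset.sum_add_distrib] at h
  linarith

theorem trace_pair_le {U : Matrix (Fin n) (Fin n) ℝ} {lam : Fin n → ℝ}
    {A : Matrix (Fin n) (Fin n) ℝ} (hp : ∀ p : ℕ, A ^ p = U * diagonal (fun l => lam l ^ p) * Uᵀ)
    (hl : ∀ i, 0 ≤ lam i) {T : Matrix (Fin n) (Fin n) ℝ} (hT : T.IsSymm) (p q : ℕ) :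
    trace (A ^ p * T * A ^ q * T) ≤ trace (A ^ (p + q) * T * T) := by
  have hR : A ^ (p + q) * T * T = A ^ (p + q) * T * A ^ 0 * T := by rw [pow_zero, Matrix.mul_one]
  rw [hR, hp p, hp q, hp (p + q), hp 0, trace_eigen, trace_eigen]
  simp only [pow_zero, mul_one]
  have hs : ∀ i j, (Uᵀ * T * U) i j = (Uᵀ * T * U) j i := fun i j => by
    have e : (Uᵀ * T * U)ᵀ = Uᵀ * T * U := by
      rw [transpose_mul, transpose_mul, transpose_transpose, hT.eq, ← Matrix.mul_assoc]
    exact congrFun (congrFun e.symm i) j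
  refine sum_sym_le (w := fun i j => (Uᵀ * T * U) i j * (Uᵀ * T * U) j i) (fun i j => ?_)
    (fun i j => mul_comm _ _) hl p q
  rw [hs j i]
  exact mul_self_nonneg _

theorem trace_sq_eigen {U : Matrix (Fin n) (Fin n) ℝ} (lam : Fin n → ℝ)
    {T : Matrix (Fin n) (Fin n) ℝ} (hT : T.IsSymm) :
    trace (U * diagonal lam * Uᵀ * T * T) = ∑ l, lam l * ∑ i, (∑ j, T i j * U j l) ^ 2 := by
  rw [show U * diagonal lam * Uᵀ * T * T = U * (diagonal lam * ((T * U)ᵀ * T)) by
    rw [transpose_mul, hT.eq]; simp only [Matrix.mul_assoc], trace_mul_comm]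
  refine Finset.sum_congr rfl fun l _ => ?_
  rw [diag, Matrix.mul_assoc, Matrix.mul_assoc, diagonal_mul, Matrix.mul_apply]
  refine congrArg (lam l * ·) (Finset.sum_congr rfl fun i _ => ?_)
  simp [Matrix.mul_apply, pow_two]

/-! ### Linearity of the posterior covariance -/

theorem CP.coord (i : Fin n) : CP fun x : Fin n → ℝ => x i := ⟨continuous_apply i, polyB_coord i⟩

theorem mg_const_mul (c : ℝ) (f : (Fin n → ℝ) → ℝ) (s : ℝ) (θ : Fin n → ℝ) :
    mg ρ (fun x => c * f x) s θ = c * mg ρ f s θ := by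
  simp only [mg, num, mul_assoc, integral_const_mul, mul_div_assoc]

theorem mg_const (h : Ulc η ρ) (c : ℝ) {s : ℝ} (hs : 0 ≤ s) (θ : Fin n → ℝ) :
    mg ρ (fun _ => c) s θ = c := by
  have := mg_const_mul (ρ := ρ) c (fun _ => 1) s θ
  simp only [mul_one] at this
  rw [this]
  show c * (part ρ s θ / part ρ s θ) = c
  rw [div_self (part_pos h hs θ).ne', mul_one]

theorem mg_add (h : Ulc η ρ) {f g : (Fin n → ℝ) → ℝ} (hf : CP f) (hg : CP g) {s : ℝ}
    (hs : 0 ≤ s) (θ : Fin n → ℝ) :
    mg ρ (fun x => f x + g x) s θ = mg ρ f s θ + mg ρ g s θ := by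
  simp only [mg, num, add_mul]
  rw [integral_add (integrable_wgt h hf.1.measurable hf.2 hs θ)
    (integrable_wgt h hg.1.measurable hg.2 hs θ), add_div]

theorem mg_sum {ι : Type} (h : Ulc η ρ) (S : Finset ι) {f : ι → (Fin n → ℝ) → ℝ}
    (hf : ∀ j, CP (f j)) {s : ℝ} (hs : 0 ≤ s) (θ : Fin n → ℝ) :
    mg ρ (fun x => ∑ j ∈ S, f j x) s θ = ∑ j ∈ S, mg ρ (f j) s θ := by
  simp only [mg]
  rw [num_sum h S (fun j => (hf j).1) (fun j => (hf j).2) hs θ, Finset.sum_div]

theorem pcov_comm (f g : (Fin n → ℝ) → ℝ) (s : ℝ) (θ : Fin n → ℝ) :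
    pcov ρ f g s θ = pcov ρ g f s θ := by
  simp only [pcov, mul_comm]

theorem pcov_sum {ι : Type} (h : Ulc η ρ) (S : Finset ι) {f : ι → (Fin n → ℝ) → ℝ}
    {g : (Fin n → ℝ) → ℝ} (hf : ∀ j, CP (f j)) (hg : CP g) (c : ι → ℝ) {s : ℝ} (hs : 0 ≤ s)
    (θ : Fin n → ℝ) :
    pcov ρ (fun x => ∑ j ∈ S, c j * f j x) g s θ = ∑ j ∈ S, c j * pcov ρ (f j) g s θ := by
  simp only [pcov, Finset.sum_mul, mul_assoc]
  rw [mg_sum h S (fun j => (CP.const (c j)).mul ((hf j).mul hg)) hs θ,
    mg_sum h S (fun j => (CP.const (c j)).mul (hf j)) hs θ, Finset.sum_mul,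
    ← Finset.sum_sub_distrib]
  refine Finset.sum_congr rfl fun j _ => ?_
  rw [mg_const_mul, mg_const_mul]
  ring

theorem pcov_centred (h : Ulc η ρ) {g : (Fin n → ℝ) → ℝ} (hg : CP g) (i j : Fin n) (a b : ℝ)
    {s : ℝ} (hs : 0 ≤ s) (θ : Fin n → ℝ) :
    pcov ρ g (fun x => (x i - a) * (x j - b)) s θ =
      pcov ρ (fun x => x i * x j) g s θ - b * pcov ρ (fun x => x i) g s θ
        - a * pcov ρ (fun x => x j) g s θ := by
  have hi := CP.coord (n := n) i
  have hj := CP.coord (n := n) j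
  have e : ∀ x : Fin n → ℝ, (x i - a) * (x j - b)
      = x i * x j + ((-b) * x i + ((-a) * x j + a * b)) := fun x => by ring
  rw [pcov_comm]
  simp only [pcov, e, add_mul, mul_assoc]
  rw [mg_add h ((hi.mul (hj.mul hg)))
      (((CP.const _).mul (hi.mul hg)).add (((CP.const _).mul (hj.mul hg)).add
        ((CP.const a).mul ((CP.const b).mul hg)))) hs θ,
    mg_add h ((CP.const _).mul (hi.mul hg)) (((CP.const _).mul (hj.mul hg)).add
      ((CP.const a).mul ((CP.const b).mul hg))) hs θ,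
    mg_add h ((CP.const _).mul (hj.mul hg)) ((CP.const a).mul ((CP.const b).mul hg)) hs θ,
    mg_add h (hi.mul hj) (((CP.const _).mul hi).add (((CP.const _).mul hj).add (CP.const _))) hs θ,
    mg_add h ((CP.const _).mul hi) (((CP.const _).mul hj).add (CP.const _)) hs θ,
    mg_add h ((CP.const _).mul hj) (CP.const _) hs θ]
  simp only [mg_const_mul, mg_const h _ hs θ]
  ring

/-! ### The covariance as a field -/

/-- The posterior covariance of two coordinates as a field. -/
def covF (ρ : (Fin n → ℝ) → ℝ) (i j : Fin n) : Field n :=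
  (mfield ρ fun x => x i * x j).add ((Field.const (-1)).mul
    ((mfield ρ fun x => x i).mul (mfield ρ fun x => x j)))

/-- The powers of the posterior covariance as fields. -/
def powF (ρ : (Fin n → ℝ) → ℝ) : ℕ → Fin n → Fin n → Field n
  | 0 => fun i j => Field.const (if i = j then 1 else 0)
  | m + 1 => fun i j => Field.sum Finset.univ fun l => (powF ρ m i l).mul (covF ρ l j)

/-- The state derivative of the posterior covariance. -/
def tens (ρ : (Fin n → ℝ) → ℝ) (s : ℝ) (θ : Fin n → ℝ) (k : Fin n) : Matrix (Fin n) (Fin n) ℝ :=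
  Matrix.of fun i j => (covF ρ i j).dx k s θ

theorem covF_val (i j : Fin n) (s : ℝ) (θ : Fin n → ℝ) :
    (covF ρ i j).val s θ = covMat ρ s θ i j := by
  simp [covF, covMat, pcov, Field.add, Field.mul, Field.const, mfield]
  ring

theorem covMat_symm (s : ℝ) (θ : Fin n → ℝ) : (covMat ρ s θ).IsSymm := by
  ext i j
  exact pcov_comm _ _ s θ

theorem tens_apply (k i j : Fin n) (s : ℝ) (θ : Fin n → ℝ) :
    tens ρ s θ k i j = pcov ρ (fun x => x i * x j) (fun x => x k) s θ
      - (covMat ρ s θ i k * bary ρ s θ j + bary ρ s θ i * covMat ρ s θ j k) := by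
  simp [tens, covF, covMat, bary, Field.add, Field.mul, Field.const, mfield]
  ring

theorem tens_symm (k : Fin n) (s : ℝ) (θ : Fin n → ℝ) : (tens ρ s θ k).IsSymm := by
  ext i j
  simp only [Matrix.transpose_apply, tens_apply]
  rw [show (fun x : Fin n → ℝ => x j * x i) = fun x => x i * x j from funext fun x => mul_comm _ _]
  ring

theorem reg_covF (h : Ulc η ρ) (i j : Fin n) : (covF ρ i j).Reg :=
  reg_add (reg_mfield h ((CP.coord i).mul (CP.coord j)).1 ((CP.coord i).mul (CP.coord j)).2)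
    (reg_mul (reg_const _) (reg_mul (reg_mfield h (continuous_apply i) (polyB_coord i))
      (reg_mfield h (continuous_apply j) (polyB_coord j))))

theorem reg_powF (h : Ulc η ρ) : ∀ m i j, (powF ρ m i j).Reg
  | 0, _, _ => reg_const _
  | m + 1, i, j => reg_sum fun l _ => reg_mul (reg_powF h m i l) (reg_covF h l j)

theorem gen_covF (h : Ulc η ρ) {s : ℝ} (hs : 0 ≤ s) (θ : Fin n → ℝ) (i j : Fin n) :
    (covF ρ i j).gen ρ s θ = -((covMat ρ s θ * covMat ρ s θ) i j) := by
  simp only [covF, gen_add, gen_mul, gen_const,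
    gen_mfield h ((CP.coord i).mul (CP.coord j)).1 ((CP.coord i).mul (CP.coord j)).2 hs,
    gen_mfield h (continuous_apply i) (polyB_coord i) hs,
    gen_mfield h (continuous_apply j) (polyB_coord j) hs]
  simp [Field.const, Field.mul, mfield, Matrix.mul_apply, covMat, pcov_comm (fun x => x j)]

theorem powF_val (m : ℕ) (s : ℝ) (θ : Fin n → ℝ) :
    (Matrix.of fun i j => (powF ρ m i j).val s θ) = covMat ρ s θ ^ m := by
  induction m with
  | zero => ext i j; simp [powF, Field.const, Matrix.one_apply]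
  | succ m ih =>
    rw [pow_succ, ← ih]
    ext i j
    simp [powF, Field.sum, Field.mul, Matrix.mul_apply, covF_val]

theorem powF_dx (m : ℕ) (s : ℝ) (θ : Fin n → ℝ) (k : Fin n) :
    (Matrix.of fun i j => (powF ρ (m + 1) i j).dx k s θ) =
      (Matrix.of fun i j => (powF ρ m i j).dx k s θ) * covMat ρ s θ
        + covMat ρ s θ ^ m * tens ρ s θ k := by
  rw [← powF_val]
  ext i j
  simp [powF, Field.sum, Field.mul, Matrix.mul_apply, covF_val, tens, Finset.sum_add_distrib]

theorem powF_gen (h : Ulc η ρ) (m : ℕ) {s : ℝ} (hs : 0 ≤ s) (θ : Fin n → ℝ) :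
    (Matrix.of fun i j => (powF ρ (m + 1) i j).gen ρ s θ) =
      (Matrix.of fun i j => (powF ρ m i j).gen ρ s θ) * covMat ρ s θ
        - covMat ρ s θ ^ (m + 2)
        + ∑ k, (Matrix.of fun i j => (powF ρ m i j).dx k s θ) * tens ρ s θ k := by
  rw [show covMat ρ s θ ^ (m + 2) = covMat ρ s θ ^ m * (covMat ρ s θ * covMat ρ s θ) by
    rw [pow_add, pow_two], ← powF_val]
  ext i j
  simp only [powF, Matrix.of_apply, gen_sum, gen_mul, gen_covF h hs, covF_val]
  simp only [Matrix.add_apply, Matrix.sub_apply, Matrix.sum_apply, Matrix.mul_apply,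
    Matrix.of_apply, tens, Finset.sum_add_distrib, mul_neg, Finset.sum_neg_distrib]
  rw [Finset.sum_comm (f := fun l k => (powF ρ m i l).dx k s θ * (covF ρ l j).dx k s θ)]
  ring

theorem dotProduct_covMat (h : Ulc η ρ) {s : ℝ} (hs : 0 ≤ s) (θ u : Fin n → ℝ) :
    covc (post ρ s θ) (dotp u) (dotp u) = u ⬝ᵥ (covMat ρ s θ *ᵥ u) := by
  rw [covc_dotp_post h hs θ u]
  simp only [dotProduct, Matrix.mulVec, Finset.mul_sum]
  exact Finset.sum_congr rfl fun i _ => Finset.sum_congr rfl fun j _ => mul_assoc _ _ _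

theorem eigen_covMat (h : Ulc η ρ) {s : ℝ} (hs : 0 ≤ s) (θ : Fin n → ℝ) :
    ∃ (U : Matrix (Fin n) (Fin n) ℝ) (lam : Fin n → ℝ), Uᵀ * U = 1 ∧ U * Uᵀ = 1 ∧
      (∀ p : ℕ, covMat ρ s θ ^ p = U * diagonal (fun l => lam l ^ p) * Uᵀ) ∧
      (∀ l, covc (post ρ s θ) (dotp fun j => U j l) (dotp fun j => U j l) = lam l) ∧
      (∀ l, 0 ≤ lam l) ∧
      (∀ u, covc (post ρ s θ) (dotp u) (dotp u) = ∑ l, lam l * (Uᵀ *ᵥ u) l ^ 2) ∧
      (∀ u, nsq u = ∑ l, (Uᵀ *ᵥ u) l ^ 2) := by
  obtain ⟨U, lam, h1, h2, hp⟩ := exists_eigen _ (covMat_symm (ρ := ρ) s θ)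
  have hA : covMat ρ s θ = U * diagonal lam * Uᵀ := by simpa using hp 1
  have hq : ∀ u, covc (post ρ s θ) (dotp u) (dotp u) = ∑ l, lam l * (Uᵀ *ᵥ u) l ^ 2 := fun u => by
    rw [dotProduct_covMat h hs, hA, quad_eigen]
  have hcol : ∀ l, covc (post ρ s θ) (dotp fun j => U j l) (dotp fun j => U j l) = lam l :=
    fun l => by
      have hu : (Uᵀ *ᵥ fun j => U j l) = Pi.single l 1 := by
        funext i
        have := congrFun (congrFun h1 i) l
        simpa [Matrix.mul_apply, Matrix.mulVec, dotProduct, Matrix.one_apply, Pi.single_apply]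
          using this
      rw [hq, hu]
      simp [Pi.single_apply]
  refine ⟨U, lam, h1, h2, hp, hcol, fun l => hcol l ▸ covc_self_nonneg _, hq, fun u => ?_⟩
  have := quad_eigen (U := U) (fun _ => 1) u
  simpa [h2, diagonal_one, dotProduct, nsq, pow_two] using this

/-- The contraction of the third moment tensor with a vector. -/
theorem tens_contract_le (h : Ulc η ρ) {V : ℝ} (hV : QBound n V) {s : ℝ} (hs : 0 ≤ s)
    (θ : Fin n → ℝ) {L : ℝ} (hL : 0 < L) (hcov : CovLe (post ρ s θ) L) (u : Fin n → ℝ) :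
    ∑ k, ∑ i, (∑ j, tens ρ s θ k i j * u j) ^ 2 ≤
      V * L ^ 2 * covc (post ρ s θ) (dotp u) (dotp u) := by
  set N : Matrix (Fin n) (Fin n) ℝ := Matrix.of fun k i => ∑ j, tens ρ s θ k i j * u j with hN
  set Q := ∑ k, ∑ i, N k i ^ 2
  change Q ≤ _
  have hQ0 : 0 ≤ Q := Finset.sum_nonneg fun k _ => Finset.sum_nonneg fun i _ => sq_nonneg _
  set a := bary ρ s θ
  set q : (Fin n → ℝ) → ℝ := fun x => qf N (x - a)
  have hcd : CP (dotp u) :=
    CP.sum Finset.univ fun j _ => (CP.const (u j)).mul (CP.coord (n := n) j)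
  have hcq : CP q := CP.sum Finset.univ fun i _ => CP.sum Finset.univ fun j _ =>
    ((CP.const (N i j)).mul ((CP.coord i).add (CP.const (-(a i))))).mul
      ((CP.coord j).add (CP.const (-(a j)))) |> fun hh => by simpa [sub_eq_add_neg] using hh
  have hpu : ∀ k i, pcov ρ (dotp u) (fun x => (x k - a k) * (x i - a i)) s θ = N k i := fun k i => by
    have e1 := pcov_sum h Finset.univ (f := fun j x => x j) (fun j => CP.coord (n := n) j)
      (((CP.coord k).add (CP.const (-(a k)))).mul ((CP.coord i).add (CP.const (-(a i))))) u hs θ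
    simp only [← sub_eq_add_neg] at e1
    refine e1.trans (Finset.sum_congr rfl fun j _ => ?_)
    rw [pcov_centred h (CP.coord j) k i _ _ hs θ, mul_comm (u j)]
    congr 1
    have et : tens ρ s θ k i j = pcov ρ (fun x => x k * x i) (fun x => x j) s θ
        - a i * covMat ρ s θ k j - a k * covMat ρ s θ i j := by
      rw [tens_apply]
      simp only [covMat, Matrix.of_apply, pcov, a, bary, mul_comm, mul_left_comm]
      ring
    exact et.symm
  have hcov1 : covc (post ρ s θ) (dotp u) q = Q := by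
    rw [covc_post h hs θ hcd.1.measurable hcq.1.measurable hcd.2 hcq.2, pcov_comm]
    have hy : ∀ k i, CP fun x : Fin n → ℝ => (x k - a k) * (x i - a i) := fun k i => by
      simpa [sub_eq_add_neg] using
        ((CP.coord k).add (CP.const (-(a k)))).mul ((CP.coord i).add (CP.const (-(a i))))
    have e2 := pcov_sum h (Finset.univ : Finset (Fin n × Fin n))
      (f := fun p x => (x p.1 - a p.1) * (x p.2 - a p.2)) (g := dotp u) (fun p => hy p.1 p.2) hcd
      (fun p => N p.1 p.2) hs θ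
    simp only [Fintype.sum_prod_type, ← mul_assoc] at e2
    refine e2.trans (Finset.sum_congr rfl fun k _ => Finset.sum_congr rfl fun i _ => ?_)
    rw [pcov_comm, hpu, pow_two]
  by_cases hQ : Q = 0
  · rw [hQ]
    refine mul_nonneg (mul_nonneg ?_ (sq_nonneg L)) (covc_self_nonneg _)
    have h0 := hV _ _ (post_ulc h hs θ) L hL hcov 0 Matrix.isSymm_zero (by simp)
    exact nonneg_of_mul_nonneg_left ((covc_self_nonneg _).trans h0) (by positivity)
  have hQp : 0 < Q := lt_of_le_of_ne hQ0 (Ne.symm hQ)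
  have hsq : 0 < Real.sqrt Q := Real.sqrt_pos.2 hQp
  have hS : ((Real.sqrt Q)⁻¹ • N).IsSymm := by
    refine Matrix.IsSymm.smul ?_ _
    ext k i
    simp only [Matrix.transpose_apply, hN, Matrix.of_apply]
    rw [← Matrix.of_apply (fun k i => ∑ j, tens ρ s θ k i j * u j) i k, ← hN, ← hpu i k,
      show (fun x : Fin n → ℝ => (x i - a i) * (x k - a k)) = fun x => (x k - a k) * (x i - a i)
        from funext fun x => mul_comm _ _, hpu, hN, Matrix.of_apply]
  have hn : ∑ k, ∑ i, ((Real.sqrt Q)⁻¹ • N) k i ^ 2 ≤ 1 := by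
    simp only [Matrix.smul_apply, smul_eq_mul, mul_pow, ← Finset.mul_sum, inv_pow,
      Real.sq_sqrt hQ0]
    exact (inv_mul_cancel₀ hQ).le
  have hv := hV _ _ (post_ulc h hs θ) L hL hcov _ hS hn
  have e3 : (fun x => qf ((Real.sqrt Q)⁻¹ • N) (x - center (post ρ s θ)))
      = fun x => (Real.sqrt Q)⁻¹ * q x := funext fun x => by
    simp [q, qf, center_post h hs θ, a, Finset.mul_sum, mul_assoc]
  rw [e3] at hv
  have e4 : covc (post ρ s θ) (fun x => (Real.sqrt Q)⁻¹ * q x) (fun x => (Real.sqrt Q)⁻¹ * q x)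
      = Q⁻¹ * covc (post ρ s θ) q q := by
    simp only [covc, integral_const_mul, ← mul_sub, mul_mul_mul_comm, integral_const_mul]
    rw [← mul_inv, Real.mul_self_sqrt hQ0]
  rw [e4, inv_mul_le_iff₀ hQp] at hv
  have hcs := covc_sq_le (post_ulc h hs θ) hcd.1.measurable hcq.1.measurable hcd.2 hcq.2
  rw [hcov1] at hcs
  nlinarith [mul_le_mul_of_nonneg_left hv (covc_self_nonneg (ρ := post ρ s θ) (dotp u))]

theorem trace_dx_le (h : Ulc η ρ) {s : ℝ} (hs : 0 ≤ s) (θ : Fin n → ℝ) (k : Fin n) :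
    ∀ m q r N : ℕ, m + q + r = N + 1 →
      trace ((Matrix.of fun i j => (powF ρ m i j).dx k s θ) * covMat ρ s θ ^ q * tens ρ s θ k
          * covMat ρ s θ ^ r)
        ≤ m * trace (covMat ρ s θ ^ N * tens ρ s θ k * tens ρ s θ k) := by
  obtain ⟨U, lam, -, -, hp, -, hl, -, -⟩ := eigen_covMat h hs θ
  intro m
  induction m with
  | zero =>
    intro q r N _
    rw [show (Matrix.of fun i j => (powF ρ 0 i j).dx k s θ) = 0 from Matrix.ext fun i j => rfl]
    simp
  | succ m ih =>
    intro q r N hN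
    rw [powF_dx, Matrix.add_mul, Matrix.add_mul, Matrix.add_mul, trace_add, Nat.cast_succ, add_mul,
      one_mul, Matrix.mul_assoc (Matrix.of _), ← pow_succ']
    refine add_le_add (ih (q + 1) r N (by omega)) ?_
    rw [trace_mul_comm, ← Matrix.mul_assoc, ← Matrix.mul_assoc, ← Matrix.mul_assoc, ← pow_add]
    obtain rfl : N = r + m + q := by omega
    exact trace_pair_le hp hl (tens_symm k s θ) (r + m) q

theorem trace_gen_le (h : Ulc η ρ) {s : ℝ} (hs : 0 ≤ s) (θ : Fin n → ℝ) :
    ∀ m r N : ℕ, m + r = N + 2 →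
      trace ((Matrix.of fun i j => (powF ρ m i j).gen ρ s θ) * covMat ρ s θ ^ r)
        ≤ (m : ℝ) * (m - 1) / 2 *
          ∑ k, trace (covMat ρ s θ ^ N * tens ρ s θ k * tens ρ s θ k) := by
  obtain ⟨U, lam, h1, -, hp, -, hl, -, -⟩ := eigen_covMat h hs θ
  intro m
  induction m with
  | zero =>
    intro r N _
    rw [show (Matrix.of fun i j => (powF ρ 0 i j).gen ρ s θ) = 0 from
      Matrix.ext fun i j => gen_const _ s θ]
    simp
  | succ m ih =>
    intro r N hN
    rw [powF_gen h m hs, Matrix.add_mul, Matrix.sub_mul, trace_add, trace_sub, Matrix.sum_mul,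
      trace_sum, Matrix.mul_assoc (Matrix.of _), ← pow_succ', ← pow_add]
    have h0 : 0 ≤ trace (covMat ρ s θ ^ (m + 2 + r)) := by
      rw [hp, trace_mul_comm, ← Matrix.mul_assoc, h1, Matrix.one_mul, trace_diagonal]
      exact Finset.sum_nonneg fun l _ => pow_nonneg (hl l) _
    have h2 : ∀ k, trace ((Matrix.of fun i j => (powF ρ m i j).dx k s θ) * tens ρ s θ k
        * covMat ρ s θ ^ r) ≤ m * trace (covMat ρ s θ ^ N * tens ρ s θ k * tens ρ s θ k) :=
      fun k => by
        simpa using trace_dx_le h hs θ k m 0 r N (by omega)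
    have h3 := Finset.sum_le_sum fun k (_ : k ∈ Finset.univ) => h2 k
    rw [← Finset.mul_sum] at h3
    have h4 := ih (r + 1) N (by omega)
    push_cast
    linarith

/-- The smoothed power sum of the eigenvalues. -/
def powSum (ρ : (Fin n → ℝ) → ℝ) (c : ℝ) (m : ℕ) : Field n :=
  (Field.sum Finset.univ fun i => powF ρ m i i).add (Field.const (n * c ^ m))

theorem powSum_val (c : ℝ) (m : ℕ) (s : ℝ) (θ : Fin n → ℝ) :
    (powSum ρ c m).val s θ = trace (covMat ρ s θ ^ m) + n * c ^ m := by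
  rw [← powF_val]
  simp [powSum, Field.add, Field.sum, Field.const, trace]

theorem reg_powSum (h : Ulc η ρ) (c : ℝ) (m : ℕ) : (powSum ρ c m).Reg :=
  reg_add (reg_sum fun i _ => reg_powF h m i i) (reg_const _)

theorem gen_powSum_le (h : Ulc η ρ) {V : ℝ} (hV : QBound n V) (hV0 : 0 ≤ V) {c : ℝ} (hc : 0 < c)
    {m : ℕ} (hm : 2 ≤ m) {s : ℝ} (hs : 0 ≤ s) (θ : Fin n → ℝ) {L : ℝ} (hL : 0 < L)
    (hLm : (powSum ρ c m).val s θ ≤ L ^ m) :
    (powSum ρ c m).gen ρ s θ ≤ (m : ℝ) ^ 2 * V / (2 * c) * L ^ 2 * (powSum ρ c m).val s θ := by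
  obtain ⟨U, lam, h1, -, hp, hcol, hl, hq, hn⟩ := eigen_covMat h hs θ
  set S := (powSum ρ c m).val s θ with hS
  have hSe : S = (∑ l, lam l ^ m) + n * c ^ m := by
    rw [hS, powSum_val, hp, trace_mul_comm, ← Matrix.mul_assoc, h1, Matrix.one_mul, trace_diagonal]
  have hsum0 : 0 ≤ ∑ l, lam l ^ m := Finset.sum_nonneg fun l _ => pow_nonneg (hl l) m
  have hlL : ∀ l, lam l ≤ L := fun l => by
    refine le_of_pow_le_pow_left₀ (by omega : m ≠ 0) hL.le ?_
    have h1 := Finset.single_le_sum (f := fun l => lam l ^ m) (fun l _ => pow_nonneg (hl l) m)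
      (Finset.mem_univ l)
    have h2 : (0 : ℝ) ≤ n * c ^ m := by positivity
    linarith
  have hcov : CovLe (post ρ s θ) L := fun u => by
    rw [hq, hn, Finset.mul_sum]
    exact Finset.sum_le_sum fun l _ => mul_le_mul_of_nonneg_right (hlL l) (sq_nonneg _)
  obtain ⟨N, rfl⟩ : ∃ N, m = N + 2 := ⟨m - 2, by omega⟩
  set τ := ∑ k, trace (covMat ρ s θ ^ N * tens ρ s θ k * tens ρ s θ k)
  have hτ : τ = ∑ l, lam l ^ N * ∑ k, ∑ i, (∑ j, tens ρ s θ k i j * U j l) ^ 2 := by
    simp only [τ, hp, trace_sq_eigen (fun l => lam l ^ N) (tens_symm _ s θ), Finset.mul_sum]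
    exact Finset.sum_comm
  have hb : τ * c ≤ V * L ^ 2 * S := by
    rw [hτ, Finset.sum_mul]
    refine (Finset.sum_le_sum (g := fun l => V * L ^ 2 * (lam l ^ (N + 2) + c ^ (N + 2)))
      fun l _ => ?_).trans ?_
    · have ht := tens_contract_le h hV hs θ hL hcov fun j => U j l
      rw [hcol] at ht
      have hpow : lam l ^ (N + 1) * c ≤ lam l ^ (N + 2) + c ^ (N + 2) := by
        rcases le_total (lam l) c with hle | hle
        · calc lam l ^ (N + 1) * c ≤ c ^ (N + 1) * c :=
                mul_le_mul_of_nonneg_right (pow_le_pow_left₀ (hl l) hle _) hc.le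
            _ = c ^ (N + 2) := by ring
            _ ≤ _ := le_add_of_nonneg_left (pow_nonneg (hl l) _)
        · calc lam l ^ (N + 1) * c ≤ lam l ^ (N + 1) * lam l :=
                mul_le_mul_of_nonneg_left hle (pow_nonneg (hl l) _)
            _ = lam l ^ (N + 2) := by ring
            _ ≤ _ := le_add_of_nonneg_right (pow_nonneg hc.le _)
      calc lam l ^ N * (∑ k, ∑ i, (∑ j, tens ρ s θ k i j * U j l) ^ 2) * c
          ≤ lam l ^ N * (V * L ^ 2 * lam l) * c :=
            mul_le_mul_of_nonneg_right (mul_le_mul_of_nonneg_left ht (pow_nonneg (hl l) N)) hc.le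
        _ = V * L ^ 2 * (lam l ^ (N + 1) * c) := by ring
        _ ≤ _ := mul_le_mul_of_nonneg_left hpow (by positivity)
    · rw [← Finset.mul_sum, Finset.sum_add_distrib, hSe]
      simp
  have hg : (powSum ρ c (N + 2)).gen ρ s θ
      ≤ ((N + 2 : ℕ) : ℝ) * (((N + 2 : ℕ) : ℝ) - 1) / 2 * τ := by
    refine le_of_eq_of_le ?_ (trace_gen_le h hs θ (N + 2) 0 N rfl)
    rw [pow_zero, Matrix.mul_one, powSum, gen_add, gen_sum, gen_const, add_zero]
    rfl
  refine hg.trans ?_
  have hτ0 : 0 ≤ τ := by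
    rw [hτ]
    exact Finset.sum_nonneg fun l _ => mul_nonneg (pow_nonneg (hl l) N)
      (Finset.sum_nonneg fun k _ => Finset.sum_nonneg fun i _ => sq_nonneg _)
  calc ((N + 2 : ℕ) : ℝ) * (((N + 2 : ℕ) : ℝ) - 1) / 2 * τ
      ≤ ((N + 2 : ℕ) : ℝ) ^ 2 / 2 * τ := by
        refine mul_le_mul_of_nonneg_right ?_ hτ0
        push_cast
        nlinarith [(Nat.cast_nonneg N : (0 : ℝ) ≤ N)]
    _ ≤ ((N + 2 : ℕ) : ℝ) ^ 2 / 2 * (V * L ^ 2 * S / c) :=
        mul_le_mul_of_nonneg_left ((le_div_iff₀ hc).2 hb) (by positivity)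
    _ = _ := by field_simp

/-! ### The tail bound -/

theorem isOpen_badSet (h : Ulc η ρ) {s : ℝ} (hs : 0 ≤ s) (c : ℝ) : IsOpen (badSet ρ s c) := by
  have e : badSet ρ s c
      = ⋃ u : Fin n → ℝ, {θ | c * nsq u < ∑ i, ∑ j, u i * covMat ρ s θ i j * u j} := by
    ext θ
    simp [badSet, CovLe, covc_dotp_post h hs]
  rw [e]
  exact isOpen_iUnion fun u => isOpen_lt continuous_const <| continuous_finsetSum _ fun i _ =>
    continuous_finsetSum _ fun j _ => (continuous_const.mul (continuous_slice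
      (continuousOn_pcov h (continuous_apply i) (continuous_apply j) (polyB_coord i)
        (polyB_coord j)) hs)).mul continuous_const

theorem measurableSet_badSet (h : Ulc η ρ) {s : ℝ} (hs : 0 ≤ s) (c : ℝ) :
    MeasurableSet (badSet ρ s c) := (isOpen_badSet h hs c).measurableSet

theorem measurable_bad (h : Ulc η ρ) {s : ℝ} (hs : 0 ≤ s) (c : ℝ) :
    Measurable (bad ρ s c) := measurable_const.indicator (measurableSet_badSet h hs c)

theorem polyB_bad (s c : ℝ) : PolyB (bad ρ s c) :=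
  ⟨1, 0, fun θ => by
    by_cases hθ : θ ∈ badSet ρ s c <;> simp [bad, Set.indicator, hθ]⟩

theorem Ep_const_mul (c s : ℝ) (F : (Fin n → ℝ) → ℝ) :
    Ep ρ s (fun θ => c * F θ) = c * Ep ρ s F := integral_const_mul c _

theorem Ep_bad_le (h : Ulc η ρ) {V c ε s : ℝ} (hV : QBound n V) (hV0 : 0 ≤ V) (hc : 0 < c)
    (hcov : CovLe ρ c) (hε : 0 < ε) (hε' : ε ≤ 1) (hs : 0 < s) {m : ℕ} (hm : 2 ≤ m)
    (hn : 1 ≤ n) :
    Ep ρ s (bad ρ s (c * (1 + ε))) ≤
      4 * n * ((1 + ε) ^ m)⁻¹ * Real.exp (4 * (m : ℝ) ^ 2 * V * c * s) := by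
  set R := (c * (1 + ε)) ^ m with hR
  have hR0 : 0 < R := by positivity
  set Λ := 4 * (m : ℝ) ^ 2 * V * c with hΛ
  set φ : ℝ → ℝ := fun x => R * (1 - Real.exp (-x / R)) with hφ
  set F := (powSum ρ c m).comp φ (fun x => Real.exp (-x / R)) fun x => -(Real.exp (-x / R) / R)
    with hFdef
  have hval : ∀ r θ, 0 ≤ r → 0 < (powSum ρ c m).val r θ := fun r θ hr => by
    obtain ⟨U, lam, h1, -, hp, -, hl, -, -⟩ := eigen_covMat h hr θ
    rw [powSum_val, hp, trace_mul_comm, ← Matrix.mul_assoc, h1, Matrix.one_mul, trace_diagonal]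
    have h2 : (0 : ℝ) < n * c ^ m := mul_pos (by exact_mod_cast hn) (pow_pos hc m)
    linarith [Finset.sum_nonneg fun l (_ : l ∈ Finset.univ) => pow_nonneg (hl l) m]
  have hd1 : ∀ y, HasDerivAt φ (Real.exp (-y / R)) y := fun y => by
    refine ((((hasDerivAt_id y).neg.div_const R).exp.const_sub 1).const_mul R).congr_deriv ?_
    simp
    field_simp
  have hd2 : ∀ y, HasDerivAt (fun x => Real.exp (-x / R)) (-(Real.exp (-y / R) / R)) y := fun y => by
    refine (((hasDerivAt_id y).neg.div_const R).exp).congr_deriv ?_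
    simp
    ring
  have hFreg : F.Reg := by
    refine reg_comp (reg_powSum h c m) (D := Set.Ici 0) (fun r θ hr => (hval r θ hr).le) hd1 hd2
      (by fun_prop) (A := R + 1 + 1 / R) (k := 0) fun y hy => ?_
    have he0 : 0 < Real.exp (-y / R) := Real.exp_pos _
    have he1 : Real.exp (-y / R) ≤ 1 := by
      rw [Real.exp_le_one_iff, neg_div]
      exact neg_nonpos.2 (div_nonneg hy hR0.le)
    have hR1 : 0 < 1 / R := by positivity
    have e1 : |φ y| ≤ R := by
      rw [hφ, abs_of_nonneg (mul_nonneg hR0.le (by linarith))]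
      nlinarith
    have e2 : |(-(Real.exp (-y / R) / R))| ≤ 1 / R := by
      rw [abs_neg, abs_of_pos (div_pos he0 hR0)]
      exact div_le_div_of_nonneg_right he1 hR0.le
    simp only [pow_zero, mul_one, abs_of_pos he0]
    exact ⟨by linarith, by linarith, by linarith⟩
  have hgen : ∀ r θ, 0 ≤ r → F.gen ρ r θ ≤ Λ * F.val r θ := fun r θ hr => by
    set S := (powSum ρ c m).val r θ with hS
    have hS0 : 0 < S := hval r θ hr
    set L := S ^ ((m : ℝ)⁻¹) with hLdef
    have hL0 : 0 < L := Real.rpow_pos_of_pos hS0 _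
    have hLm : L ^ m = S := Real.rpow_inv_natCast_pow hS0.le (by omega)
    have hg := gen_powSum_le h hV hV0 hc hm hr θ hL0 hLm.ge
    rw [← hS] at hg
    set y := S / R with hy
    have hy0 : 0 < y := div_pos hS0 hR0
    have hL2 : L ^ 2 ≤ 4 * c ^ 2 * (1 + y) := by
      set z := L / (c * (1 + ε)) with hz
      have hz0 : 0 ≤ z := by positivity
      have hzm : z ^ m = y := by rw [hz, div_pow, hLm]
      have hz2 : z ^ 2 ≤ 1 + y := by
        rcases le_total z 1 with hle | hle
        · nlinarith [pow_le_one₀ hz0 hle (n := 2)]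
        · linarith [pow_le_pow_right₀ hle hm]
      have eL : L = z * (c * (1 + ε)) := by rw [hz]; field_simp
      rw [eL, mul_pow, mul_comm (z ^ 2)]
      refine mul_le_mul ?_ hz2 (sq_nonneg z) (by positivity)
      calc (c * (1 + ε)) ^ 2 ≤ (c * 2) ^ 2 :=
            pow_le_pow_left₀ (by positivity) (mul_le_mul_of_nonneg_left (by linarith) hc.le) 2
        _ = 4 * c ^ 2 := by ring
    have hexp : (1 + y) * y * Real.exp (-y) ≤ 2 * (1 - Real.exp (-y)) := by
      have h1 := Real.quadratic_le_exp_of_nonneg hy0.le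
      have h2 : Real.exp (-y) * Real.exp y = 1 := by rw [← Real.exp_add, neg_add_cancel, Real.exp_zero]
      nlinarith [Real.exp_pos (-y)]
    have hg2 : F.gen ρ r θ ≤ Real.exp (-y) * ((m : ℝ) ^ 2 * V / (2 * c) * L ^ 2 * S) := by
      rw [hFdef, gen_comp, ← hS, show -S / R = -y by rw [hy, neg_div]]
      have hneg : -(Real.exp (-y) / R) / 2 * ∑ i, (powSum ρ c m).dx i r θ ^ 2 ≤ 0 :=
        mul_nonpos_of_nonpos_of_nonneg (by
          have : 0 < Real.exp (-y) / R := by positivity
          linarith) (Finset.sum_nonneg fun i _ => sq_nonneg _)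
      linarith [mul_le_mul_of_nonneg_left hg (Real.exp_pos (-y)).le]
    refine hg2.trans ?_
    have hFv : F.val r θ = R * (1 - Real.exp (-y)) := by
      show φ S = _
      simp only [hφ, hy, neg_div]
    rw [hFv]
    calc Real.exp (-y) * ((m : ℝ) ^ 2 * V / (2 * c) * L ^ 2 * S)
        ≤ Real.exp (-y) * ((m : ℝ) ^ 2 * V / (2 * c) * (4 * c ^ 2 * (1 + y)) * S) := by
          refine mul_le_mul_of_nonneg_left ?_ (Real.exp_pos _).le
          exact mul_le_mul_of_nonneg_right (mul_le_mul_of_nonneg_left hL2 (by positivity)) hS0.le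
      _ = 2 * (m : ℝ) ^ 2 * V * c * R * ((1 + y) * y * Real.exp (-y)) := by
          rw [hy]; field_simp; ring
      _ ≤ 2 * (m : ℝ) ^ 2 * V * c * R * (2 * (1 - Real.exp (-y))) :=
          mul_le_mul_of_nonneg_left hexp (by positivity)
      _ = _ := by rw [hΛ]; ring
  set f := fun r => Ep ρ r (F.val r) with hf
  have hanti : AntitoneOn (fun r => Real.exp (-Λ * r) * f r) (Set.Icc 0 s) := by
    have hd : ∀ r ∈ Set.Ioo 0 s, HasDerivAt (fun r => Real.exp (-Λ * r) * f r)
        (Real.exp (-Λ * r) * (Ep ρ r (F.gen ρ r) - Λ * f r)) r := fun r hr => by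
      refine ((((hasDerivAt_id r).const_mul (-Λ)).exp).mul
        (hasDerivAt_Ep h hFreg hr.1)).congr_deriv ?_
      simp only [id, hf, mul_one]
      ring
    refine antitoneOn_of_deriv_nonpos (convex_Icc 0 s)
      ((Real.continuous_exp.comp (continuous_const.mul continuous_id)).continuousOn.mul
        ((continuousOn_Ep h hFreg).mono fun r hr => hr.1)) ?_ fun r hr => ?_
    · rw [interior_Icc]
      exact fun r hr => (hd r hr).differentiableAt.differentiableWithinAt
    · rw [interior_Icc] at hr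
      rw [(hd r hr).deriv]
      refine mul_nonpos_of_nonneg_of_nonpos (Real.exp_pos _).le (sub_nonpos.2 ?_)
      have hr0 := hr.1.le
      rw [hf, ← Ep_const_mul]
      exact Ep_mono h hr0 (continuous_slice (continuousOn_gen h hFreg) hr0).measurable
        ((continuous_slice hFreg.contVal hr0).const_mul Λ).measurable
        (polyB_slice (polyT_gen h hFreg) hr0)
        (polyB_mul (polyB_const Λ) (polyB_slice hFreg.polyVal hr0)) fun θ => hgen r θ hr0
  have h0 : f 0 ≤ 2 * n * c ^ m := by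
    rw [hf]
    simp only [Ep_zero h]
    show φ ((powSum ρ c m).val 0 0) ≤ _
    have hp0 : post ρ 0 0 = ρ := by
      funext x
      simp [post, wgt, dotp, part_zero h]
    obtain ⟨U, lam, h1, -, hp, hcol, hl, hq, hn2⟩ := eigen_covMat h le_rfl (0 : Fin n → ℝ)
    have hle : (powSum ρ c m).val 0 0 ≤ 2 * n * c ^ m := by
      rw [powSum_val, hp, trace_mul_comm, ← Matrix.mul_assoc, h1, Matrix.one_mul, trace_diagonal]
      have hsum : ∑ l, lam l ^ m ≤ ∑ _l : Fin n, c ^ m := Finset.sum_le_sum fun l _ => by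
        refine pow_le_pow_left₀ (hl l) ?_ m
        have hu : nsq (fun j => U j l) = 1 := by
          have := congrFun (congrFun h1 l) l
          simpa [Matrix.mul_apply, nsq, pow_two] using this
        have := hcov fun j => U j l
        rwa [hu, mul_one, ← hp0, hcol] at this
      simp at hsum
      linarith
    refine le_trans ?_ hle
    set x := (powSum ρ c m).val 0 0
    have := Real.add_one_le_exp (-x / R)
    calc R * (1 - Real.exp (-x / R)) ≤ R * (x / R) := by
          refine mul_le_mul_of_nonneg_left ?_ hR0.le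
          rw [neg_div] at this ⊢
          linarith
      _ = x := by field_simp
  have hmain : f s ≤ Real.exp (Λ * s) * (2 * n * c ^ m) := by
    have h1 := hanti (Set.left_mem_Icc.2 hs.le) (Set.right_mem_Icc.2 hs.le) hs.le
    simp only [mul_zero, Real.exp_zero, one_mul] at h1
    have h2 : Real.exp (Λ * s) * Real.exp (-Λ * s) = 1 := by
      rw [← Real.exp_add, show Λ * s + -Λ * s = 0 by ring, Real.exp_zero]
    calc f s = Real.exp (Λ * s) * (Real.exp (-Λ * s) * f s) := by rw [← mul_assoc, h2, one_mul]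
      _ ≤ _ := mul_le_mul_of_nonneg_left (h1.trans h0) (Real.exp_pos _).le
  have hbad : ∀ θ, bad ρ s (c * (1 + ε)) θ ≤ 2 / R * F.val s θ := fun θ => by
    set x := (powSum ρ c m).val s θ with hx
    have hx0 : 0 < x := hval s θ hs.le
    have hFv : F.val s θ = R * (1 - Real.exp (-x / R)) := rfl
    have hFn : 0 ≤ F.val s θ := by
      rw [hFv]
      refine mul_nonneg hR0.le (sub_nonneg.2 ?_)
      rw [Real.exp_le_one_iff, neg_div]
      exact neg_nonpos.2 (div_nonneg hx0.le hR0.le)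
    by_cases hθ : θ ∈ badSet ρ s (c * (1 + ε))
    · have hxR : R ≤ x := by
        obtain ⟨U, lam, h1, -, hp, -, hl, hq, hn2⟩ := eigen_covMat h hs.le θ
        obtain ⟨l, hl'⟩ : ∃ l, c * (1 + ε) < lam l := by
          by_contra hno
          simp only [not_exists, not_lt] at hno
          refine hθ fun u => ?_
          rw [hq, hn2, Finset.mul_sum]
          exact Finset.sum_le_sum fun l _ => mul_le_mul_of_nonneg_right (hno l) (sq_nonneg _)
        rw [hx, powSum_val, hp, trace_mul_comm, ← Matrix.mul_assoc, h1, Matrix.one_mul,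
          trace_diagonal]
        have h3 : R ≤ lam l ^ m := pow_le_pow_left₀ (by positivity) hl'.le m
        have h4 := Finset.single_le_sum (f := fun l => lam l ^ m)
          (fun l _ => pow_nonneg (hl l) m) (Finset.mem_univ l)
        have h5 : (0 : ℝ) ≤ n * c ^ m := by positivity
        linarith
      have he : Real.exp (-x / R) ≤ 1 / 2 := by
        refine (Real.exp_le_exp.2 ?_).trans Real.exp_neg_one_lt_half.le
        rw [neg_div, neg_le_neg_iff, le_div_iff₀ hR0]
        linarith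
      rw [bad, Set.indicator_of_mem hθ, hFv, ← mul_assoc, div_mul_cancel₀ _ hR0.ne']
      linarith
    · rw [bad, Set.indicator_of_notMem hθ]
      positivity
  calc Ep ρ s (bad ρ s (c * (1 + ε))) ≤ Ep ρ s fun θ => 2 / R * F.val s θ :=
        Ep_mono h hs.le (measurable_bad h hs.le _)
          ((continuous_slice hFreg.contVal hs.le).const_mul _).measurable (polyB_bad s _)
          (polyB_mul (polyB_const _) (polyB_slice hFreg.polyVal hs.le)) hbad
    _ = 2 / R * f s := Ep_const_mul _ _ _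
    _ ≤ 2 / R * (Real.exp (Λ * s) * (2 * n * c ^ m)) :=
        mul_le_mul_of_nonneg_left hmain (by positivity)
    _ = _ := by
        rw [hR, mul_pow, hΛ]
        field_simp
        ring

/-- The posterior covariance rarely grows within a short time. -/
theorem guan : ∃ C : ℝ, 0 < C ∧ ∀ (n : ℕ) (η : ℝ) (ρ : (Fin n → ℝ) → ℝ), Ulc η ρ →
    ∀ V c ε s : ℝ, QBound n V → 1 ≤ V → 0 < c → CovLe ρ c → 0 < ε → ε ≤ 1 → 0 < s →
      Ep ρ s (bad ρ s (c * (1 + ε))) ≤ C * n * Real.exp (-(ε ^ 2 / (C * V * c * s))) := by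
  refine ⟨128, by norm_num, fun n η ρ h V c ε s hV hV1 hc hcov hε hε' hs => ?_⟩
  rcases Nat.eq_zero_or_pos n with rfl | hn
  · have he : bad ρ s (c * (1 + ε)) = fun _ => (0 : ℝ) := by
      funext θ
      refine Set.indicator_of_notMem (s := badSet ρ s (c * (1 + ε))) ?_ _
      simp [badSet, CovLe, covc, dotp, nsq]
    rw [he, Ep_const h]
    simp
  set t := ε / (16 * V * c * s) with ht
  have hden : 0 < 16 * V * c * s := by positivity
  have hn' : (1 : ℝ) ≤ n := by exact_mod_cast hn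
  have hex : ε ^ 2 / (128 * V * c * s) = ε * t / 8 := by
    rw [ht]; field_simp; ring
  rw [hex]
  by_cases h2 : 2 ≤ t
  · set m := ⌊t⌋₊
    have hm : 2 ≤ m := Nat.le_floor (by exact_mod_cast h2)
    have hmt : (m : ℝ) ≤ t := Nat.floor_le (by linarith)
    have htm : t < m + 1 := Nat.lt_floor_add_one t
    refine (Ep_bad_le h hV (by linarith) hc hcov hε hε' hs hm hn).trans ?_
    have h1 : Real.exp (ε * m / 2) ≤ (1 + ε) ^ m := by
      rw [show ε * m / 2 = (m : ℝ) * (ε / 2) by ring, Real.exp_nat_mul]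
      refine pow_le_pow_left₀ (Real.exp_pos _).le ?_ m
      refine (Real.exp_bound_div_one_sub_of_interval (by linarith) (by linarith)).trans ?_
      rw [div_le_iff₀ (by linarith)]
      nlinarith
    have h3 : ((1 + ε) ^ m)⁻¹ ≤ Real.exp (-(ε * m / 2)) := by
      rw [Real.exp_neg]
      exact inv_anti₀ (Real.exp_pos _) h1
    have h4 : 4 * (m : ℝ) ^ 2 * V * c * s ≤ ε * m / 4 := by
      have := mul_le_mul_of_nonneg_right hmt (by positivity : (0 : ℝ) ≤ m * (4 * V * c * s))
      have e : t * (m * (4 * V * c * s)) = ε * m / 4 := by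
        rw [ht]; field_simp; ring
      linarith
    calc 4 * (n : ℝ) * ((1 + ε) ^ m)⁻¹ * Real.exp (4 * (m : ℝ) ^ 2 * V * c * s)
        ≤ 128 * n * Real.exp (-(ε * m / 2)) * Real.exp (ε * m / 4) := by
          refine mul_le_mul (mul_le_mul (by linarith) h3 (by positivity) (by positivity))
            (Real.exp_le_exp.2 h4) (Real.exp_pos _).le (by positivity)
      _ ≤ _ := by
          rw [mul_assoc, ← Real.exp_add]
          refine mul_le_mul_of_nonneg_left (Real.exp_le_exp.2 ?_) (by positivity)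
          have hm' : (2 : ℝ) ≤ m := by exact_mod_cast hm
          nlinarith
  · have hb : Ep ρ s (bad ρ s (c * (1 + ε))) ≤ 1 :=
      (Ep_mono h hs.le (measurable_bad h hs.le _) measurable_const (polyB_bad s _) (polyB_const 1)
        fun θ => Set.indicator_le_self' (fun _ _ => zero_le_one) θ).trans (Ep_const h s 1).le
    refine hb.trans ?_
    have ht0 : 0 ≤ t := by positivity
    have hx : ε * t / 8 ≤ 1 / 4 := by nlinarith
    have he := Real.add_one_le_exp (-(ε * t / 8))
    nlinarith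

end

end Vale.Agent.P245.General
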