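import Vale.Agent.P245.General.Calc

/-!
# P245, general measures: averages along the channel, averaging of smooth functions, the first
Hermite mode of a Gaussian average
-/

open MeasureTheory

namespace Vale.Agent.P245.General

noncomputable section

variable {n : ℕ} {η : ℝ} {ρ : (Fin n → ℝ) → ℝ}

theorem nsq_smul (a : ℝ) (x : Fin n → ℝ) : nsq (a • x) = a ^ 2 * nsq x := by
  simp [nsq, Finset.mul_sum, mul_pow]

theorem sq_le_nsq (x : Fin n → ℝ) (i : Fin n) : x i ^ 2 ≤ nsq x :=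
  Finset.single_le_sum (f := fun j => x j ^ 2) (fun j _ => sq_nonneg _) (Finset.mem_univ i)

theorem dotp_sq_le (u v : Fin n → ℝ) : dotp u v ^ 2 ≤ nsq u * nsq v :=
  Finset.sum_mul_sq_le_sq_mul_sq _ _ _

theorem one_add_nsq_affine_le (a b : ℝ) (x g : Fin n → ℝ) :
    1 + nsq (a • x + b • g) ≤ 2 * (1 + a ^ 2) * (1 + b ^ 2) * ((1 + nsq x) * (1 + nsq g)) := by
  have h := nsq_add_le (a • x) (b • g)
  rw [nsq_smul, nsq_smul] at h
  have hx := nsq_nonneg x
  have hg := nsq_nonneg g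
  have h1 : 0 ≤ a ^ 2 * nsq x * (b ^ 2 + nsq g + b ^ 2 * nsq g) := by positivity
  have h2 : 0 ≤ b ^ 2 * nsq g * (a ^ 2 + nsq x) := by positivity
  have h3 : 0 ≤ (1 + a ^ 2) * (1 + b ^ 2) * ((1 + nsq x) * (1 + nsq g))
      - 1 - a ^ 2 * nsq x - b ^ 2 * nsq g := by nlinarith
  linarith

theorem Field.Reg.cont {u : Field n} (hu : u.Reg) {s : ℝ} (hs : 0 ≤ s) : Continuous (u.val s) :=
  hu.contVal.comp_continuous (Continuous.prodMk continuous_const continuous_id)
    fun _ => ⟨hs, Set.mem_univ _⟩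

theorem Field.Reg.cont_dx {u : Field n} (hu : u.Reg) {s : ℝ} (hs : 0 ≤ s) (i : Fin n) :
    Continuous (u.dx i s) :=
  (hu.contDx i).comp_continuous (Continuous.prodMk continuous_const continuous_id)
    fun _ => ⟨hs, Set.mem_univ _⟩

theorem PolyT.polyB {F : ℝ → (Fin n → ℝ) → ℝ} (hF : PolyT F) {s : ℝ} (hs : 0 ≤ s) :
    PolyB (F s) := by
  obtain ⟨A, k, h⟩ := hF s
  exact ⟨A, k, fun θ => h s ⟨hs, le_rfl⟩ θ⟩

theorem polyB_mono {f g : (Fin n → ℝ) → ℝ} (hg : PolyB g) (h : ∀ x, |f x| ≤ |g x|) : PolyB f := by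
  obtain ⟨A, k, hg⟩ := hg
  exact ⟨A, k, fun x => (h x).trans (hg x)⟩

theorem polyB_smul (c : ℝ) {f : (Fin n → ℝ) → ℝ} (hf : PolyB f) : PolyB fun x => c * f x :=
  polyB_mul (polyB_const c) hf

theorem polyB_pow_two {f : (Fin n → ℝ) → ℝ} (hf : PolyB f) : PolyB fun x => f x ^ 2 := by
  simpa only [sq] using polyB_mul hf hf

theorem polyB2_state {F : (Fin n → ℝ) → ℝ} (hF : PolyB F) : PolyB2 fun _ θ => F θ := by
  obtain ⟨A, k, h⟩ := hF
  refine ⟨|A|, k, fun x θ => (h θ).trans ?_⟩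
  have h0 := nsq_nonneg θ
  have hx := nsq_nonneg x
  calc A * (1 + nsq θ) ^ k ≤ |A| * (1 + nsq θ) ^ k :=
        mul_le_mul_of_nonneg_right (le_abs_self A) (by positivity)
    _ ≤ _ := by gcongr; linarith

theorem integrable_state (h : Ulc η ρ) {F : (Fin n → ℝ) → ℝ} (hm : Measurable F) (hF : PolyB F)
    {s : ℝ} (hs : 0 ≤ s) :
    Integrable (fun z => F (s • z.1 + Real.sqrt s • z.2))
      ((law ρ).prod (P166W.gauss (Fin n))) :=
  integrable_joint h (Φ := fun _ θ => F θ) (hm.comp measurable_snd) (polyB2_state hF) hs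

theorem Ep_const (h : Ulc η ρ) (s c : ℝ) : Ep ρ s (fun _ => c) = c := by
  have := isProb h
  simp [Ep, joint]

theorem Ep_add (h : Ulc η ρ) {s : ℝ} (hs : 0 ≤ s) {F G : (Fin n → ℝ) → ℝ} (hF : Measurable F)
    (hG : Measurable G) (hF' : PolyB F) (hG' : PolyB G) :
    Ep ρ s (fun θ => F θ + G θ) = Ep ρ s F + Ep ρ s G :=
  integral_add (integrable_state h hF hF' hs) (integrable_state h hG hG' hs)

theorem Ep_smul (ρ : (Fin n → ℝ) → ℝ) (s c : ℝ) (F : (Fin n → ℝ) → ℝ) :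
    Ep ρ s (fun θ => c * F θ) = c * Ep ρ s F := integral_const_mul c _

theorem Ep_sum (h : Ulc η ρ) {s : ℝ} (hs : 0 ≤ s) {ι : Type*} (S : Finset ι)
    {F : ι → (Fin n → ℝ) → ℝ} (hm : ∀ j ∈ S, Measurable (F j)) (hF : ∀ j ∈ S, PolyB (F j)) :
    Ep ρ s (fun θ => ∑ j ∈ S, F j θ) = ∑ j ∈ S, Ep ρ s (F j) :=
  integral_finsetSum S fun j hj => integrable_state h (hm j hj) (hF j hj) hs

theorem Ep_nonneg (ρ : (Fin n → ℝ) → ℝ) (s : ℝ) {F : (Fin n → ℝ) → ℝ} (hF : ∀ θ, 0 ≤ F θ) :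
    0 ≤ Ep ρ s F := integral_nonneg fun _ => hF _

theorem C1P.cont_pd {f : (Fin n → ℝ) → ℝ} (hf : C1P f) (i : Fin n) : Continuous (pd i f) :=
  (hf.1.continuous_fderiv one_ne_zero).clm_apply continuous_const

theorem C1P.differentiable {f : (Fin n → ℝ) → ℝ} (hf : C1P f) : Differentiable ℝ f :=
  hf.1.differentiable one_ne_zero

theorem c1p_const (c : ℝ) : C1P fun _ : Fin n → ℝ => c :=
  ⟨contDiff_const, polyB_const c, fun i => ⟨0, 0, fun x => by simp [pd]⟩⟩

theorem pd_const (c : ℝ) (i : Fin n) (x : Fin n → ℝ) : pd i (fun _ => c) x = 0 := by simp [pd]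

theorem pd_add {f g : (Fin n → ℝ) → ℝ} (hf : C1P f) (hg : C1P g) (i : Fin n) (x : Fin n → ℝ) :
    pd i (fun y => f y + g y) x = pd i f x + pd i g x := by
  simp only [pd]
  rw [show (fun y => f y + g y) = f + g from rfl, fderiv_add (hf.differentiable x) (hg.differentiable x)]
  simp

theorem pd_smul {f : (Fin n → ℝ) → ℝ} (c : ℝ) (hf : C1P f) (i : Fin n) (x : Fin n → ℝ) :
    pd i (fun y => c * f y) x = c * pd i f x := by
  simp only [pd]
  rw [fderiv_const_mul (hf.differentiable x)]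
  simp

theorem c1p_add {f g : (Fin n → ℝ) → ℝ} (hf : C1P f) (hg : C1P g) :
    C1P fun x => f x + g x :=
  ⟨hf.1.add hg.1, polyB_add hf.2.1 hg.2.1, fun i =>
    polyB_mono (polyB_add (hf.2.2 i) (hg.2.2 i)) fun x => by rw [pd_add hf hg]⟩

theorem c1p_smul (c : ℝ) {f : (Fin n → ℝ) → ℝ} (hf : C1P f) : C1P fun x => c * f x :=
  ⟨contDiff_const.mul hf.1, polyB_smul c hf.2.1, fun i =>
    polyB_mono (polyB_smul c (hf.2.2 i)) fun x => by rw [pd_smul c hf]⟩

theorem clm_eq_sum (L : (Fin n → ℝ) →L[ℝ] ℝ) :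
    L = ∑ i, L (Pi.single i 1) •
      (ContinuousLinearMap.proj i : (Fin n → ℝ) →L[ℝ] ℝ) := by
  refine ContinuousLinearMap.ext fun v => ?_
  have hv : v = ∑ i, v i • (Pi.single i (1 : ℝ) : Fin n → ℝ) := by
    funext j; simp [Pi.single_apply]
  conv_lhs => rw [hv]
  simp [mul_comm]

theorem clm_norm_le (L : (Fin n → ℝ) →L[ℝ] ℝ) : ‖L‖ ≤ ∑ i, |L (Pi.single i 1)| := by
  conv_lhs => rw [clm_eq_sum L]
  refine (norm_sum_le _ _).trans (Finset.sum_le_sum fun i _ => ?_)
  rw [norm_smul, Real.norm_eq_abs]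
  refine mul_le_of_le_one_right (abs_nonneg _) ?_
  exact ContinuousLinearMap.opNorm_le_bound _ zero_le_one fun v => by
    simpa using norm_le_pi_norm v i

section avg

variable {ν : Measure (Fin n → ℝ)} [IsProbabilityMeasure ν]

theorem avg_bound {φ : (Fin n → ℝ) → ℝ} (hφ : PolyB φ) (a b : ℝ) :
    ∃ (A : ℝ) (k : ℕ), 0 ≤ A ∧
      ∀ x g, |φ (a • x + b • g)| ≤ A * (1 + nsq x) ^ k * (1 + nsq g) ^ k := by
  obtain ⟨A, k, hA⟩ := hφ
  refine ⟨|A| * (2 * (1 + a ^ 2) * (1 + b ^ 2)) ^ k, k, by positivity, fun x g => ?_⟩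
  have h0 := nsq_nonneg (a • x + b • g)
  calc |φ (a • x + b • g)| ≤ A * (1 + nsq (a • x + b • g)) ^ k := hA _
    _ ≤ |A| * (2 * (1 + a ^ 2) * (1 + b ^ 2) * ((1 + nsq x) * (1 + nsq g))) ^ k := by
        refine mul_le_mul (le_abs_self A) (pow_le_pow_left₀ (by linarith)
          (one_add_nsq_affine_le a b x g) k) (by positivity) (abs_nonneg A)
    _ = _ := by simp only [mul_pow]; ring

theorem integrable_avg (hν : ∀ k : ℕ, Integrable (fun g => (1 + nsq g) ^ k) ν)
    {φ : (Fin n → ℝ) → ℝ} (hc : Continuous φ) (hφ : PolyB φ) (a b : ℝ) (x : Fin n → ℝ) :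
    Integrable (fun g => φ (a • x + b • g)) ν := by
  obtain ⟨A, k, -, h⟩ := avg_bound hφ a b
  exact ((hν k).const_mul (A * (1 + nsq x) ^ k)).mono'
    (hc.comp (by fun_prop)).aestronglyMeasurable (ae_of_all _ fun g => h x g)

theorem polyB_avg (hν : ∀ k : ℕ, Integrable (fun g => (1 + nsq g) ^ k) ν)
    {φ : (Fin n → ℝ) → ℝ} (hφ : PolyB φ) (a b : ℝ) :
    PolyB fun x => ∫ g, φ (a • x + b • g) ∂ν := by
  obtain ⟨A, k, hA0, h⟩ := avg_bound hφ a b
  refine ⟨A * ∫ g, (1 + nsq g) ^ k ∂ν, k, fun x => ?_⟩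
  have h1 : |∫ g, φ (a • x + b • g) ∂ν| ≤ ∫ g, A * (1 + nsq x) ^ k * (1 + nsq g) ^ k ∂ν :=
    (Real.norm_eq_abs _).symm.le.trans (norm_integral_le_of_norm_le
      ((hν k).const_mul (A * (1 + nsq x) ^ k))
      (ae_of_all _ fun g => (Real.norm_eq_abs _).le.trans (h x g)))
  rw [integral_const_mul] at h1
  calc _ ≤ A * (1 + nsq x) ^ k * ∫ g, (1 + nsq g) ^ k ∂ν := h1
    _ = _ := by ring

theorem eventually_nsq_le (x₀ : Fin n → ℝ) : ∀ᶠ x in nhds x₀, nsq x ≤ nsq x₀ + 1 :=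
  ((continuous_nsq.tendsto x₀).eventually_lt_const (by linarith)).mono fun _ h => h.le

theorem continuous_avg (hν : ∀ k : ℕ, Integrable (fun g => (1 + nsq g) ^ k) ν)
    {φ : (Fin n → ℝ) → ℝ} (hc : Continuous φ) (hφ : PolyB φ) (a b : ℝ) :
    Continuous fun x => ∫ g, φ (a • x + b • g) ∂ν := by
  obtain ⟨A, k, hA0, h⟩ := avg_bound hφ a b
  refine continuous_iff_continuousAt.2 fun x₀ => ?_
  refine continuousAt_of_dominated
    (bound := fun g => A * (2 + nsq x₀) ^ k * (1 + nsq g) ^ k)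
    (Filter.Eventually.of_forall fun x => (hc.comp (by fun_prop)).aestronglyMeasurable)
    ((eventually_nsq_le x₀).mono fun x hx => ae_of_all _ fun g => ?_)
    ((hν k).const_mul _) (ae_of_all _ fun g => (hc.comp (by fun_prop)).continuousAt)
  have h0 := nsq_nonneg x
  have hg := nsq_nonneg g
  refine (h x g).trans ?_
  have : 1 + nsq x ≤ 2 + nsq x₀ := by linarith
  gcongr

/-- Averaging a smooth function along an affine map. -/
theorem c1p_avg (hν : ∀ k : ℕ, Integrable (fun g => (1 + nsq g) ^ k) ν)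
    {U : (Fin n → ℝ) → ℝ} (hU : C1P U) (a b : ℝ) :
    C1P (fun x => ∫ g, U (a • x + b • g) ∂ν) ∧
      ∀ i x, pd i (fun y => ∫ g, U (a • y + b • g) ∂ν) x = a * ∫ g, pd i U (a • x + b • g) ∂ν := by
  set D : (Fin n → ℝ) → (Fin n → ℝ) →L[ℝ] ℝ := fun x =>
    ∑ i, (a * ∫ g, pd i U (a • x + b • g) ∂ν) •
      (ContinuousLinearMap.proj i : (Fin n → ℝ) →L[ℝ] ℝ) with hD
  have hd : ∀ x₀, HasFDerivAt (fun x => ∫ g, U (a • x + b • g) ∂ν) (D x₀) x₀ := by
    intro x₀
    choose A k hA0 hk using fun i => avg_bound (hU.2.2 i) a b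
    set F' : (Fin n → ℝ) → (Fin n → ℝ) → (Fin n → ℝ) →L[ℝ] ℝ := fun x g =>
      ∑ i, (a * pd i U (a • x + b • g)) • (ContinuousLinearMap.proj i : (Fin n → ℝ) →L[ℝ] ℝ)
    have hc : ∀ x, Continuous (F' x) := fun x => continuous_finsetSum _ fun i _ =>
      ((continuous_const.mul ((hU.cont_pd i).comp (by fun_prop))).smul continuous_const)
    have hdiff : ∀ g x, HasFDerivAt (fun y => U (a • y + b • g)) (F' x g) x := fun g x => by
      have h1 : HasFDerivAt (fun y => a • y + b • g)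
          (a • ContinuousLinearMap.id ℝ (Fin n → ℝ)) x :=
        ((hasFDerivAt_id x).const_smul a).add_const _
      refine ((hU.differentiable _).hasFDerivAt.comp x h1).congr_fderiv ?_
      conv_lhs => rw [clm_eq_sum ((fderiv ℝ U (a • x + b • g)).comp _)]
      refine Finset.sum_congr rfl fun i _ => ?_
      simp [pd]
    have key := hasFDerivAt_integral_of_dominated_of_fderiv_le (μ := ν)
      (F := fun x g => U (a • x + b • g)) (F' := F') (x₀ := x₀)
      (s := {x | nsq x ≤ nsq x₀ + 1})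
      (bound := fun g => ∑ i, |a| * (A i * (2 + nsq x₀) ^ k i * (1 + nsq g) ^ k i))
      (eventually_nsq_le x₀)
      (Filter.Eventually.of_forall fun x =>
        (hU.1.continuous.comp (by fun_prop)).aestronglyMeasurable)
      (integrable_avg hν hU.1.continuous hU.2.1 a b x₀)
      (hc x₀).aestronglyMeasurable
      (ae_of_all _ fun g x hx => by
        refine (norm_sum_le _ _).trans (Finset.sum_le_sum fun i _ => ?_)
        rw [norm_smul, Real.norm_eq_abs, abs_mul]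
        refine mul_le_of_le_one_right (by positivity) ?_ |>.trans ?_
        · exact ContinuousLinearMap.opNorm_le_bound _ zero_le_one fun v => by
            simpa using norm_le_pi_norm v i
        refine mul_le_mul_of_nonneg_left ?_ (abs_nonneg a)
        have h0 := nsq_nonneg x
        have hg := nsq_nonneg g
        have := hA0 i
        refine (hk i x g).trans ?_
        have : 1 + nsq x ≤ 2 + nsq x₀ := by linarith [show nsq x ≤ nsq x₀ + 1 from hx]
        gcongr)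
      (integrable_finsetSum _ fun i _ => ((hν (k i)).const_mul _).const_mul _)
      (ae_of_all _ fun g x _ => hdiff g x)
    refine key.congr_fderiv ?_
    have hi : ∀ i : Fin n, Integrable (fun g => (a * pd i U (a • x₀ + b • g)) •
        (ContinuousLinearMap.proj i : (Fin n → ℝ) →L[ℝ] ℝ)) ν := fun i =>
      ((integrable_avg hν (hU.cont_pd i) (hU.2.2 i) a b x₀).const_mul a).smul_const _
    simp only [F', hD]
    rw [integral_finsetSum _ fun i _ => hi i]
    simp only [integral_smul_const, integral_const_mul]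
  have hpd : ∀ i x, pd i (fun y => ∫ g, U (a • y + b • g) ∂ν) x =
      a * ∫ g, pd i U (a • x + b • g) ∂ν := fun i x => by
    simp only [pd, (hd x).fderiv, hD]
    simp [Pi.single_apply, pd]
  refine ⟨⟨contDiff_one_iff_hasFDerivAt.2 ⟨D, ?_, hd⟩, polyB_avg hν hU.2.1 a b, fun i =>
    polyB_mono (polyB_smul a (polyB_avg hν (hU.2.2 i) a b)) fun x => by rw [hpd]⟩, hpd⟩
  exact continuous_finsetSum _ fun i _ =>
    (continuous_const.mul (continuous_avg hν (hU.cont_pd i) (hU.2.2 i) a b)).smul continuous_const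

end avg

theorem integrable_gauss_pow (k : ℕ) :
    Integrable (fun g : Fin n → ℝ => (1 + nsq g) ^ k) (P166W.gauss (Fin n)) := by
  refine P166W.PolyGrowth.integrable ⟨1, 2 * k, fun g => ?_⟩
    ((continuous_const.add continuous_nsq).pow k)
  have h0 := nsq_nonneg g
  rw [abs_of_nonneg (by positivity), one_mul, pow_mul]
  refine pow_le_pow_left₀ (by positivity) ?_ k
  have h1 : nsq g ≤ (∑ q, |g q|) ^ 2 := by
    refine le_trans (le_of_eq ?_) (Finset.sum_sq_le_sq_sum_of_nonneg fun i _ => abs_nonneg (g i))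
    simp [nsq]
  nlinarith [Finset.sum_nonneg fun q (_ : q ∈ Finset.univ) => abs_nonneg (g q)]

theorem polyGrowth_of_polyB {F : (Fin n → ℝ) → ℝ} (hF : PolyB F) : P166W.PolyGrowth F := by
  obtain ⟨A, k, h⟩ := hF
  refine ⟨|A|, 2 * k, fun g => (h g).trans ?_⟩
  have h0 := nsq_nonneg g
  rw [pow_mul]
  refine mul_le_mul (le_abs_self A) (pow_le_pow_left₀ (by linarith) ?_ k) (by positivity)
    (abs_nonneg A)
  have h1 : nsq g ≤ (∑ q, |g q|) ^ 2 := by
    refine le_trans (le_of_eq ?_) (Finset.sum_sq_le_sq_sum_of_nonneg fun i _ => abs_nonneg (g i))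
    simp [nsq]
  nlinarith [Finset.sum_nonneg fun q (_ : q ∈ Finset.univ) => abs_nonneg (g q)]

theorem hasDerivAt_c1p {F : (Fin n → ℝ) → ℝ} (hF : C1P F) (i : Fin n) (g : Fin n → ℝ) :
    HasDerivAt (fun z => F (Function.update g i z)) (pd i F g) (g i) := by
  have h1 : HasFDerivAt F (fderiv ℝ F g) (Function.update g i (g i)) := by
    rw [Function.update_eq_self]; exact (hF.differentiable g).hasFDerivAt
  exact h1.comp_hasDerivAt (g i) (_root_.hasDerivAt_update g i (g i))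

theorem gauss_ibp_c1p {F : (Fin n → ℝ) → ℝ} (hF : C1P F) (i : Fin n) :
    ∫ g, g i * F g ∂P166W.gauss (Fin n) = ∫ g, pd i F g ∂P166W.gauss (Fin n) :=
  P166W.gauss_ibp i hF.1.continuous (hF.cont_pd i) (fun g => hasDerivAt_c1p hF i g)
    (polyGrowth_of_polyB hF.2.1) (polyGrowth_of_polyB (hF.2.2 i))

theorem c1p_coord (i : Fin n) : C1P fun x : Fin n → ℝ => x i := by
  have e : dotp (Pi.single i (1 : ℝ) : Fin n → ℝ) = fun x => x i :=
    funext fun x => by simp [dotp, Pi.single_apply]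
  rw [← e]
  exact c1p_dotp _

theorem pd_coord (i j : Fin n) (x : Fin n → ℝ) :
    pd j (fun y => y i) x = if i = j then 1 else 0 := by
  simp only [pd]
  rw [(hasFDerivAt_apply i x).fderiv]
  simp [Pi.single_apply]

/-- The first Hermite mode bounds the variance from below. -/
theorem hermite_le {F : (Fin n → ℝ) → ℝ} (hF : C1P F) :
    (∫ g, F g ∂P166W.gauss (Fin n)) ^ 2 + ∑ i, (∫ g, pd i F g ∂P166W.gauss (Fin n)) ^ 2
      ≤ ∫ g, F g ^ 2 ∂P166W.gauss (Fin n) := by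
  set γ := P166W.gauss (Fin n)
  set m := ∫ g, F g ∂γ with hm
  set c : Fin n → ℝ := fun i => ∫ g, pd i F g ∂γ with hc
  have hI : ∀ {G : (Fin n → ℝ) → ℝ}, Continuous G → PolyB G → Integrable G γ :=
    fun hG hG' => (polyGrowth_of_polyB hG').integrable hG
  have hmean : ∀ i, ∫ g, g i ∂γ = 0 := fun i => by
    have := gauss_ibp_c1p (c1p_const (n := n) 1) i
    simpa [pd_const] using this
  have hpair : ∀ i j : Fin n, ∫ g, g i * g j ∂γ = if j = i then 1 else 0 := fun i j => by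
    rw [gauss_ibp_c1p (c1p_coord j) i]
    simp [pd_coord, γ]
  set L : (Fin n → ℝ) → ℝ := fun g => ∑ i, c i * g i with hL
  have hLc : Continuous L := by fun_prop
  have hLp : PolyB L := polyB_sum _ fun i _ => polyB_smul (c i) (polyB_coord i)
  have eFL : ∫ g, F g * L g ∂γ = ∑ i, c i ^ 2 := by
    simp only [hL, Finset.mul_sum]
    rw [integral_finsetSum (f := fun i g => F g * (c i * g i)) _ fun i _ =>
      hI (hF.1.continuous.mul (by fun_prop))
        (polyB_mul hF.2.1 (polyB_smul (c i) (polyB_coord i)))]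
    refine Finset.sum_congr rfl fun i _ => ?_
    calc ∫ g, F g * (c i * g i) ∂γ = c i * ∫ g, g i * F g ∂γ := by
          rw [← integral_const_mul]
          exact integral_congr_ae (ae_of_all _ fun g => by ring)
      _ = c i ^ 2 := by rw [gauss_ibp_c1p hF i, hc, sq]
  have eLL : ∫ g, L g * L g ∂γ = ∑ i, c i ^ 2 := by
    simp only [hL, Finset.mul_sum, Finset.sum_mul]
    rw [integral_finsetSum _ fun i _ => hI (by fun_prop) (polyB_sum _ fun j _ =>
      polyB_mul (polyB_smul (c j) (polyB_coord j)) (polyB_smul (c i) (polyB_coord i)))]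
    refine Finset.sum_congr rfl fun i _ => ?_
    rw [integral_finsetSum _ fun j _ => hI (by fun_prop)
      (polyB_mul (polyB_smul (c j) (polyB_coord j)) (polyB_smul (c i) (polyB_coord i)))]
    calc ∑ j, ∫ g, c j * g j * (c i * g i) ∂γ = ∑ j, c j * c i * ∫ g, g j * g i ∂γ :=
          Finset.sum_congr rfl fun j _ => by
            rw [← integral_const_mul]
            exact integral_congr_ae (ae_of_all _ fun g => by ring)
      _ = c i ^ 2 := by simp [hpair, sq]
  have eL : ∫ g, L g ∂γ = 0 := by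
    simp only [hL]
    rw [integral_finsetSum _ fun i _ => hI (by fun_prop) (polyB_smul (c i) (polyB_coord i))]
    simp [integral_const_mul, hmean]
  have i1 : Integrable (fun g => F g ^ 2) γ := hI (hF.1.continuous.pow 2) (polyB_pow_two hF.2.1)
  have i2 : Integrable (fun g => F g * L g) γ := hI (hF.1.continuous.mul hLc) (polyB_mul hF.2.1 hLp)
  have i3 : Integrable (fun g => L g * L g) γ := hI (hLc.mul hLc) (polyB_mul hLp hLp)
  have i4 : Integrable F γ := hI hF.1.continuous hF.2.1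
  have i5 : Integrable L γ := hI hLc hLp
  have h0 : 0 ≤ ∫ g, (F g - m - L g) ^ 2 ∂γ := integral_nonneg fun g => sq_nonneg _
  have e : (fun g => (F g - m - L g) ^ 2) = fun g =>
      (F g ^ 2 - 2 * (F g * L g) + L g * L g) + (2 * m * L g - 2 * m * F g + m ^ 2) :=
    funext fun g => by ring
  rw [e, integral_add (by exact (i1.sub (i2.const_mul 2)).add i3)
      (by exact ((i5.const_mul (2 * m)).sub (i4.const_mul (2 * m))).add (integrable_const _)),
    integral_add (by exact i1.sub (i2.const_mul 2)) i3, integral_sub i1 (i2.const_mul 2),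
    integral_add (by exact (i5.const_mul (2 * m)).sub (i4.const_mul (2 * m))) (integrable_const _),
    integral_sub (i5.const_mul (2 * m)) (i4.const_mul (2 * m)),
    integral_const_mul, integral_const_mul, integral_const_mul, eFL, eLL, eL, ← hm] at h0
  simp only [integral_const, probReal_univ, one_smul] at h0
  simp only [γ] at h0 hm ⊢
  nlinarith

/-- Continuous with polynomial growth. -/
def CP (F : (Fin n → ℝ) → ℝ) : Prop := Continuous F ∧ PolyB F

theorem CP.const (c : ℝ) : CP fun _ : Fin n → ℝ => c := ⟨continuous_const, polyB_const c⟩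

theorem CP.add {F G : (Fin n → ℝ) → ℝ} (hF : CP F) (hG : CP G) : CP fun x => F x + G x :=
  ⟨hF.1.add hG.1, polyB_add hF.2 hG.2⟩

theorem CP.mul {F G : (Fin n → ℝ) → ℝ} (hF : CP F) (hG : CP G) : CP fun x => F x * G x :=
  ⟨hF.1.mul hG.1, polyB_mul hF.2 hG.2⟩

theorem CP.smul (c : ℝ) {F : (Fin n → ℝ) → ℝ} (hF : CP F) : CP fun x => c * F x :=
  (CP.const c).mul hF

theorem CP.sq {F : (Fin n → ℝ) → ℝ} (hF : CP F) : CP fun x => F x ^ 2 :=
  ⟨hF.1.pow 2, polyB_pow_two hF.2⟩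

theorem CP.sum {ι : Type*} (S : Finset ι) {F : ι → (Fin n → ℝ) → ℝ} (hF : ∀ j ∈ S, CP (F j)) :
    CP fun x => ∑ j ∈ S, F j x :=
  ⟨continuous_finsetSum S fun j hj => (hF j hj).1, polyB_sum S fun j hj => (hF j hj).2⟩

theorem C1P.cp {f : (Fin n → ℝ) → ℝ} (hf : C1P f) : CP f := ⟨hf.1.continuous, hf.2.1⟩

theorem C1P.cp_pd {f : (Fin n → ℝ) → ℝ} (hf : C1P f) (i : Fin n) : CP (pd i f) :=
  ⟨hf.cont_pd i, hf.2.2 i⟩

theorem C1P.cp_gradSq {f : (Fin n → ℝ) → ℝ} (hf : C1P f) : CP (gradSq f) :=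
  CP.sum Finset.univ fun i _ => (hf.cp_pd i).sq

theorem Field.Reg.cp {u : Field n} (hu : u.Reg) {s : ℝ} (hs : 0 ≤ s) : CP (u.val s) :=
  ⟨hu.cont hs, hu.polyVal.polyB hs⟩

theorem cp_mg (h : Ulc η ρ) {g : (Fin n → ℝ) → ℝ} (hg : CP g) {s : ℝ} (hs : 0 ≤ s) :
    CP (mg ρ g s) := (reg_mfield h hg.1 hg.2).cp hs

theorem CP.integrable (h : Ulc η ρ) {F : (Fin n → ℝ) → ℝ} (hF : CP F) : Integrable F (law ρ) :=
  integrable_polyB h hF.1.measurable hF.2

theorem CP.integrable_gauss {F : (Fin n → ℝ) → ℝ} (hF : CP F) :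
    Integrable F (P166W.gauss (Fin n)) :=
  (polyGrowth_of_polyB hF.2).integrable hF.1

theorem Ep_add' (h : Ulc η ρ) {s : ℝ} (hs : 0 ≤ s) {F G : (Fin n → ℝ) → ℝ} (hF : CP F)
    (hG : CP G) : Ep ρ s (fun θ => F θ + G θ) = Ep ρ s F + Ep ρ s G :=
  Ep_add h hs hF.1.measurable hG.1.measurable hF.2 hG.2

theorem Ep_sum' (h : Ulc η ρ) {s : ℝ} (hs : 0 ≤ s) {ι : Type*} (S : Finset ι)
    {F : ι → (Fin n → ℝ) → ℝ} (hF : ∀ j ∈ S, CP (F j)) :
    Ep ρ s (fun θ => ∑ j ∈ S, F j θ) = ∑ j ∈ S, Ep ρ s (F j) :=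
  Ep_sum h hs S (fun j hj => (hF j hj).1.measurable) fun j hj => (hF j hj).2

theorem Ep_le (h : Ulc η ρ) {s : ℝ} (hs : 0 ≤ s) {F G : (Fin n → ℝ) → ℝ} (hF : CP F) (hG : CP G)
    (hle : ∀ θ, F θ ≤ G θ) : Ep ρ s F ≤ Ep ρ s G :=
  Ep_mono h hs hF.1.measurable hG.1.measurable hF.2 hG.2 hle

/-- Comparison needing nothing of the smaller function but its sign. -/
theorem Ep_le_of_nonneg (h : Ulc η ρ) {s : ℝ} (hs : 0 ≤ s) {F G : (Fin n → ℝ) → ℝ} (hG : CP G)
    (h0 : ∀ θ, 0 ≤ F θ) (hle : ∀ θ, F θ ≤ G θ) : Ep ρ s F ≤ Ep ρ s G :=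
  integral_mono_of_nonneg (ae_of_all _ fun _ => h0 _)
    (integrable_state h hG.1.measurable hG.2 hs) (ae_of_all _ fun _ => hle _)

end

end Vale.Agent.P245.General
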