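import Vale.Agent.P245.General.Ineq
import Vale.Agent.P157.Gauss

/-!
# P245, general measures: the Gaussian channel
-/

open MeasureTheory ProbabilityTheory
open scoped ENNReal NNReal

namespace Vale.Agent.P245.General

noncomputable section

variable {n : ℕ} {η r s : ℝ} {ρ : (Fin n → ℝ) → ℝ}


/-- Polynomial growth in both variables. -/
def PolyB2 (Φ : (Fin n → ℝ) → (Fin n → ℝ) → ℝ) : Prop :=
  ∃ (A : ℝ) (k : ℕ), ∀ x θ, |Φ x θ| ≤ A * (1 + nsq x + nsq θ) ^ k

lemma nsq_nonneg' (x : Fin n → ℝ) : 0 ≤ nsq x := Finset.sum_nonneg fun _ _ => sq_nonneg _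

lemma nsq_smul' (c : ℝ) (x : Fin n → ℝ) : nsq (c • x) = c ^ 2 * nsq x := by
  simp [nsq, mul_pow, Finset.mul_sum]

lemma nsq_add_le (x y : Fin n → ℝ) : nsq (x + y) ≤ 2 * nsq x + 2 * nsq y := by
  simp only [nsq, Finset.mul_sum, ← Finset.sum_add_distrib, Pi.add_apply]
  exact Finset.sum_le_sum fun i _ => by nlinarith [sq_nonneg (x i - y i)]

lemma continuous_dotp2 : Continuous fun p : (Fin n → ℝ) × (Fin n → ℝ) => dotp p.1 p.2 := by
  unfold dotp; fun_prop

lemma continuous_wgt2 (s : ℝ) :
    Continuous fun p : (Fin n → ℝ) × (Fin n → ℝ) => wgt s p.2 p.1 := by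
  unfold wgt dotp nsq; fun_prop

lemma gd_eq_prod (hs : 0 < s) (θ : Fin n → ℝ) :
    gd n s θ = ∏ i, gaussianPDFReal 0 s.toNNReal (θ i) := by
  simp only [gd, nsq, gaussianPDFReal, sub_zero, Real.coe_toNNReal s hs.le, Finset.prod_mul_distrib,
    Finset.prod_const, Finset.card_univ, Fintype.card_fin, ← Real.exp_sum, ← Finset.sum_div,
    Finset.sum_neg_distrib]

lemma gd_pos (hs : 0 < s) (θ : Fin n → ℝ) : 0 < gd n s θ := by
  unfold gd; positivity

lemma continuous_gd : Continuous (gd n s) := by unfold gd nsq; fun_prop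

lemma law_gd_eq (hs : 0 < s) :
    law (gd n s) = ((P166W.gauss (Fin n))).map fun g => Real.sqrt s • g := by
  have hv : s.toNNReal ≠ 0 := by simpa using hs
  have hm : (gaussianReal 0 1).map (fun x => Real.sqrt s * x) = gaussianReal 0 s.toNNReal := by
    rw [gaussianReal_map_const_mul]
    congr 1
    · simp
    · rw [mul_one]
      exact NNReal.eq ((Real.sq_sqrt hs.le).trans (Real.coe_toNNReal s hs.le).symm)
  haveI : ∀ _i : Fin n, IsProbabilityMeasure
      ((gaussianReal 0 1).map fun x => Real.sqrt s * x) := fun _ => by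
    rw [hm]; infer_instance
  have h1 : ((P166W.gauss (Fin n))).map (fun g : Fin n → ℝ => Real.sqrt s • g) =
      Measure.pi fun _ : Fin n => gaussianReal 0 s.toNNReal := by
    rw [← hm, P166W.gauss]
    exact (Measure.pi_map_pi (f := fun _ x => Real.sqrt s * x)
      fun _ => (measurable_const_mul _).aemeasurable)
  rw [h1, law, eq_comm]
  refine Measure.pi_eq fun A hA => ?_
  simp only [gd_eq_prod hs]
  rw [withDensity_apply _ (MeasurableSet.univ_pi hA),
    ← ofReal_integral_eq_lintegral_ofReal, volume_pi, Measure.restrict_pi_pi,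
    integral_fintype_prod_eq_prod, ENNReal.ofReal_prod_of_nonneg]
  · refine Finset.prod_congr rfl fun i _ => ?_
    rw [gaussianReal_apply_eq_integral 0 hv]
  · exact fun i _ => setIntegral_nonneg (hA i) fun x _ => gaussianPDFReal_nonneg 0 _ x
  · exact (Integrable.fintype_prod fun _ => integrable_gaussianPDFReal 0 _).integrableOn
  · exact Filter.Eventually.of_forall fun y =>
      Finset.prod_nonneg fun i _ => gaussianPDFReal_nonneg 0 _ (y i)

lemma isProb_gd (hs : 0 < s) : IsProbabilityMeasure (law (gd n s)) := by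
  rw [law_gd_eq hs]
  exact Measure.isProbabilityMeasure_map (Measurable.aemeasurable (by fun_prop))

theorem gd_ulc (hs : 0 < s) : Ulc (1 / s) (gd n s) where
  pos := by positivity
  meas := continuous_gd.measurable
  nonneg θ := (gd_pos hs θ).le
  mass := by
    haveI := isProb_gd (n := n) hs
    have h : law (gd n s) Set.univ = 1 := measure_univ
    rwa [law, withDensity_apply _ MeasurableSet.univ, setLIntegral_univ] at h
  conc x y a b ha hb hab := by
    have hc : (0 : ℝ) < (Real.sqrt (2 * Real.pi * s))⁻¹ ^ n := by positivity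
    refine le_of_eq ?_
    simp only [gd]
    rw [Real.mul_rpow hc.le (Real.exp_pos _).le, Real.mul_rpow hc.le (Real.exp_pos _).le,
      ← Real.exp_mul, ← Real.exp_mul]
    rw [show ∀ A B C D F : ℝ, A * B * (C * D) * F = (A * C) * (B * D * F) from fun _ _ _ _ _ => by
      ring, ← Real.rpow_add hc, hab, Real.rpow_one, ← Real.exp_add, ← Real.exp_add]
    congr 2
    simp only [nsq, Pi.add_apply, Pi.sub_apply, Pi.smul_apply, smul_eq_mul, neg_div,
      Finset.sum_div, Finset.mul_sum, Finset.sum_mul, ← Finset.sum_neg_distrib,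
      ← Finset.sum_add_distrib]
    refine Finset.sum_congr rfl fun i _ => ?_
    obtain rfl : b = 1 - a := by linarith
    field_simp
    ring

theorem integral_gd (hs : 0 < s) (F : (Fin n → ℝ) → ℝ) :
    ∫ θ, F θ ∂law (gd n s) = ∫ g, F (Real.sqrt s • g) ∂(P166W.gauss (Fin n)) := by
  rw [law_gd_eq hs]
  exact (measurableEmbedding_const_smul₀ (Real.sqrt_pos.2 hs).ne').integral_map F

lemma lintegral_gd (hs : 0 < s) {F : (Fin n → ℝ) → ℝ≥0∞} (hF : Measurable F) :
    ∫⁻ θ, F θ ∂law (gd n s) = ∫⁻ g, F (Real.sqrt s • g) ∂(P166W.gauss (Fin n)) := by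
  rw [law_gd_eq hs, lintegral_map hF (by fun_prop)]

lemma integrable_gauss {F : (Fin n → ℝ) → ℝ} (hc : Continuous F) (hF : PolyB F) :
    Integrable F (P166W.gauss (Fin n)) := by
  obtain ⟨A, k, hA⟩ := hF
  refine P166W.PolyGrowth.integrable ⟨|A|, 2 * k, fun g => (hA g).trans ?_⟩ hc
  have h1 : 1 + nsq g ≤ (1 + ∑ q, |g q|) ^ 2 := by
    have h := Finset.sum_nonneg fun q (_ : q ∈ Finset.univ) => abs_nonneg (g q)
    have h2 : nsq g ≤ (∑ q, |g q|) ^ 2 := by
      rw [nsq]
      calc ∑ q, g q ^ 2 = ∑ q, |g q| ^ 2 := Finset.sum_congr rfl fun q _ => (sq_abs _).symm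
        _ ≤ _ := Finset.sum_sq_le_sq_sum_of_nonneg fun q _ => abs_nonneg _
    nlinarith
  rw [pow_mul]
  calc A * (1 + nsq g) ^ k ≤ |A| * (1 + nsq g) ^ k :=
        mul_le_mul_of_nonneg_right (le_abs_self A) (by have := nsq_nonneg' g; positivity)
    _ ≤ _ := mul_le_mul_of_nonneg_left
        (pow_le_pow_left₀ (by linarith [nsq_nonneg' g]) h1 k) (abs_nonneg A)

theorem center_gd (hs : 0 < s) : center (gd n s) = 0 := by
  funext i
  simp only [center, Pi.zero_apply]
  rw [integral_gd hs fun θ => θ i]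
  simp only [Pi.smul_apply, smul_eq_mul, integral_const_mul]
  have : ∫ g, g i ∂(P166W.gauss (Fin n)) = 0 := by
    rw [P166W.gauss]
    exact (integral_comp_eval (μ := fun _ : Fin n => gaussianReal 0 1) (i := i)
      (f := fun x : ℝ => x) measurable_id.aestronglyMeasurable).trans integral_id_gaussianReal
  simp [this]

lemma integral_exp_sq_real {b : ℝ} (hb : 0 ≤ b) (hb' : b ≤ 1 / 4) :
    Integrable (fun x : ℝ => Real.exp (b * x ^ 2)) (gaussianReal 0 1) ∧
      ∫ x, Real.exp (b * x ^ 2) ∂gaussianReal 0 1 ≤ Real.exp (2 * b) := by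
  have e : ∀ x : ℝ, gaussianPDFReal 0 1 x * Real.exp (b * x ^ 2) =
      (Real.sqrt (2 * Real.pi))⁻¹ * Real.exp (-(1 / 2 - b) * x ^ 2) := fun x => by
    simp only [gaussianPDFReal, NNReal.coe_one, mul_one, sub_zero]
    rw [mul_assoc, ← Real.exp_add]
    congr 2
    ring
  constructor
  · rw [gaussianReal_of_var_ne_zero _ one_ne_zero, integrable_withDensity_iff
      (measurable_gaussianPDF _ _) (Filter.Eventually.of_forall fun z => gaussianPDF_lt_top)]
    simp only [toReal_gaussianPDF]
    simpa only [mul_comm (Real.exp (b * _)), e] using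
      (integrable_exp_neg_mul_sq (show (0:ℝ) < 1 / 2 - b by linarith)).const_mul _
  · rw [integral_gaussianReal_eq_integral_smul one_ne_zero]
    simp only [smul_eq_mul, e, integral_const_mul, integral_gaussian]
    have hd : 0 < 1 - 2 * b := by linarith
    have h1 : (Real.sqrt (2 * Real.pi))⁻¹ * Real.sqrt (Real.pi / (1 / 2 - b)) =
        Real.sqrt (1 / (1 - 2 * b)) := by
      rw [← Real.sqrt_inv, ← Real.sqrt_mul (by positivity)]
      congr 1
      field_simp

    have h2 : 1 / (1 - 2 * b) ≤ Real.exp (4 * b) := by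
      refine le_trans ?_ (Real.add_one_le_exp _)
      rw [div_le_iff₀ hd]
      nlinarith
    rw [h1]
    calc Real.sqrt (1 / (1 - 2 * b)) ≤ Real.sqrt (Real.exp (4 * b)) := Real.sqrt_le_sqrt h2
      _ = _ := by rw [← Real.exp_half]; congr 1; ring

theorem integral_exp_nsq_gauss {b : ℝ} (hb : 0 ≤ b) (hb' : b ≤ 1 / 4) :
    Integrable (fun g => Real.exp (b * nsq g)) (P166W.gauss (Fin n)) ∧
      ∫ g, Real.exp (b * nsq g) ∂(P166W.gauss (Fin n)) ≤ Real.exp (2 * b * n) := by
  obtain ⟨hi, hle⟩ := integral_exp_sq_real hb hb'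
  simp only [nsq, Finset.mul_sum, Real.exp_sum, P166W.gauss]
  refine ⟨Integrable.fintype_prod fun _ => hi, ?_⟩
  rw [integral_fintype_prod_eq_pow (fun x : ℝ => Real.exp (b * x ^ 2)), Fintype.card_fin,
    mul_comm _ (n : ℝ), Real.exp_nat_mul]
  exact pow_le_pow_left₀ (integral_nonneg fun x => (Real.exp_pos _).le) hle n

lemma polyB_one_add_nsq_pow (k : ℕ) : PolyB fun x : Fin n → ℝ => (1 + nsq x) ^ k :=
  ⟨1, k, fun x => by rw [one_mul, abs_of_nonneg (by have := nsq_nonneg' x; positivity)]⟩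

lemma polyB2_bound {Φ : (Fin n → ℝ) → (Fin n → ℝ) → ℝ} (hΦ : PolyB2 Φ) (s : ℝ) :
    ∃ (B : ℝ) (k : ℕ), 0 ≤ B ∧ ∀ (c x g : Fin n → ℝ),
      |Φ x (c + (s • x + Real.sqrt s • g))| ≤
        B * (1 + nsq c) ^ k * (1 + nsq x) ^ k * (1 + nsq g) ^ k := by
  obtain ⟨A, k, hA⟩ := hΦ
  set D := 1 + 2 + 4 * s ^ 2 + 4 * |s| with hD
  refine ⟨|A| * D ^ k, k, by positivity, fun c x g => (hA x _).trans ?_⟩
  have hc := nsq_nonneg' c
  have hx := nsq_nonneg' x
  have hg := nsq_nonneg' g
  have hs : Real.sqrt s ^ 2 ≤ |s| := by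
    rcases le_total 0 s with h | h
    · rw [Real.sq_sqrt h, abs_of_nonneg h]
    · rw [Real.sqrt_eq_zero_of_nonpos h]; simp
  have h0 := nsq_nonneg' (c + (s • x + Real.sqrt s • g))
  have h1 : nsq (c + (s • x + Real.sqrt s • g)) ≤
      2 * nsq c + 4 * (s ^ 2 * nsq x) + 4 * (|s| * nsq g) := by
    have := nsq_add_le c (s • x + Real.sqrt s • g)
    have := nsq_add_le (s • x) (Real.sqrt s • g)
    rw [nsq_smul', nsq_smul'] at this
    have := mul_le_mul_of_nonneg_right hs hg
    linarith
  have h2 : 1 + nsq x + nsq (c + (s • x + Real.sqrt s • g)) ≤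
      D * ((1 + nsq c) * (1 + nsq x) * (1 + nsq g)) := by
    have e : (1 + nsq c) * (1 + nsq x) * (1 + nsq g) = 1 + nsq c + nsq x + nsq g
        + (nsq c * nsq x + nsq c * nsq g + nsq x * nsq g + nsq c * nsq x * nsq g) := by ring
    set R := nsq c * nsq x + nsq c * nsq g + nsq x * nsq g + nsq c * nsq x * nsq g
    have hR : 0 ≤ R := by positivity
    rw [e]
    have hD0 : (3 : ℝ) ≤ D := by rw [hD]; nlinarith [abs_nonneg s, sq_nonneg s]
    have a1 : 2 * nsq c ≤ D * nsq c := mul_le_mul_of_nonneg_right (by linarith) hc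
    have a2 : (1 + 4 * s ^ 2) * nsq x ≤ D * nsq x :=
      mul_le_mul_of_nonneg_right (by rw [hD]; linarith [abs_nonneg s]) hx
    have a3 : 4 * |s| * nsq g ≤ D * nsq g :=
      mul_le_mul_of_nonneg_right (by rw [hD]; linarith [sq_nonneg s]) hg
    have a4 : 0 ≤ D * R := by positivity
    linarith
  calc A * (1 + nsq x + nsq (c + (s • x + Real.sqrt s • g))) ^ k
      ≤ |A| * (D * ((1 + nsq c) * (1 + nsq x) * (1 + nsq g))) ^ k :=
        mul_le_mul (le_abs_self A) (pow_le_pow_left₀ (by linarith) h2 k) (by positivity)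
          (abs_nonneg A)
    _ = _ := by rw [mul_pow, mul_pow, mul_pow]; ring

theorem integrable_joint (h : Ulc η ρ) {Φ : (Fin n → ℝ) → (Fin n → ℝ) → ℝ}
    (hm : Measurable (Function.uncurry Φ)) (hΦ : PolyB2 Φ) (hs : 0 ≤ s) :
    Integrable (fun z => Φ z.1 (s • z.1 + Real.sqrt s • z.2)) ((law ρ).prod (P166W.gauss (Fin n))) := by
  haveI := isProb h
  obtain ⟨B, k, hB, hb⟩ := polyB2_bound hΦ s
  have hc : Continuous fun x : Fin n → ℝ => (1 + nsq x) ^ k :=
    (continuous_const.add continuous_nsq).pow k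
  have hi : Integrable (fun z : (Fin n → ℝ) × (Fin n → ℝ) =>
      B * (1 + nsq z.1) ^ k * (1 + nsq z.2) ^ k) ((law ρ).prod (P166W.gauss (Fin n))) :=
    ((integrable_polyB h hc.measurable (polyB_one_add_nsq_pow k)).const_mul B).mul_prod
      (integrable_gauss hc (polyB_one_add_nsq_pow k))
  refine hi.mono' (hm.comp (f := fun z : (Fin n → ℝ) × (Fin n → ℝ) =>
    (z.1, s • z.1 + Real.sqrt s • z.2)) (by fun_prop)).aestronglyMeasurable
    (Filter.Eventually.of_forall fun z => ?_)
  have := hb 0 z.1 z.2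
  simpa [nsq, Real.norm_eq_abs] using this

lemma lintegral_gd_shift (hs : 0 < s) {F : (Fin n → ℝ) → ℝ≥0∞} (hF : Measurable F)
    (x : Fin n → ℝ) : ∫⁻ θ, F (θ + s • x) ∂law (gd n s) =
      ∫⁻ θ, F θ * ENNReal.ofReal (wgt s θ x) ∂law (gd n s) := by
  have hm : Measurable fun θ => ENNReal.ofReal (gd n s θ) :=
    continuous_gd.measurable.ennreal_ofReal
  have hw : Measurable fun θ => ENNReal.ofReal (wgt s θ x) := by
    unfold wgt dotp nsq; fun_prop
  have hA : Measurable fun θ => F (θ + s • x) := hF.comp (measurable_id.add_const _)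
  simp only [law]
  rw [lintegral_withDensity_eq_lintegral_mul _ hm hA,
    lintegral_withDensity_eq_lintegral_mul _ hm (g := fun θ => F θ * ENNReal.ofReal (wgt s θ x))
      (hF.mul hw)]
  conv_rhs => rw [← lintegral_add_right_eq_self _ (s • x)]
  refine lintegral_congr fun θ => ?_
  simp only [Pi.mul_apply]
  rw [mul_comm (F (θ + s • x)), ← mul_assoc, ← ENNReal.ofReal_mul (gd_pos hs _).le]
  congr 2
  simp only [gd, wgt, mul_assoc, ← Real.exp_add]
  congr 2
  simp only [nsq, dotp, Pi.add_apply, Pi.smul_apply, smul_eq_mul, neg_div,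
    Finset.sum_div, Finset.mul_sum, ← Finset.sum_sub_distrib, ← Finset.sum_neg_distrib,
    ← Finset.sum_add_distrib]
  refine Finset.sum_congr rfl fun i _ => ?_
  field_simp
  ring

/-- The law of the point and the state. -/
lemma map_channel (h : Ulc η ρ) (hs : 0 < s) :
    ((law ρ).prod (P166W.gauss (Fin n))).map (fun z => (z.1, s • z.1 + Real.sqrt s • z.2)) =
      ((law ρ).prod (law (gd n s))).withDensity fun z => ENNReal.ofReal (wgt s z.2 z.1) := by
  haveI := isProb h
  haveI := isProb_gd (n := n) hs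
  have hw : Measurable fun z : (Fin n → ℝ) × (Fin n → ℝ) => ENNReal.ofReal (wgt s z.2 z.1) :=
    (continuous_wgt2 s).measurable.ennreal_ofReal
  refine Measure.ext_of_lintegral _ fun F hF => ?_
  rw [lintegral_map hF (by fun_prop), lintegral_withDensity_eq_lintegral_mul _ hw hF,
    lintegral_prod (fun z : (Fin n → ℝ) × (Fin n → ℝ) => F (z.1, s • z.1 + Real.sqrt s • z.2))
      (hF.comp (f := fun z : (Fin n → ℝ) × (Fin n → ℝ) => (z.1, s • z.1 + Real.sqrt s • z.2))
        (by fun_prop)).aemeasurable,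
    lintegral_prod _ (hw.mul hF).aemeasurable]
  refine lintegral_congr fun x => ?_
  have hFx : Measurable fun θ => F (x, θ) := hF.comp measurable_prodMk_left
  have e := lintegral_gd_shift hs hFx x
  rw [lintegral_gd hs (F := fun θ => F (x, θ + s • x))
    (hFx.comp (measurable_id.add_const _))] at e
  simpa only [Pi.mul_apply, mul_comm (ENNReal.ofReal _), add_comm (s • x)] using e

lemma measurable_num {Φ : (Fin n → ℝ) → (Fin n → ℝ) → ℝ} (h : Ulc η ρ)
    (hm : Measurable (Function.uncurry Φ)) (s : ℝ) :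
    Measurable fun θ => num ρ (fun x => Φ x θ) s θ := by
  haveI := isProb h
  have hf : Measurable fun p : (Fin n → ℝ) × (Fin n → ℝ) => Φ p.2 p.1 * wgt s p.1 p.2 :=
    (hm.comp measurable_swap).mul ((continuous_wgt2 s).measurable.comp measurable_swap)
  exact (hf.stronglyMeasurable.integral_prod_right' (ν := law ρ)).measurable

lemma measurable_part (h : Ulc η ρ) (s : ℝ) : Measurable (part ρ s) :=
  measurable_num h (Φ := fun _ _ => 1) measurable_const s

lemma measurable_mg {Φ : (Fin n → ℝ) → (Fin n → ℝ) → ℝ} (h : Ulc η ρ)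
    (hm : Measurable (Function.uncurry Φ)) (s : ℝ) :
    Measurable fun θ => mg ρ (fun x => Φ x θ) s θ :=
  (measurable_num h hm s).div (measurable_part h s)

/-- Bayes' formula of the channel. -/
theorem joint_eq (h : Ulc η ρ) (hs : 0 < s) {Φ : (Fin n → ℝ) → (Fin n → ℝ) → ℝ}
    (hm : Measurable (Function.uncurry Φ)) (hΦ : PolyB2 Φ) :
    joint ρ s Φ = ∫ θ, num ρ (fun x => Φ x θ) s θ ∂law (gd n s) := by
  haveI := isProb h
  haveI := isProb_gd (n := n) hs
  have hT : Measurable fun z : (Fin n → ℝ) × (Fin n → ℝ) =>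
      (z.1, s • z.1 + Real.sqrt s • z.2) := by fun_prop
  have hw : Measurable fun z : (Fin n → ℝ) × (Fin n → ℝ) => ENNReal.ofReal (wgt s z.2 z.1) :=
    (continuous_wgt2 s).measurable.ennreal_ofReal
  have hi : Integrable (Function.uncurry Φ)
      (((law ρ).prod (P166W.gauss (Fin n))).map fun z => (z.1, s • z.1 + Real.sqrt s • z.2)) :=
    (integrable_map_measure hm.aestronglyMeasurable hT.aemeasurable).2
      (integrable_joint h hm hΦ hs.le)
  have hj : joint ρ s Φ = ∫ p, Function.uncurry Φ p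
      ∂((law ρ).prod (P166W.gauss (Fin n))).map fun z => (z.1, s • z.1 + Real.sqrt s • z.2) :=
    (integral_map (φ := fun z : (Fin n → ℝ) × (Fin n → ℝ) => (z.1, s • z.1 + Real.sqrt s • z.2))
      (f := Function.uncurry Φ)
      hT.aemeasurable hm.aestronglyMeasurable).symm
  rw [map_channel h hs] at hi hj
  rw [integrable_withDensity_iff hw (Filter.Eventually.of_forall fun _ => ENNReal.ofReal_lt_top)]
    at hi
  simp only [ENNReal.toReal_ofReal (Real.exp_pos _).le, wgt] at hi
  rw [hj, integral_withDensity_eq_integral_toReal_smul hw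
    (Filter.Eventually.of_forall fun _ => ENNReal.ofReal_lt_top)]
  simp only [smul_eq_mul, ENNReal.toReal_ofReal (Real.exp_pos _).le, wgt,
    mul_comm (Real.exp _)]
  rw [integral_prod_symm _ hi]
  rfl

/-- The law of the state. -/
lemma map_state (h : Ulc η ρ) (hs : 0 < s) :
    ((law ρ).prod (P166W.gauss (Fin n))).map (fun z => s • z.1 + Real.sqrt s • z.2) =
      (law (gd n s)).withDensity fun θ => ENNReal.ofReal (part ρ s θ) := by
  haveI := isProb h
  haveI := isProb_gd (n := n) hs
  have hw : Measurable fun z : (Fin n → ℝ) × (Fin n → ℝ) => ENNReal.ofReal (wgt s z.2 z.1) :=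
    (continuous_wgt2 s).measurable.ennreal_ofReal
  rw [show (fun z : (Fin n → ℝ) × (Fin n → ℝ) => s • z.1 + Real.sqrt s • z.2) =
      Prod.snd ∘ fun z => (z.1, s • z.1 + Real.sqrt s • z.2) from rfl,
    ← Measure.map_map measurable_snd (by fun_prop), map_channel h hs]
  refine Measure.ext fun A hA => ?_
  rw [Measure.map_apply measurable_snd hA, withDensity_apply _ (measurable_snd hA),
    withDensity_apply _ hA, ← lintegral_indicator (measurable_snd hA), ← lintegral_indicator hA,
    lintegral_prod_symm _ (hw.indicator (measurable_snd hA)).aemeasurable]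
  refine lintegral_congr fun θ => ?_
  by_cases hθ : θ ∈ A
  · simp only [Set.indicator_of_mem hθ]
    have hi : Integrable (fun x => wgt s θ x) (law ρ) := by
      simpa using integrable_wgt h measurable_const (polyB_const 1) hs.le θ
    rw [show part ρ s θ = ∫ x, wgt s θ x ∂law ρ by simp [part, num],
      ofReal_integral_eq_lintegral_ofReal hi
        (Filter.Eventually.of_forall fun x => (Real.exp_pos _).le)]
    exact lintegral_congr fun x => Set.indicator_of_mem (show (x, θ) ∈ Prod.snd ⁻¹' A from hθ) _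
  · simp only [Set.indicator_of_notMem hθ]
    exact lintegral_eq_zero_of_ae_eq_zero (Filter.Eventually.of_forall fun x =>
      Set.indicator_of_notMem (show (x, θ) ∉ Prod.snd ⁻¹' A from hθ) _)

/-- The average over the state, without growth assumptions. -/
theorem Ep_eq_of_measurable (h : Ulc η ρ) (hs : 0 < s) {F : (Fin n → ℝ) → ℝ}
    (hm : Measurable F) : Ep ρ s F = ∫ θ, F θ * part ρ s θ ∂law (gd n s) := by
  rw [Ep, joint, ← integral_map (φ := fun z : (Fin n → ℝ) × (Fin n → ℝ) =>
    s • z.1 + Real.sqrt s • z.2)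
    (f := F) (by fun_prop) hm.aestronglyMeasurable, map_state h hs,
    integral_withDensity_eq_integral_toReal_smul (measurable_part h s).ennreal_ofReal
      (Filter.Eventually.of_forall fun _ => ENNReal.ofReal_lt_top)]
  refine integral_congr_ae (Filter.Eventually.of_forall fun θ => ?_)
  simp only [smul_eq_mul, ENNReal.toReal_ofReal (part_pos h hs.le θ).le, mul_comm]

theorem Ep_eq (h : Ulc η ρ) (hs : 0 < s) {F : (Fin n → ℝ) → ℝ} (hm : Measurable F)
    (_hF : PolyB F) : Ep ρ s F = ∫ θ, F θ * part ρ s θ ∂law (gd n s) :=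
  Ep_eq_of_measurable h hs hm

theorem joint_mg (h : Ulc η ρ) (hs : 0 < s) {Φ : (Fin n → ℝ) → (Fin n → ℝ) → ℝ}
    (hm : Measurable (Function.uncurry Φ)) (hΦ : PolyB2 Φ) :
    joint ρ s Φ = Ep ρ s (fun θ => mg ρ (fun x => Φ x θ) s θ) := by
  rw [joint_eq h hs hm hΦ, Ep_eq_of_measurable h hs (measurable_mg h hm s)]
  refine integral_congr_ae (Filter.Eventually.of_forall fun θ => ?_)
  simp only [mg, div_mul_cancel₀ _ (part_pos h hs.le θ).ne']

lemma map_gauss_add {a b c : ℝ} (h : a ^ 2 + b ^ 2 = c ^ 2) :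
    (((P166W.gauss (Fin n))).prod (P166W.gauss (Fin n))).map (fun p => a • p.1 + b • p.2) = ((P166W.gauss (Fin n))).map fun g => c • g := by
  have e : (P166W.gauss (Fin n)) = (stdGaussian (EuclideanSpace ℝ (Fin n))).map WithLp.ofLp := by
    rw [← map_pi_eq_stdGaussian, Measure.map_map (by fun_prop) (by fun_prop), P166W.gauss]
    simp [Function.comp_def]
  have hg := congrArg (fun μ => μ.map (WithLp.ofLp : EuclideanSpace ℝ (Fin n) → Fin n → ℝ))
    (P157.gauss_add (E := EuclideanSpace ℝ (Fin n)) h)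
  rw [Measure.map_map (by fun_prop) (by fun_prop), Measure.map_map (by fun_prop) (by fun_prop)]
    at hg
  rw [e, Measure.map_prod_map _ _ (by fun_prop) (by fun_prop),
    Measure.map_map (by fun_prop) (by fun_prop), Measure.map_map (by fun_prop) (by fun_prop)]
  exact hg

/-- The channel composes. -/
theorem joint_split (h : Ulc η ρ) (hr : 0 < r) (hs : 0 ≤ s)
    {Φ : (Fin n → ℝ) → (Fin n → ℝ) → ℝ} (hm : Measurable (Function.uncurry Φ)) (hΦ : PolyB2 Φ) :
    joint ρ (r + s) Φ = Ep ρ r (fun θ => joint (post ρ r θ) s fun x θ' => Φ x (θ + θ')) := by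
  haveI := isProb h
  set Ψ : (Fin n → ℝ) → (Fin n → ℝ) → ℝ :=
    fun x θ => ∫ g, Φ x (θ + (s • x + Real.sqrt s • g)) ∂(P166W.gauss (Fin n)) with hΨdef
  have hΨm : Measurable (Function.uncurry Ψ) :=
    ((hm.comp (f := fun p : ((Fin n → ℝ) × (Fin n → ℝ)) × (Fin n → ℝ) =>
      (p.1.1, p.1.2 + (s • p.1.1 + Real.sqrt s • p.2)))
        (by fun_prop)).stronglyMeasurable.integral_prod_right' (ν := (P166W.gauss (Fin n)))).measurable
  obtain ⟨B, k, hB, hb⟩ := polyB2_bound hΦ s
  have hΨP : PolyB2 Ψ := by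
    have hik := integrable_gauss ((continuous_const.add continuous_nsq).pow k)
      (polyB_one_add_nsq_pow (n := n) k)
    refine ⟨B * ∫ g : Fin n → ℝ, (1 + nsq g) ^ k ∂(P166W.gauss (Fin n)), 2 * k, fun x θ => ?_⟩
    have hq : (1 + nsq θ) ^ k * (1 + nsq x) ^ k ≤ (1 + nsq x + nsq θ) ^ (2 * k) := by
      rw [← mul_pow, pow_mul]
      have := nsq_nonneg' x
      have := nsq_nonneg' θ
      refine pow_le_pow_left₀ (by positivity) ?_ k
      nlinarith
    calc |Ψ x θ| ≤ ∫ g, B * (1 + nsq θ) ^ k * (1 + nsq x) ^ k * (1 + nsq g) ^ k ∂(P166W.gauss (Fin n)) :=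
          norm_integral_le_of_norm_le (f := fun g => Φ x (θ + (s • x + Real.sqrt s • g)))
            (hik.const_mul _) (Filter.Eventually.of_forall fun g => hb θ x g)
      _ = B * (∫ g : Fin n → ℝ, (1 + nsq g) ^ k ∂(P166W.gauss (Fin n))) * ((1 + nsq θ) ^ k * (1 + nsq x) ^ k) := by
          rw [integral_const_mul]; ring
      _ ≤ _ := mul_le_mul_of_nonneg_left hq (mul_nonneg hB (integral_nonneg fun g => by
          have := nsq_nonneg' g; positivity))
  have hsh : ∀ θ, joint (post ρ r θ) s (fun x θ' => Φ x (θ + θ'))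
      = mg ρ (fun x => Ψ x θ) r θ := by
    intro θ
    have hp := post_ulc h hr.le θ
    haveI := isProb hp
    have hm' : Measurable (Function.uncurry fun x θ' => Φ x (θ + θ')) :=
      hm.comp (f := fun p : (Fin n → ℝ) × (Fin n → ℝ) => (p.1, θ + p.2)) (by fun_prop)
    obtain ⟨A, k, hA⟩ := hΦ
    have hP' : PolyB2 fun x θ' => Φ x (θ + θ') := by
      refine ⟨|A| * (2 + 2 * nsq θ) ^ k, k, fun x θ' => (hA x _).trans ?_⟩
      have := nsq_nonneg' x
      have := nsq_nonneg' θ
      have := nsq_nonneg' θ'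
      have := nsq_nonneg' (θ + θ')
      rw [mul_assoc, ← mul_pow]
      refine mul_le_mul (le_abs_self A) (pow_le_pow_left₀ (by positivity) ?_ k) (by positivity)
        (abs_nonneg A)
      nlinarith [nsq_add_le θ θ']
    rw [← integral_post h hr.le θ, joint, integral_prod _ (integrable_joint hp hm' hP' hs)]
  rw [show (fun θ => joint (post ρ r θ) s fun x θ' => Φ x (θ + θ')) =
    fun θ => mg ρ (fun x => Ψ x θ) r θ from funext hsh, ← joint_mg h hr hΨm hΨP, joint, joint,
    integral_prod _ (integrable_joint h hΨm hΨP hr.le),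
    integral_prod _ (integrable_joint h hm hΦ (by linarith))]
  refine integral_congr_ae (Filter.Eventually.of_forall fun x => ?_)
  have hF : Measurable fun v : Fin n → ℝ => Φ x ((r + s) • x + v) :=
    hm.comp (measurable_const.prodMk (measurable_const.add measurable_id))
  have hsum := map_gauss_add (n := n) (a := Real.sqrt r) (b := Real.sqrt s) (c := Real.sqrt (r + s))
    (by rw [Real.sq_sqrt hr.le, Real.sq_sqrt hs, Real.sq_sqrt (by linarith)])
  have hi : Integrable (fun p : (Fin n → ℝ) × (Fin n → ℝ) =>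
      Φ x ((r + s) • x + (Real.sqrt r • p.1 + Real.sqrt s • p.2))) (((P166W.gauss (Fin n))).prod (P166W.gauss (Fin n))) := by
    obtain ⟨B', k', -, hb'⟩ := polyB2_bound hΦ (r + s)
    have hik := integrable_gauss ((continuous_const.add continuous_nsq).pow k')
      (polyB_one_add_nsq_pow (n := n) k')
    refine (integrable_map_measure (f := fun p : (Fin n → ℝ) × (Fin n → ℝ) =>
      Real.sqrt r • p.1 + Real.sqrt s • p.2) (g := fun v => Φ x ((r + s) • x + v))
      hF.aestronglyMeasurable (by fun_prop)).1 ?_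
    rw [hsum, integrable_map_measure hF.aestronglyMeasurable (by fun_prop)]
    refine (hik.const_mul (B' * (1 + nsq x) ^ k')).mono'
      (hF.comp (by fun_prop)).aestronglyMeasurable (Filter.Eventually.of_forall fun g => ?_)
    have := hb' 0 x g
    simpa [nsq, Real.norm_eq_abs] using this
  calc ∫ g, Φ x ((r + s) • x + Real.sqrt (r + s) • g) ∂(P166W.gauss (Fin n))
      = ∫ p, Φ x ((r + s) • x + (Real.sqrt r • p.1 + Real.sqrt s • p.2)) ∂((P166W.gauss (Fin n))).prod (P166W.gauss (Fin n)) := by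
        rw [← integral_map (φ := fun g : Fin n → ℝ => Real.sqrt (r + s) • g)
          (f := fun v => Φ x ((r + s) • x + v)) (by fun_prop) hF.aestronglyMeasurable, ← hsum,
          integral_map (by fun_prop) hF.aestronglyMeasurable]
    _ = ∫ g, Ψ x (r • x + Real.sqrt r • g) ∂(P166W.gauss (Fin n)) := by
        rw [integral_prod _ hi]
        refine integral_congr_ae (Filter.Eventually.of_forall fun g => ?_)
        refine integral_congr_ae (Filter.Eventually.of_forall fun g' => congrArg (Φ x) ?_)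
        module

theorem Ep_mono (h : Ulc η ρ) (hs : 0 ≤ s) {F G : (Fin n → ℝ) → ℝ} (hF : Measurable F)
    (hG : Measurable G) (hF' : PolyB F) (hG' : PolyB G) (hle : ∀ θ, F θ ≤ G θ) :
    Ep ρ s F ≤ Ep ρ s G := by
  have p : ∀ {F : (Fin n → ℝ) → ℝ}, PolyB F → PolyB2 fun _ θ => F θ := fun {F} ⟨A, k, hA⟩ =>
    ⟨|A|, k, fun x θ => (hA θ).trans (mul_le_mul (le_abs_self A)
      (pow_le_pow_left₀ (by linarith [nsq_nonneg' θ]) (by linarith [nsq_nonneg' x]) k)
      (by have := nsq_nonneg' θ; positivity) (abs_nonneg A))⟩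
  exact integral_mono (integrable_joint h (Φ := fun _ θ => F θ) (hF.comp measurable_snd) (p hF') hs)
    (integrable_joint h (Φ := fun _ θ => G θ) (hG.comp measurable_snd) (p hG') hs) fun z => hle _

theorem Ep_zero (h : Ulc η ρ) (F : (Fin n → ℝ) → ℝ) : Ep ρ 0 F = F 0 := by
  haveI := isProb h
  simp [Ep, joint]

lemma integral_sub_const_sq {α : Type*} [MeasurableSpace α] {μ : Measure α}
    [IsProbabilityMeasure μ] {f : α → ℝ} (hf : Integrable f μ)
    (hf2 : Integrable (fun x => f x ^ 2) μ) (c : ℝ) :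
    ∫ x, (f x - c) ^ 2 ∂μ = (∫ x, f x ^ 2 ∂μ) - 2 * c * (∫ x, f x ∂μ) + c ^ 2 := by
  have e : (fun x => (f x - c) ^ 2) = fun x => f x ^ 2 - 2 * c * f x + c ^ 2 :=
    funext fun x => by ring
  have i1 : Integrable (fun x => f x ^ 2 - 2 * c * f x) μ := hf2.sub (hf.const_mul (2 * c))
  rw [e, integral_add i1 (integrable_const _), integral_sub hf2 (hf.const_mul _),
    integral_const_mul, integral_const]
  simp

lemma poincare_gauss {F : (Fin n → ℝ) → ℝ} (hF : C1P F) :
    (∫ g, F g ^ 2 ∂(P166W.gauss (Fin n))) - (∫ g, F g ∂(P166W.gauss (Fin n))) ^ 2 ≤ ∫ g, gradSq F g ∂(P166W.gauss (Fin n)) := by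
  have h := poincare (gd_ulc (n := n) one_pos) hF
  have hm := hF.1.continuous.measurable
  rw [covc_eq (gd_ulc (n := n) one_pos) hm hm hF.2.1 hF.2.1, energy, integral_gd one_pos,
    integral_gd one_pos, integral_gd one_pos] at h
  simpa [sq] using h

/-- A spectral gap of `ρ` gives one of the channel law. -/
theorem channel_poincare (h : Ulc η ρ) {K : ℝ} (hK : 0 ≤ K)
    (hP : ∀ f, C1P f → covc ρ f f ≤ K * energy (law ρ) f) (hs : 0 ≤ s)
    {U : (Fin n → ℝ) → ℝ} (hU : C1P U) :
    Ep ρ s (fun θ => U θ ^ 2) - Ep ρ s U ^ 2 ≤ (K * s ^ 2 + s) * Ep ρ s (gradSq U) := by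
  haveI := isProb h
  obtain ⟨hU1, hU2, hU3⟩ := hU
  have hUc := hU1.continuous
  have p2 : ∀ {F : (Fin n → ℝ) → ℝ}, PolyB F → PolyB2 fun _ θ => F θ := fun {F} ⟨A, k, hA⟩ =>
    ⟨|A|, k, fun x θ => (hA θ).trans (mul_le_mul (le_abs_self A)
      (pow_le_pow_left₀ (by linarith [nsq_nonneg' θ]) (by linarith [nsq_nonneg' x]) k)
      (by have := nsq_nonneg' θ; positivity) (abs_nonneg A))⟩
  have hpd : ∀ i, Continuous (pd i U) := fun i =>
    (hU1.continuous_fderiv one_ne_zero).clm_apply continuous_const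
  have hgc : Continuous (gradSq U) := continuous_finsetSum _ fun i _ => (hpd i).pow 2
  have hgP : PolyB (gradSq U) := polyB_sum _ fun i _ => by
    simpa only [sq] using polyB_mul (hU3 i) (hU3 i)
  have hsqP : PolyB fun θ => U θ ^ 2 := by simpa only [sq] using polyB_mul hU2 hU2
  -- affine substitutions keep the class
  have aff : ∀ (t : ℝ) (c : Fin n → ℝ), C1P (fun v => U (t • v + c)) ∧
      ∀ v, gradSq (fun v => U (t • v + c)) v = t ^ 2 * gradSq U (t • v + c) := by
    intro t c
    have hd : ∀ v, HasFDerivAt (fun v => U (t • v + c))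
        ((fderiv ℝ U (t • v + c)).comp (t • ContinuousLinearMap.id ℝ (Fin n → ℝ))) v := fun v =>
      ((hU1.differentiable one_ne_zero) _).hasFDerivAt.comp v
        (((hasFDerivAt_id v).const_smul t).add_const c)
    have e : ∀ i v, pd i (fun v => U (t • v + c)) v = t * pd i U (t • v + c) := fun i v => by
      simp only [pd, (hd v).fderiv]
      simp
    have hpoly : ∀ {F : (Fin n → ℝ) → ℝ}, PolyB F → PolyB fun v => F (t • v + c) :=
      fun {F} ⟨A, k, hA⟩ => by
        refine ⟨|A| * (1 + 2 * t ^ 2 + 2 * nsq c) ^ k, k, fun v => (hA _).trans ?_⟩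
        have := nsq_nonneg' v
        have := nsq_nonneg' c
        have := nsq_nonneg' (t • v + c)
        rw [mul_assoc, ← mul_pow]
        refine mul_le_mul (le_abs_self A) (pow_le_pow_left₀ (by positivity) ?_ k) (by positivity)
          (abs_nonneg A)
        have := nsq_add_le (t • v) c
        rw [nsq_smul'] at this
        nlinarith [mul_nonneg (sq_nonneg t) (nsq_nonneg' v), mul_nonneg (nsq_nonneg' c)
          (nsq_nonneg' v)]
    refine ⟨⟨hU1.comp ((contDiff_id.const_smul t).add contDiff_const), hpoly hU2, fun i => ?_⟩,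
      fun v => ?_⟩
    · rw [show pd i (fun v => U (t • v + c)) = fun v => t * pd i U (t • v + c) from funext (e i)]
      exact polyB_mul (polyB_const t) (hpoly (hU3 i))
    · simp only [gradSq, e, mul_pow, Finset.mul_sum]
  set σ := Real.sqrt s with hσ
  set T : (Fin n → ℝ) × (Fin n → ℝ) → (Fin n → ℝ) := fun z => s • z.1 + σ • z.2
  have iU : Integrable (fun z => U (T z)) ((law ρ).prod (P166W.gauss (Fin n))) :=
    integrable_joint h (Φ := fun _ θ => U θ) (hUc.measurable.comp measurable_snd) (p2 hU2) hs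
  have iU2 : Integrable (fun z => U (T z) ^ 2) ((law ρ).prod (P166W.gauss (Fin n))) :=
    integrable_joint h (Φ := fun _ θ => U θ ^ 2) ((hUc.pow 2).measurable.comp measurable_snd) (p2 hsqP) hs
  have iG : Integrable (fun z => gradSq U (T z)) ((law ρ).prod (P166W.gauss (Fin n))) :=
    integrable_joint h (Φ := fun _ θ => gradSq U θ) (hgc.measurable.comp measurable_snd) (p2 hgP) hs
  set m := Ep ρ s U with hm
  set V : (Fin n → ℝ) → ℝ := fun g => ∫ x, U (T (x, g)) ∂law ρ with hV
  set W : (Fin n → ℝ) → ℝ := fun x => ∫ g, U (T (x, g)) ∂(P166W.gauss (Fin n)) with hW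
  have hVm : Measurable V :=
    ((hUc.measurable.comp (f := fun p : (Fin n → ℝ) × (Fin n → ℝ) => T (p.2, p.1))
      (by fun_prop)).stronglyMeasurable.integral_prod_right' (ν := law ρ)).measurable
  have hWm : Measurable W :=
    ((hUc.measurable.comp (f := T) (by fun_prop)).stronglyMeasurable.integral_prod_right'
      (ν := (P166W.gauss (Fin n)))).measurable
  have eV : ∫ g, V g ∂(P166W.gauss (Fin n)) = m := by
    rw [hm, Ep, joint, integral_prod_symm _ iU]
  have jV : ∀ g, V g ^ 2 ≤ ∫ x, U (T (x, g)) ^ 2 ∂law ρ := fun g => by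
    have hx : C1P fun x => U (s • x + σ • g) := (aff s (σ • g)).1
    have := covc_self_nonneg (ρ := ρ) fun x => U (s • x + σ • g)
    rw [covc_eq h hx.1.continuous.measurable hx.1.continuous.measurable hx.2.1 hx.2.1] at this
    simp only [← sq] at this
    simp only [hV, T]
    linarith
  have iV2 : Integrable (fun g => V g ^ 2) (P166W.gauss (Fin n)) := by
    refine iU2.integral_prod_right.mono' (hVm.pow_const 2).aestronglyMeasurable
      (Filter.Eventually.of_forall fun g => ?_)
    rw [Real.norm_eq_abs, abs_of_nonneg (sq_nonneg _)]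
    exact jV g
  have iV : Integrable V (P166W.gauss (Fin n)) := iU.integral_prod_right
  have iW : Integrable W (law ρ) := iU.integral_prod_left
  have hA : ∫ g, ((∫ x, U (T (x, g)) ^ 2 ∂law ρ) - V g ^ 2) ∂(P166W.gauss (Fin n)) ≤ K * s ^ 2 * Ep ρ s (gradSq U) := by
    rw [Ep, joint, integral_prod_symm _ iG, ← integral_const_mul]
    refine integral_mono (iU2.integral_prod_right.sub iV2) (iG.integral_prod_right.const_mul _)
      fun g => ?_
    obtain ⟨hx, hg⟩ := aff s (σ • g)
    have := hP _ hx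
    rw [covc_eq h hx.1.continuous.measurable hx.1.continuous.measurable hx.2.1 hx.2.1, energy] at this
    simp only [hg, integral_const_mul, ← sq] at this
    rw [mul_assoc]
    exact this
  -- the variance of the average is at most the average variance
  set e : (Fin n → ℝ) × (Fin n → ℝ) → ℝ := fun z => U (T z) - W z.1 with he
  have jW : ∀ x, (∫ g, U (T (x, g)) ^ 2 ∂(P166W.gauss (Fin n))) - W x ^ 2 ≤ σ ^ 2 * ∫ g, gradSq U (T (x, g)) ∂(P166W.gauss (Fin n)) ∧
      W x ^ 2 ≤ ∫ g, U (T (x, g)) ^ 2 ∂(P166W.gauss (Fin n)) := fun x => by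
    obtain ⟨hx, hg⟩ := aff σ (s • x)
    have h1 := poincare_gauss hx
    simp only [hg, integral_const_mul] at h1
    simp only [add_comm (σ • _)] at h1
    refine ⟨h1, ?_⟩
    have h2 := covc_self_nonneg (ρ := gd n 1) fun g => U (σ • g + s • x)
    rw [covc_eq (gd_ulc one_pos) hx.1.continuous.measurable hx.1.continuous.measurable hx.2.1 hx.2.1,
      integral_gd one_pos, integral_gd one_pos] at h2
    simp only [Real.sqrt_one, one_smul, ← sq, add_comm (σ • _)] at h2
    simp only [hW, T]
    linarith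
  have iW2 : Integrable (fun x => W x ^ 2) (law ρ) := by
    refine iU2.integral_prod_left.mono' (hWm.pow_const 2).aestronglyMeasurable
      (Filter.Eventually.of_forall fun x => ?_)
    rw [Real.norm_eq_abs, abs_of_nonneg (sq_nonneg _)]
    exact (jW x).2
  have iW2' : Integrable (fun z : (Fin n → ℝ) × (Fin n → ℝ) => W z.1 ^ 2) ((law ρ).prod (P166W.gauss (Fin n))) :=
    iW2.comp_fst (P166W.gauss (Fin n))
  have ie2 : Integrable (fun z => e z ^ 2) ((law ρ).prod (P166W.gauss (Fin n))) := by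
    refine ((iU2.add iW2').const_mul 2).mono'
      (((hUc.measurable.comp (f := T) (by fun_prop)).sub
        (hWm.comp measurable_fst)).pow_const 2).aestronglyMeasurable
      (Filter.Eventually.of_forall fun z => ?_)
    simp only [he, Pi.add_apply]
    rw [Real.norm_eq_abs, abs_of_nonneg (sq_nonneg _)]
    nlinarith [sq_nonneg (U (T z) + W z.1)]
  have ie : Integrable e ((law ρ).prod (P166W.gauss (Fin n))) := iU.sub (iW.comp_fst (P166W.gauss (Fin n)))
  have hB : (∫ g, V g ^ 2 ∂(P166W.gauss (Fin n))) - m ^ 2 ≤ s * Ep ρ s (gradSq U) := by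
    have hEW : ∫ x, W x ∂law ρ = m := by rw [hm, Ep, joint, integral_prod _ iU]
    have e1 : ∀ᵐ g ∂(P166W.gauss (Fin n)), (V g - m) ^ 2 ≤ ∫ x, e (x, g) ^ 2 ∂law ρ := by
      filter_upwards [ie.prod_left_ae, ie2.prod_left_ae, iU.prod_left_ae] with g h1 h2 h3
      have hv : V g - m = ∫ x, e (x, g) ∂law ρ := by
        rw [he, integral_sub h3 iW, hEW]
      rw [hv]
      set c := ∫ x, e (x, g) ∂law ρ
      have : 0 ≤ ∫ x, (e (x, g) - c) ^ 2 ∂law ρ := integral_nonneg fun x => sq_nonneg _
      rw [integral_sub_const_sq h1 h2] at this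
      nlinarith
    have e2 : ∫ g, (V g - m) ^ 2 ∂(P166W.gauss (Fin n)) = (∫ g, V g ^ 2 ∂(P166W.gauss (Fin n))) - m ^ 2 := by
      rw [integral_sub_const_sq iV iV2, eV]
      ring
    rw [← e2]
    refine (integral_mono_ae ?_ ie2.integral_prod_right e1).trans ?_
    · have := ((iV2.sub (iV.const_mul (2 * m))).add (integrable_const (m ^ 2)))
      exact this.congr (Filter.Eventually.of_forall fun g => by
        simp only [Pi.add_apply, Pi.sub_apply]; ring)
    rw [integral_integral_swap (f := fun g x => e (x, g) ^ 2) ie2.swap, Ep, joint,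
      integral_prod _ iG, ← integral_const_mul]
    refine integral_mono_ae ie2.integral_prod_left (iG.integral_prod_left.const_mul _) ?_
    filter_upwards [iU.prod_right_ae, iU2.prod_right_ae] with x h1 h2
    have h3 := (jW x).1
    rw [Real.sq_sqrt hs] at h3
    refine le_trans (le_of_eq ?_) h3
    simp only [he]
    rw [integral_sub_const_sq h1 h2]
    simp only [hW]
    ring
  have hU2eq : Ep ρ s (fun θ => U θ ^ 2) = ∫ g, (∫ x, U (T (x, g)) ^ 2 ∂law ρ) ∂(P166W.gauss (Fin n)) := by
    rw [Ep, joint, integral_prod_symm _ iU2]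
  rw [integral_sub iU2.integral_prod_right iV2] at hA
  rw [hU2eq]
  linarith

end

end Vale.Agent.P245.General
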