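import Vale.Agent.P245.General.LSI
import Vale.Agent.P245.General.Channel

/-!
# P245, general measures: the defective logarithmic Sobolev inequality

The channel at time `T` splits the entropy into the posterior entropies and the entropy of the
posterior mean; the latter is bounded by the logarithmic Sobolev inequality of the Gaussian and the
bound of linear subgaussianity on the posterior barycentre.
-/

open MeasureTheory Filter Topology
open scoped ENNReal

namespace Vale.Agent.P245.General

noncomputable section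

/-- Linear subgaussianity at the normalised scale. -/
def SubG {n : ℕ} (ρ : (Fin n → ℝ) → ℝ) : Prop :=
  ∀ u : Fin n → ℝ, nsq u = 1 →
    ∫⁻ x, ENNReal.ofReal (Real.exp (dotp u x ^ 2)) ∂law ρ ≤ 3

variable {n : ℕ} {η T : ℝ} {ρ g : (Fin n → ℝ) → ℝ}

lemma dotp_smul (c : ℝ) (u x : Fin n → ℝ) : dotp (c • u) x = c * dotp u x := by
  simp only [dotp, Pi.smul_apply, smul_eq_mul, Finset.mul_sum]
  exact Finset.sum_congr rfl fun i _ => by ring

lemma integral_dotp (h : Ulc η ρ) (u : Fin n → ℝ) :
    ∫ x, dotp u x ∂law ρ = ∑ i, u i * center ρ i := by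
  have := isProb h
  simp only [dotp]
  rw [integral_finsetSum _ fun i _ =>
    (integrable_polyB h (measurable_pi_apply i) (polyB_coord i)).const_mul (u i)]
  simp only [integral_const_mul, center]

lemma subG_integral (hs : SubG ρ) {u : Fin n → ℝ} (hu : nsq u = 1) :
    Integrable (fun x => Real.exp (dotp u x ^ 2)) (law ρ) ∧
      ∫ x, Real.exp (dotp u x ^ 2) ∂law ρ ≤ 3 := by
  have hm : Measurable fun x => Real.exp (dotp u x ^ 2) :=
    ((continuous_dotp u).measurable.pow_const 2).exp
  have h0 : 0 ≤ᵐ[law ρ] fun x => Real.exp (dotp u x ^ 2) :=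
    Eventually.of_forall fun x => (Real.exp_pos _).le
  refine ⟨⟨hm.aestronglyMeasurable, ?_⟩, ?_⟩
  · rw [hasFiniteIntegral_iff_ofReal h0]
    exact (hs u hu).trans_lt (by norm_num)
  · rw [integral_eq_lintegral_of_nonneg_ae h0 hm.aestronglyMeasurable]
    exact ENNReal.toReal_le_of_le_ofReal (by norm_num) ((hs u hu).trans (by norm_num))

theorem covLe_of_subG {n : ℕ} {η : ℝ} {ρ : (Fin n → ℝ) → ℝ} (h : Ulc η ρ)
    (hc : center ρ = 0) (hs : SubG ρ) : CovLe ρ 2 := by
  have := isProb h
  intro u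
  have e : covc ρ (dotp u) (dotp u) = ∫ x, dotp u x ^ 2 ∂law ρ := by
    simp [covc, integral_dotp h u, hc, sq]
  rw [e]
  rcases eq_or_lt_of_le (nsq_nonneg u) with h0 | hpos
  · have hu : u = 0 := funext fun i => by
      have := (Finset.sum_eq_zero_iff_of_nonneg fun i _ => sq_nonneg (u i)).1 h0.symm i
        (Finset.mem_univ i)
      simpa using this
    simp [hu, dotp, nsq]
  · set r := Real.sqrt (nsq u) with hr
    have hr0 : 0 < r := Real.sqrt_pos.2 hpos
    have hv : nsq (r⁻¹ • u) = 1 := by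
      rw [nsq_smul', inv_pow, hr, Real.sq_sqrt hpos.le, inv_mul_cancel₀ hpos.ne']
    obtain ⟨hi, hle⟩ := subG_integral hs hv
    have hi2 : Integrable (fun x => dotp (r⁻¹ • u) x ^ 2) (law ρ) :=
      integrable_polyB h ((continuous_dotp _).measurable.pow_const 2)
        (by simpa only [sq] using polyB_mul (polyB_dotp _) (polyB_dotp _))
    have hmono := integral_mono (hi2.add (integrable_const 1)) hi
      fun x => Real.add_one_le_exp _
    simp only [Pi.add_apply] at hmono
    rw [integral_add hi2 (integrable_const _)] at hmono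
    simp only [dotp_smul, mul_pow, integral_const_mul, integral_const, probReal_univ, one_smul,
      inv_pow] at hmono hle
    simp only [hr, Real.sq_sqrt hpos.le] at hmono hle
    have : (nsq u)⁻¹ * ∫ x, dotp u x ^ 2 ∂law ρ ≤ 2 := by linarith
    rwa [inv_mul_le_iff₀ hpos, mul_comm] at this

lemma nsq_moment_le (h : Ulc η ρ) (hc : center ρ = 0) (hs : SubG ρ) :
    ∫ x, nsq x ∂law ρ ≤ 2 * n := by
  have := isProb h
  simp only [nsq]
  rw [integral_finsetSum _ fun i _ => integrable_polyB h ((measurable_pi_apply i).pow_const 2)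
    (by simpa only [sq] using polyB_mul (polyB_coord i) (polyB_coord i))]
  calc ∑ i, ∫ x, x i ^ 2 ∂law ρ ≤ ∑ _i : Fin n, (2 : ℝ) := by
        refine Finset.sum_le_sum fun i _ => ?_
        have := covLe_of_subG h hc hs (Pi.single i 1)
        simpa [covc, dotp, nsq, Pi.single_apply, integral_dotp h, hc, sq,
          show ∫ x, x i ∂law ρ = 0 from congrFun hc i] using this
    _ = 2 * n := by simp; ring

/-- The logarithm of the normalisation is at least `-T n`. -/
lemma log_part_ge (h : Ulc η ρ) (hc : center ρ = 0) (hs : SubG ρ) (hT : 0 ≤ T)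
    (θ : Fin n → ℝ) : -(T * n) ≤ Real.log (part ρ T θ) := by
  have := isProb h
  rw [Real.le_log_iff_exp_le (part_pos h hT θ)]
  set c := -(T * n) with hcdef
  have hL : Integrable (fun x => dotp θ x - T / 2 * nsq x) (law ρ) :=
    (integrable_polyB h (continuous_dotp θ).measurable (polyB_dotp θ)).sub
      ((integrable_polyB h continuous_nsq.measurable polyB_nsq).const_mul _)
  have hw : Integrable (fun x => wgt T θ x) (law ρ) := by
    simpa using integrable_wgt h measurable_const (polyB_const 1) hT θ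
  have hp : ∀ x, Real.exp c * (1 + ((dotp θ x - T / 2 * nsq x) - c)) ≤ wgt T θ x := fun x => by
    have h1 := Real.add_one_le_exp (dotp θ x - T / 2 * nsq x - c)
    calc Real.exp c * (1 + (dotp θ x - T / 2 * nsq x - c))
        ≤ Real.exp c * Real.exp (dotp θ x - T / 2 * nsq x - c) :=
          mul_le_mul_of_nonneg_left (by linarith) (Real.exp_pos c).le
      _ = _ := by rw [← Real.exp_add, add_sub_cancel, wgt]
  have hmono := integral_mono (((integrable_const (1 : ℝ)).add (hL.sub (integrable_const c))).const_mul (Real.exp c))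
    hw hp
  simp only [Pi.sub_apply, Pi.add_apply] at hmono
  have hLc : Integrable (fun x => dotp θ x - T / 2 * nsq x - c) (law ρ) :=
    hL.sub (integrable_const c)
  rw [integral_const_mul, integral_add (integrable_const _) hLc,
    integral_sub hL (integrable_const c),
    integral_sub (integrable_polyB h (continuous_dotp θ).measurable (polyB_dotp θ))
      ((integrable_polyB h continuous_nsq.measurable polyB_nsq).const_mul _),
    integral_dotp h θ, integral_const_mul] at hmono
  simp only [hc, Pi.zero_apply, mul_zero, Finset.sum_const_zero, integral_const, probReal_univ,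
    one_smul] at hmono
  rw [show part ρ T θ = ∫ x, wgt T θ x ∂law ρ by simp [part, num]]
  refine le_trans ?_ hmono
  have := mul_le_mul_of_nonneg_left (nsq_moment_le h hc hs) (show 0 ≤ T / 2 by linarith)
  exact le_mul_of_one_le_right (Real.exp_pos c).le (by rw [hcdef]; linarith)

/-- The posterior barycentre is at most the state. -/
lemma bary_le (h : Ulc η ρ) (hc : center ρ = 0) (hs : SubG ρ) (hT : 0 ≤ T) (θ : Fin n → ℝ) :
    nsq (bary ρ T θ) ≤ nsq θ + 2 * T * n + 4 := by
  set a := bary ρ T θ with ha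
  have hTn : 0 ≤ 2 * T * n := by positivity
  rcases eq_or_lt_of_le (nsq_nonneg a) with h0 | hpos
  · linarith [nsq_nonneg θ]
  set r := Real.sqrt (nsq a) with hr
  have hr0 : 0 < r := Real.sqrt_pos.2 hpos
  have hr2 : r ^ 2 = nsq a := Real.sq_sqrt hpos.le
  set u := r⁻¹ • a with hu
  have hu1 : nsq u = 1 := by
    rw [hu, nsq_smul', inv_pow, hr2, inv_mul_cancel₀ hpos.ne']
  obtain ⟨hie, hle⟩ := subG_integral hs hu1
  have hP := part_pos h hT θ
  have hpost := post_ulc h hT θ
  have := isProb hpost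
  set Ψ : (Fin n → ℝ) → ℝ := fun x => dotp u x ^ 2 - (dotp θ x - T / 2 * nsq x) with hΨ
  have hΨm : Measurable Ψ := ((continuous_dotp u).measurable.pow_const 2).sub
    ((continuous_dotp θ).measurable.sub (continuous_nsq.measurable.const_mul _))
  have hΨp : PolyB Ψ := by
    have h1 : PolyB fun x => dotp u x ^ 2 := by
      simpa only [sq] using polyB_mul (polyB_dotp u) (polyB_dotp u)
    have h2 := polyB_add h1 (polyB_add (polyB_mul (polyB_const (-1)) (polyB_dotp θ))
      (polyB_mul (polyB_const (T / 2)) polyB_nsq))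
    convert h2 using 1
    funext x
    simp only [hΨ]
    ring
  -- Jensen under the posterior
  set c := ∫ x, Ψ x ∂law (post ρ T θ) with hcdef
  have hc_le : c ≤ 2 + T * n := by
    have hw : Integrable (fun x => wgt T θ x) (law ρ) := by
      simpa using integrable_wgt h measurable_const (polyB_const 1) hT θ
    have hΨw : Integrable (fun x => Ψ x * wgt T θ x) (law ρ) := integrable_wgt h hΨm hΨp hT θ
    have hp : ∀ x, Real.exp c * (Ψ x * wgt T θ x + (1 - c) * wgt T θ x) ≤
        Real.exp (dotp u x ^ 2) := fun x => by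
      have h1 := Real.add_one_le_exp (Ψ x - c)
      have h2 : Real.exp (dotp u x ^ 2) = Real.exp c * Real.exp (Ψ x - c) * wgt T θ x := by
        rw [wgt, ← Real.exp_add, ← Real.exp_add, hΨ]
        congr 1
        ring
      rw [h2, mul_assoc (Real.exp c), ← add_mul]
      exact mul_le_mul_of_nonneg_left (mul_le_mul_of_nonneg_right (by linarith)
        (Real.exp_pos _).le) (Real.exp_pos c).le
    have hmono := (integral_mono ((hΨw.add (hw.const_mul (1 - c))).const_mul (Real.exp c)) hie
      hp).trans hle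
    simp only [Pi.add_apply] at hmono
    rw [integral_const_mul, integral_add hΨw (hw.const_mul _), integral_const_mul,
      show ∫ x, wgt T θ x ∂law ρ = part ρ T θ by simp [part, num],
      show ∫ x, Ψ x * wgt T θ x ∂law ρ = c * part ρ T θ by
        rw [hcdef, integral_post h hT, mg, div_mul_cancel₀ _ hP.ne', num]] at hmono
    have h3 : Real.exp c * part ρ T θ ≤ 3 := by linarith
    have h4 : c + Real.log (part ρ T θ) ≤ Real.log 3 := by
      have := Real.log_le_log (by positivity) h3
      rwa [Real.log_mul (Real.exp_pos c).ne' hP.ne', Real.log_exp] at this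
    have h5 : Real.log 3 ≤ 2 := by
      linarith [Real.log_le_sub_one_of_pos (show (0:ℝ) < 3 by norm_num)]
    linarith [log_part_ge h hc hs hT θ]
  have i1 : Integrable (fun x => dotp u x) (law (post ρ T θ)) :=
    integrable_polyB hpost (continuous_dotp u).measurable (polyB_dotp u)
  have i1' : Integrable (fun x => dotp u x ^ 2) (law (post ρ T θ)) :=
    integrable_polyB hpost ((continuous_dotp u).measurable.pow_const 2)
      (by simpa only [sq] using polyB_mul (polyB_dotp u) (polyB_dotp u))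
  have i2 : Integrable (fun x => dotp θ x) (law (post ρ T θ)) :=
    integrable_polyB hpost (continuous_dotp θ).measurable (polyB_dotp θ)
  have i3 : Integrable (fun x => nsq x) (law (post ρ T θ)) :=
    integrable_polyB hpost continuous_nsq.measurable polyB_nsq
  have hlow : dotp u a ^ 2 - dotp θ a ≤ c := by
    have hsq : 0 ≤ ∫ x, (dotp u x - dotp u a) ^ 2 ∂law (post ρ T θ) :=
      integral_nonneg fun x => sq_nonneg _
    rw [integral_sub_const_sq i1 i1', integral_dotp hpost, center_post h hT θ] at hsq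
    have hn : 0 ≤ ∫ x, T / 2 * nsq x ∂law (post ρ T θ) :=
      integral_nonneg fun x => mul_nonneg (by linarith) (nsq_nonneg x)
    have i23 : Integrable (fun x => dotp θ x - T / 2 * nsq x) (law (post ρ T θ)) :=
      i2.sub (i3.const_mul _)
    simp only [hcdef, hΨ]
    rw [integral_sub i1' i23, integral_sub i2 (i3.const_mul _),
      integral_dotp hpost, center_post h hT θ]
    simp only [dotp, ← ha] at hsq ⊢
    linarith
  have hua : dotp u a ^ 2 = nsq a := by
    have e : dotp a a = nsq a := by simp [dotp, nsq, sq]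
    rw [hu, dotp_smul, e, mul_pow, inv_pow, hr2]
    field_simp
  have hθa : dotp θ a ≤ (nsq θ + nsq a) / 2 := by
    simp only [dotp, nsq, ← Finset.sum_add_distrib, Finset.sum_div]
    exact Finset.sum_le_sum fun i _ => by nlinarith [sq_nonneg (θ i - a i)]
  linarith

/-- The logarithm of the normalisation lies above its tangents. -/
lemma log_part_tangent (h : Ulc η ρ) (hT : 0 ≤ T) (θ θ' : Fin n → ℝ) :
    Real.log (part ρ T θ) + dotp (θ' - θ) (bary ρ T θ) ≤ Real.log (part ρ T θ') := by
  have := isProb h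
  set c := dotp (θ' - θ) (bary ρ T θ) with hc
  have hP := part_pos h hT θ
  rw [← Real.exp_le_exp, Real.exp_add, Real.exp_log hP, Real.exp_log (part_pos h hT θ')]
  have hw : ∀ θ : Fin n → ℝ, Integrable (fun x => wgt T θ x) (law ρ) := fun θ => by
    simpa using integrable_wgt h measurable_const (polyB_const 1) hT θ
  have hd : Integrable (fun x => dotp (θ' - θ) x * wgt T θ x) (law ρ) :=
    integrable_wgt h (continuous_dotp _).measurable (polyB_dotp _) hT θ
  have hp : ∀ x, Real.exp c * (dotp (θ' - θ) x * wgt T θ x + (1 - c) * wgt T θ x) ≤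
      wgt T θ' x := fun x => by
    have h1 := Real.add_one_le_exp (dotp (θ' - θ) x - c)
    have h2 : wgt T θ' x = Real.exp c * Real.exp (dotp (θ' - θ) x - c) * wgt T θ x := by
      simp only [wgt, ← Real.exp_add]
      congr 1
      have : dotp (θ' - θ) x = dotp θ' x - dotp θ x := by
        simp [dotp, sub_mul, Finset.sum_sub_distrib]
      linarith
    rw [h2, mul_assoc (Real.exp c), ← add_mul]
    exact mul_le_mul_of_nonneg_left (mul_le_mul_of_nonneg_right (by linarith)
      (Real.exp_pos _).le) (Real.exp_pos c).le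
  have hmono := integral_mono ((hd.add ((hw θ).const_mul (1 - c))).const_mul (Real.exp c)) (hw θ')
    hp
  simp only [Pi.add_apply] at hmono
  have he : ∫ x, dotp (θ' - θ) x * wgt T θ x ∂law ρ = c * part ρ T θ := by
    have := integral_post h hT θ (dotp (θ' - θ))
    rw [mg, integral_dotp (post_ulc h hT θ), center_post h hT θ, eq_div_iff hP.ne'] at this
    exact this.symm
  rw [integral_const_mul, integral_add hd ((hw θ).const_mul _), integral_const_mul, he] at hmono
  simp only [part, num, one_mul] at hmono ⊢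
  linarith

lemma lintegral_wgt_gd (hT : 0 < T) (x : Fin n → ℝ) :
    ∫⁻ θ, ENNReal.ofReal (wgt T θ x) ∂law (gd n T) = 1 := by
  have := isProb_gd (n := n) hT
  have h := lintegral_gd_shift hT (F := fun _ : Fin n → ℝ => (1 : ℝ≥0∞)) measurable_const x
  simpa using h.symm

/-- A higher moment of the normalisation. -/
lemma integrable_part_rpow (h : Ulc η ρ) (hT : 0 < T) {p : ℝ} (hp : 1 ≤ p)
    (hp2 : T / 2 * (p * (p - 1)) ≤ η / 16) :
    Integrable (fun θ => part ρ T θ ^ p) (law (gd n T)) := by
  have := isProb h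
  have := isProb_gd (n := n) hT
  refine ⟨((measurable_part h T).pow_const p).aestronglyMeasurable, ?_⟩
  rw [hasFiniteIntegral_iff_ofReal
    (Eventually.of_forall fun θ => Real.rpow_nonneg (part_pos h hT.le θ).le _)]
  have hpt : ∀ θ, ENNReal.ofReal (part ρ T θ ^ p) ≤
      ∫⁻ x, ENNReal.ofReal (wgt T θ x ^ p) ∂law ρ := by
    intro θ
    set c := part ρ T θ with hcdef
    have hc := part_pos h hT.le θ
    have hb : ∀ x, c ^ p * (1 + p * (wgt T θ x / c - 1)) ≤ wgt T θ x ^ p := fun x => by
      have hw0 : 0 ≤ wgt T θ x / c := div_nonneg (Real.exp_pos _).le hc.le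
      have := one_add_mul_self_le_rpow_one_add (s := wgt T θ x / c - 1) (by linarith) hp
      rw [add_sub_cancel, Real.div_rpow (show 0 ≤ wgt T θ x from (Real.exp_pos _).le) hc.le,
        le_div_iff₀ (Real.rpow_pos_of_pos hc _)] at this
      linarith
    have hw : Integrable (fun x => wgt T θ x) (law ρ) := by
      simpa using integrable_wgt h measurable_const (polyB_const 1) hT.le θ
    have hwp : Integrable (fun x => wgt T θ x ^ p) (law ρ) := by
      have hi := integrable_wgt h (g := fun _ => (1 : ℝ)) measurable_const (polyB_const 1)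
        (show 0 ≤ p * T by positivity) (p • θ)
      refine (hi.congr (Eventually.of_forall fun x => ?_))
      simp only [one_mul, wgt, ← Real.exp_mul, dotp_smul]
      congr 1
      ring
    rw [← ofReal_integral_eq_lintegral_ofReal hwp
      (Eventually.of_forall fun x => Real.rpow_nonneg (Real.exp_pos _).le _)]
    refine ENNReal.ofReal_le_ofReal (le_trans (le_of_eq ?_) (integral_mono
      (((integrable_const (1 : ℝ)).add
        (((hw.div_const c).sub (integrable_const 1)).const_mul p)).const_mul _) hwp hb))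
    have i1 : Integrable (fun x => p * (wgt T θ x / c - 1)) (law ρ) :=
      ((hw.div_const c).sub (integrable_const 1)).const_mul p
    simp only [Pi.add_apply, Pi.sub_apply]
    rw [integral_const_mul, integral_add (integrable_const _) i1, integral_const_mul,
      integral_sub (hw.div_const c) (integrable_const _), integral_div, integral_const,
      show ∫ x, wgt T θ x ∂law ρ = c by simp [hcdef, part, num], div_self hc.ne']
    simp
  refine lt_of_le_of_lt (lintegral_mono hpt) ?_
  have hjm : Measurable fun q : (Fin n → ℝ) × (Fin n → ℝ) =>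
      ENNReal.ofReal (wgt T q.1 q.2 ^ p) :=
    (((continuous_wgt2 T).measurable.comp measurable_swap).pow_const p).ennreal_ofReal
  rw [lintegral_lintegral_swap hjm.aemeasurable]
  have e : ∀ x, ∫⁻ θ, ENNReal.ofReal (wgt T θ x ^ p) ∂law (gd n T) =
      ENNReal.ofReal (Real.exp (T / 2 * (p * (p - 1)) * nsq x)) := by
    intro x
    have e1 : ∀ θ, ENNReal.ofReal (wgt T θ x ^ p) =
        ENNReal.ofReal (Real.exp (T / 2 * (p * (p - 1)) * nsq x)) *
          ENNReal.ofReal (wgt T θ (p • x)) := fun θ => by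
      rw [← ENNReal.ofReal_mul (Real.exp_pos _).le]
      congr 1
      have : dotp θ (p • x) = p * dotp θ x := by
        simp only [dotp, Pi.smul_apply, smul_eq_mul, Finset.mul_sum]
        exact Finset.sum_congr rfl fun i _ => by ring
      simp only [wgt, ← Real.exp_mul, ← Real.exp_add, this, nsq_smul']
      congr 1
      ring
    simp only [e1]
    rw [lintegral_const_mul' _ _ ENNReal.ofReal_ne_top, lintegral_wgt_gd hT, mul_one]
  simp only [e]
  have hi := integrable_exp_nsq h
  refine lt_of_le_of_lt (lintegral_mono fun x => ENNReal.ofReal_le_ofReal (Real.exp_le_exp.2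
    (mul_le_mul_of_nonneg_right hp2 (nsq_nonneg x)))) ?_
  exact (hasFiniteIntegral_iff_ofReal (Eventually.of_forall fun x => (Real.exp_pos _).le)).1 hi.2

/-- The exponential moments of the barycentre and of the normalisation against the Gaussian. -/
lemma exp_bary (h : Ulc η ρ) (hc : center ρ = 0) (hs : SubG ρ) (hT : 0 < T)
    (hT4 : 4 * T ^ 2 ≤ 1 / 4) :
    Integrable (fun θ => Real.exp (2 * T * nsq (bary ρ T θ) - Real.log (part ρ T θ)))
        (law (gd n T)) ∧
      ∫ θ, Real.exp (2 * T * nsq (bary ρ T θ) - Real.log (part ρ T θ)) ∂law (gd n T) ≤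
        Real.exp (16 * (T ^ 2 * n + T)) := by
  have := isProb_gd (n := n) hT
  have hgu := gd_ulc (n := n) hT
  set a := fun θ => nsq (bary ρ T θ) with hadef
  set L := fun θ => Real.log (part ρ T θ) with hLdef
  have ham : Measurable a := continuous_nsq.measurable.comp (measurable_pi_iff.2 fun i =>
    measurable_mg h (Φ := fun x _ => x i) ((measurable_pi_apply i).comp measurable_fst) T)
  have hLm : Measurable L := (measurable_part h T).log
  -- the Gaussian moment
  have hq : ∫⁻ θ, ENNReal.ofReal (Real.exp (4 * T * a θ)) ∂law (gd n T) ≤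
      ENNReal.ofReal (Real.exp (16 * (T ^ 2 * n + T))) := by
    rw [lintegral_gd hT (ham.const_mul (4 * T)).exp.ennreal_ofReal]
    obtain ⟨hi, hle⟩ := integral_exp_nsq_gauss (n := n) (show 0 ≤ 4 * T ^ 2 by positivity) hT4
    calc ∫⁻ v, ENNReal.ofReal (Real.exp (4 * T * a (Real.sqrt T • v))) ∂P166W.gauss (Fin n)
        ≤ ∫⁻ v, ENNReal.ofReal (Real.exp (8 * T ^ 2 * n + 16 * T) *
            Real.exp (4 * T ^ 2 * nsq v)) ∂P166W.gauss (Fin n) := by
          refine lintegral_mono fun v => ENNReal.ofReal_le_ofReal ?_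
          rw [← Real.exp_add]
          refine Real.exp_le_exp.2 ?_
          have hb := bary_le h hc hs hT.le (Real.sqrt T • v)
          rw [nsq_smul', Real.sq_sqrt hT.le] at hb
          have := mul_le_mul_of_nonneg_left hb (show 0 ≤ 4 * T by linarith)
          simp only [hadef]
          linarith
      _ ≤ _ := by
          rw [← ofReal_integral_eq_lintegral_ofReal (hi.const_mul _)
            (Eventually.of_forall fun v => by positivity), integral_const_mul]
          refine ENNReal.ofReal_le_ofReal ?_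
          calc Real.exp (8 * T ^ 2 * n + 16 * T) * ∫ v, Real.exp (4 * T ^ 2 * nsq v)
                ∂P166W.gauss (Fin n)
              ≤ Real.exp (8 * T ^ 2 * n + 16 * T) * Real.exp (2 * (4 * T ^ 2) * n) :=
                mul_le_mul_of_nonneg_left hle (Real.exp_pos _).le
            _ = _ := by rw [← Real.exp_add]; congr 1; ring
  set Q := ∫⁻ θ, ENNReal.ofReal (Real.exp (4 * T * a θ)) ∂law (gd n T) with hQ
  set X := ∫⁻ θ, ENNReal.ofReal (Real.exp (-2 * L θ)) ∂law (gd n T) with hX
  set Y := ∫⁻ θ, ENNReal.ofReal (Real.exp (2 * L θ - 4 * T * a θ)) ∂law (gd n T) with hY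
  have hXY : X * Y ≤ 1 := by
    have hm := maurey hgu (F := fun θ => -2 * L θ) (f := fun θ => -2 * L θ + 4 * T * a θ)
      (hLm.const_mul _) ((hLm.const_mul _).add (ham.const_mul _)) (fun x y => ?_)
    · simp only [hX, hY]
      refine le_trans (le_of_eq ?_) hm
      congr 1
      refine lintegral_congr fun θ => ?_
      congr 2
      ring
    · have ht := log_part_tangent h hT.le y x
      have hd : -(1 / (4 * T) * nsq (x - y)) - 4 * T * nsq (bary ρ T y) ≤
          2 * dotp (x - y) (bary ρ T y) := by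
        simp only [dotp, nsq, Finset.mul_sum, ← Finset.sum_neg_distrib, ← Finset.sum_sub_distrib]
        refine Finset.sum_le_sum fun i _ => ?_
        have hsq : 0 ≤ ((x - y) i + 4 * T * bary ρ T y i) ^ 2 / (4 * T) := by positivity
        have e : ((x - y) i + 4 * T * bary ρ T y i) ^ 2 / (4 * T) =
            1 / (4 * T) * (x - y) i ^ 2 + 2 * ((x - y) i * bary ρ T y i)
              + 4 * T * bary ρ T y i ^ 2 := by
          field_simp
          ring
        linarith
      have e2 : 1 / T / 4 = 1 / (4 * T) := by field_simp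
      rw [e2]
      simp only [hadef, hLdef]
      linarith
  have hone : (1 : ℝ≥0∞) = ∫⁻ θ, ENNReal.ofReal (Real.exp (L θ)) ∂law (gd n T) := by
    have := isProb h
    have e : ∀ θ, ENNReal.ofReal (Real.exp (L θ)) = ∫⁻ x, ENNReal.ofReal (wgt T θ x) ∂law ρ :=
      fun θ => by
        have hi : Integrable (fun x => wgt T θ x) (law ρ) := by
          simpa using integrable_wgt h measurable_const (polyB_const 1) hT.le θ
        rw [hLdef, Real.exp_log (part_pos h hT.le θ), part, num,
          ← ofReal_integral_eq_lintegral_ofReal hi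
            (Eventually.of_forall fun x => (Real.exp_pos _).le)]
        simp
    simp only [e]
    rw [lintegral_lintegral_swap
      (((continuous_wgt2 T).measurable.comp measurable_swap).ennreal_ofReal).aemeasurable]
    simp only [lintegral_wgt_gd hT, lintegral_const, measure_univ, mul_one]
  have hQ0 : Q ≠ 0 := by
    rw [hQ]
    intro h0
    rw [lintegral_eq_zero_iff (ham.const_mul (4 * T)).exp.ennreal_ofReal] at h0
    obtain ⟨θ, hθ⟩ := h0.exists
    simp at hθ
    linarith [Real.exp_pos (4 * T * a θ)]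
  have hQtop : Q ≠ ⊤ := ne_top_of_le_ne_top ENNReal.ofReal_ne_top hq
  have hQY : 1 ≤ Q * Y := by
    have hsplit : (1 : ℝ≥0∞) ≤ Q / 2 * Y + 1 / 2 := by
      calc (1 : ℝ≥0∞) = ∫⁻ θ, ENNReal.ofReal (Real.exp (L θ)) ∂law (gd n T) := hone
        _ ≤ ∫⁻ θ, (Q / 2 * ENNReal.ofReal (Real.exp (2 * L θ - 4 * T * a θ)) +
              (2 * Q)⁻¹ * ENNReal.ofReal (Real.exp (4 * T * a θ))) ∂law (gd n T) := by
            refine lintegral_mono fun θ => ?_
            have hQ' : Q = ENNReal.ofReal Q.toReal := (ENNReal.ofReal_toReal hQtop).symm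
            have hq0 : 0 < Q.toReal := ENNReal.toReal_pos hQ0 hQtop
            rw [hQ', show (2 : ℝ≥0∞) = ENNReal.ofReal 2 by norm_num,
              ← ENNReal.ofReal_div_of_pos two_pos, ← ENNReal.ofReal_mul (by positivity),
              ← ENNReal.ofReal_mul (by norm_num), ← ENNReal.ofReal_inv_of_pos (by positivity),
              ← ENNReal.ofReal_mul (by positivity), ← ENNReal.ofReal_add (by positivity)
                (by positivity)]
            refine ENNReal.ofReal_le_ofReal ?_
            have e1 : Real.exp (L θ) ^ 2 =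
                Real.exp (2 * L θ - 4 * T * a θ) * Real.exp (4 * T * a θ) := by
              rw [← Real.exp_add, ← Real.exp_nat_mul]; congr 1; push_cast; ring
            set A := Real.exp (2 * L θ - 4 * T * a θ)
            set B := Real.exp (4 * T * a θ)
            set q := Q.toReal
            have e2 : q / 2 * A + (2 * q)⁻¹ * B = ((q ^ 2 * A + B) / (2 * q)) := by
              field_simp
            rw [e2, le_div_iff₀ (by positivity)]
            have hA : 0 < A := Real.exp_pos _
            nlinarith [sq_nonneg (q * A - Real.exp (L θ))]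
        _ = Q / 2 * Y + (2 * Q)⁻¹ * Q := by
            have hmA : Measurable fun θ =>
                Q / 2 * ENNReal.ofReal (Real.exp (2 * L θ - 4 * T * a θ)) :=
              ((((hLm.const_mul 2).sub (ham.const_mul (4 * T))).exp).ennreal_ofReal).const_mul _
            rw [lintegral_add_left hmA, lintegral_const_mul' _ _ (ENNReal.div_ne_top hQtop
              (by norm_num)), lintegral_const_mul' _ _ (ENNReal.inv_ne_top.2
              (mul_ne_zero (by norm_num) hQ0))]
        _ = Q / 2 * Y + 1 / 2 := by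
            rw [ENNReal.mul_inv (.inl (by norm_num)) (.inl (by norm_num)), mul_assoc,
              ENNReal.inv_mul_cancel hQ0 hQtop, mul_one, one_div]
    have h2 : (1 : ℝ≥0∞) / 2 ≤ Q * Y / 2 := by
      have e : (1 : ℝ≥0∞) = 1 / 2 + 1 / 2 := (ENNReal.add_halves 1).symm
      rw [ENNReal.mul_div_right_comm]
      refine ENNReal.le_of_add_le_add_right (by norm_num : (1 : ℝ≥0∞) / 2 ≠ ⊤) ?_
      rwa [← e]
    have h3 := mul_le_mul' h2 (le_refl (2 : ℝ≥0∞))
    rwa [ENNReal.div_mul_cancel two_ne_zero ENNReal.ofNat_ne_top,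
      ENNReal.div_mul_cancel two_ne_zero ENNReal.ofNat_ne_top] at h3
  have hXQ : X ≤ Q := by
    calc X = X * 1 := (mul_one X).symm
      _ ≤ X * (Q * Y) := mul_le_mul' le_rfl hQY
      _ = Q * (X * Y) := by ring
      _ ≤ Q * 1 := mul_le_mul' le_rfl hXY
      _ = Q := mul_one Q
  have hZ : ∫⁻ θ, ENNReal.ofReal (Real.exp (2 * T * a θ - L θ)) ∂law (gd n T) ≤
      ENNReal.ofReal (Real.exp (16 * (T ^ 2 * n + T))) := by
    calc ∫⁻ θ, ENNReal.ofReal (Real.exp (2 * T * a θ - L θ)) ∂law (gd n T)
        ≤ ∫⁻ θ, (ENNReal.ofReal (1 / 2) * ENNReal.ofReal (Real.exp (4 * T * a θ)) +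
            ENNReal.ofReal (1 / 2) * ENNReal.ofReal (Real.exp (-2 * L θ))) ∂law (gd n T) := by
          refine lintegral_mono fun θ => ?_
          rw [← ENNReal.ofReal_mul (by norm_num), ← ENNReal.ofReal_mul (by norm_num),
            ← ENNReal.ofReal_add (by positivity) (by positivity)]
          refine ENNReal.ofReal_le_ofReal ?_
          have e1 : Real.exp (2 * T * a θ - L θ) ^ 2 =
              Real.exp (4 * T * a θ) * Real.exp (-2 * L θ) := by
            rw [← Real.exp_add, ← Real.exp_nat_mul]; congr 1; push_cast; ring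
          nlinarith [sq_nonneg (Real.exp (4 * T * a θ) - Real.exp (-2 * L θ)),
            Real.exp_pos (2 * T * a θ - L θ), Real.exp_pos (4 * T * a θ), Real.exp_pos (-2 * L θ)]
      _ = ENNReal.ofReal (1 / 2) * Q + ENNReal.ofReal (1 / 2) * X := by
          rw [lintegral_add_left ((ham.const_mul (4 * T)).exp.ennreal_ofReal.const_mul _),
            lintegral_const_mul' _ _ ENNReal.ofReal_ne_top,
            lintegral_const_mul' _ _ ENNReal.ofReal_ne_top]
      _ ≤ ENNReal.ofReal (1 / 2) * Q + ENNReal.ofReal (1 / 2) * Q :=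
          add_le_add le_rfl (mul_le_mul' le_rfl hXQ)
      _ = Q := by rw [← add_mul, ← ENNReal.ofReal_add (by norm_num) (by norm_num)]; norm_num
      _ ≤ _ := hq
  have hm : Measurable fun θ => Real.exp (2 * T * a θ - L θ) :=
    ((ham.const_mul (2 * T)).sub hLm).exp
  have h0 : 0 ≤ᵐ[law (gd n T)] fun θ => Real.exp (2 * T * a θ - L θ) :=
    Eventually.of_forall fun θ => (Real.exp_pos _).le
  refine ⟨⟨hm.aestronglyMeasurable, ?_⟩, ?_⟩
  · rw [hasFiniteIntegral_iff_ofReal h0]
    exact hZ.trans_lt ENNReal.ofReal_lt_top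
  · rw [integral_eq_lintegral_of_nonneg_ae h0 hm.aestronglyMeasurable]
    exact ENNReal.toReal_le_of_le_ofReal (Real.exp_pos _).le hZ

lemma exp_le_add_exp_sq (t : ℝ) : Real.exp t ≤ t + Real.exp (t ^ 2) := by
  have h1 := Real.add_one_le_exp (t ^ 2)
  by_cases ht : |t| ≤ 1
  · have := (abs_le.1 (Real.abs_exp_sub_one_sub_id_le ht)).2
    linarith
  · rcases lt_abs.1 (not_le.1 ht) with h0 | h0
    · have : Real.exp t ≤ Real.exp (t ^ 2) := Real.exp_le_exp.2 (by nlinarith)
      linarith
    · have := Real.exp_le_one_iff.2 (by linarith : t ≤ 0)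
      nlinarith

lemma exp_shift_le {δ v : ℝ} (hv : 0 ≤ v) :
    Real.exp (δ + v) - 1 - δ ≤ 2 * (Real.exp (δ ^ 2 + v) - 1) := by
  have h1 := mul_le_mul_of_nonneg_right (exp_le_add_exp_sq δ) (Real.exp_pos v).le
  have h0 : δ ≤ Real.exp (δ ^ 2) := by
    nlinarith [Real.add_one_le_exp (δ ^ 2), sq_nonneg (δ - 1)]
  have h2 := mul_le_mul_of_nonneg_right h0 (show 0 ≤ Real.exp v - 1 by
    linarith [Real.one_le_exp hv])
  have h3 := Real.one_le_exp (sq_nonneg δ)
  rw [Real.exp_add, Real.exp_add]
  linarith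

lemma abs_log_le {lo hi y : ℝ} (hlo : 0 < lo) (h1 : lo ≤ y) (h2 : y ≤ hi) :
    |Real.log y| ≤ |Real.log lo| + |Real.log hi| :=
  abs_le.2 ⟨by linarith [Real.log_le_log hlo h1, neg_abs_le (Real.log lo),
      abs_nonneg (Real.log hi)],
    by linarith [Real.log_le_log (hlo.trans_le h1) h2, le_abs_self (Real.log hi),
      abs_nonneg (Real.log lo)]⟩

lemma abs_mul_log_le {lo hi y : ℝ} (hlo : 0 < lo) (h1 : lo ≤ y) (h2 : y ≤ hi) :
    |y * Real.log y| ≤ hi * (|Real.log lo| + |Real.log hi|) := by
  rw [abs_mul, abs_of_pos (hlo.trans_le h1)]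
  exact mul_le_mul h2 (abs_log_le hlo h1 h2) (abs_nonneg _) ((hlo.trans_le h1).le.trans h2)

/-- The mean and the entropy of a function bounded above and below. -/
lemma bounded_ent (h : Ulc η ρ) (hgm : Measurable g) {lo hi : ℝ} (hlo : 0 < lo)
    (hgb : ∀ x, lo ≤ g x ∧ g x ≤ hi) :
    lo ≤ ∫ x, g x ∂law ρ ∧ (∫ x, g x ∂law ρ) ≤ hi ∧
      ent (law ρ) g ≤ (∫ x, g x ∂law ρ) * (Real.log hi - Real.log lo) ∧
      |ent (law ρ) g| ≤ 2 * (hi * (|Real.log lo| + |Real.log hi|)) := by
  have := isProb h
  have hg0 : ∀ x, 0 < g x := fun x => hlo.trans_le (hgb x).1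
  have hgi := integrable_polyB h hgm (polyB_of_bounded (C := hi) fun x => by
    rw [abs_of_pos (hg0 x)]; exact (hgb x).2)
  have hgl := integrable_polyB h (g := fun x => g x * Real.log (g x)) (hgm.mul hgm.log)
    (polyB_of_bounded fun x => abs_mul_log_le hlo (hgb x).1 (hgb x).2)
  have hm1 : lo ≤ ∫ x, g x ∂law ρ := by
    simpa using integral_mono (integrable_const lo) hgi fun x => (hgb x).1
  have hm2 : (∫ x, g x ∂law ρ) ≤ hi := by
    simpa using integral_mono hgi (integrable_const hi) fun x => (hgb x).2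
  have h1 : ∫ x, g x * Real.log (g x) ∂law ρ ≤ (∫ x, g x ∂law ρ) * Real.log hi := by
    rw [← integral_mul_const]
    exact integral_mono hgl (hgi.mul_const _) fun x => mul_le_mul_of_nonneg_left
      (Real.log_le_log (hg0 x) (hgb x).2) (hg0 x).le
  have h2 := mul_le_mul_of_nonneg_left (Real.log_le_log hlo hm1) (hlo.le.trans hm1)
  refine ⟨hm1, hm2, by rw [ent]; linarith, ?_⟩
  rw [ent, two_mul]
  refine (abs_sub _ _).trans (add_le_add ?_ (abs_mul_log_le hlo hm1 hm2))
  rw [← Real.norm_eq_abs]
  refine (norm_integral_le_of_norm_le (integrable_const (hi * (|Real.log lo| + |Real.log hi|)))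
    (Eventually.of_forall fun x => ?_)).trans (le_of_eq (by simp))
  exact abs_mul_log_le hlo (hgb x).1 (hgb x).2

/-- The distance and the exponential moments of a tilt by a function bounded above and below. -/
lemma tilt_bound (h : Ulc η ρ) (hgm : Measurable g) {lo hi : ℝ} (hlo : 0 < lo)
    (hgb : ∀ x, lo ≤ g x ∧ g x ≤ hi) (b : Fin n → ℝ)
    (hb : ∀ i, ∫ x, g x * x i ∂law ρ = b i * ∫ x, g x ∂law ρ) :
    (∫ x, g x ∂law ρ) * nsq (b - center ρ) * η ≤ 4 * ent (law ρ) g ∧
      nsq (b - center ρ) ≤ 4 * (Real.log hi - Real.log lo) / η ∧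
      ∀ u, ∫ x, g x * Real.exp (dotp u (x - b)) ∂law ρ ≤ (∫ x, g x ∂law ρ) *
        Real.exp (2 * (hi / lo) * (4 * (Real.log hi - Real.log lo) / η + 1 / η) * nsq u) := by
  have := isProb h
  have hη := h.pos
  have hg0 : ∀ x, 0 < g x := fun x => hlo.trans_le (hgb x).1
  have hgP : PolyB g := polyB_of_bounded (C := hi) fun x => by
    rw [abs_of_pos (hg0 x)]; exact (hgb x).2
  have hgi := integrable_polyB h hgm hgP
  have hgx : ∀ i, Integrable (fun x => g x * x i) (law ρ) := fun i =>
    integrable_polyB h (hgm.mul (measurable_pi_apply i)) (polyB_mul hgP (polyB_coord i))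
  obtain ⟨hm1, hm2, hent, -⟩ := bounded_ent h hgm hlo hgb
  set m := ∫ x, g x ∂law ρ with hm
  set c := center ρ with hc
  have hm0 : 0 < m := hlo.trans_le hm1
  have hshift : m * nsq (b - c) * η ≤ 4 * ent (law ρ) g := by
    have hs := center_shift h hgm (fun x => (hg0 x).le) fun x => (hgb x).2
    have e : (fun i => ∫ x, g x * (x i - center ρ i) ∂law ρ) = m • (b - c) := funext fun i => by
      simp only [mul_sub]
      rw [integral_sub (hgx i) (hgi.mul_const _), integral_mul_const, hb i, ← hm]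
      simp only [← hc, Pi.smul_apply, Pi.sub_apply, smul_eq_mul]
      ring
    rw [e, nsq_smul', ← hm, div_mul_eq_mul_div, div_mul_eq_mul_div, le_div_iff₀ hη] at hs
    refine le_of_mul_le_mul_left ?_ hm0
    linarith
  have hD : nsq (b - c) ≤ 4 * (Real.log hi - Real.log lo) / η := by
    rw [le_div_iff₀ hη]
    refine le_of_mul_le_mul_left ?_ hm0
    linarith
  refine ⟨hshift, hD, fun u => ?_⟩
  set Dd := 4 * (Real.log hi - Real.log lo) / η
  set R := hi / lo with hR
  have hR1 : 1 ≤ R := (one_le_div hlo).2 (hm1.trans hm2)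
  set δ := dotp u (c - b)
  set v := nsq u / η
  have hv : 0 ≤ v := div_nonneg (nsq_nonneg u) hη.le
  set W := fun x : Fin n → ℝ => dotp u (x - b)
  have eW : ∀ x, W x = δ + dotp u (x - c) := fun x => by
    simp only [W, δ, dotp_sub]; ring
  obtain ⟨iV, hV0⟩ := integral_dotp_centred h u
  have iE : Integrable (fun x => Real.exp (W x)) (law ρ) :=
    ((integrable_linear_mgf h u).const_mul (Real.exp δ)).congr
      (Eventually.of_forall fun x => by simp only [eW, Real.exp_add, hc])
  have hE : ∫ x, Real.exp (W x) ∂law ρ ≤ Real.exp (δ + v) := by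
    simp only [eW, Real.exp_add, integral_const_mul]
    exact mul_le_mul_of_nonneg_left (linear_mgf h u) (Real.exp_pos _).le
  have iW : Integrable W (law ρ) :=
    ((integrable_const δ).add iV).congr (Eventually.of_forall fun x => (eW x).symm)
  have hW : ∫ x, W x ∂law ρ = δ := by
    simp only [eW]
    rw [integral_add (integrable_const δ) iV, hV0, integral_const, probReal_univ, one_smul,
      add_zero]
  have iWg : Integrable (fun x => g x * W x) (law ρ) :=
    iW.bdd_mul hgm.aestronglyMeasurable (c := hi) (Eventually.of_forall fun x => by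
      rw [Real.norm_eq_abs, abs_of_pos (hg0 x)]; exact (hgb x).2)
  have iEg : Integrable (fun x => g x * Real.exp (W x)) (law ρ) :=
    iE.bdd_mul hgm.aestronglyMeasurable (c := hi) (Eventually.of_forall fun x => by
      rw [Real.norm_eq_abs, abs_of_pos (hg0 x)]; exact (hgb x).2)
  have hWg : ∫ x, g x * W x ∂law ρ = 0 := by
    have e : (fun x => g x * W x) = fun x => ∑ i, u i * (g x * x i - g x * b i) := by
      funext x
      simp only [W, dotp, Pi.sub_apply, Finset.mul_sum]
      exact Finset.sum_congr rfl fun i _ => by ring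
    have ii : ∀ i, Integrable (fun x => u i * (g x * x i - g x * b i)) (law ρ) := fun i =>
      ((hgx i).sub (hgi.mul_const (b i))).const_mul (u i)
    rw [e, integral_finsetSum _ fun i _ => ii i]
    refine Finset.sum_eq_zero fun i _ => ?_
    rw [integral_const_mul, integral_sub (hgx i) (hgi.mul_const _), integral_mul_const, hb i,
      ← hm]
    ring
  have hpt : ∀ x, g x * Real.exp (W x) - g x - g x * W x ≤
      hi * (Real.exp (W x) - 1 - W x) := fun x => by
    have := mul_le_mul_of_nonneg_right (hgb x).2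
      (show 0 ≤ Real.exp (W x) - 1 - W x by linarith [Real.add_one_le_exp (W x)])
    linarith
  have i1 : Integrable (fun x => g x * Real.exp (W x) - g x) (law ρ) := iEg.sub hgi
  have i2 : Integrable (fun x => Real.exp (W x) - 1) (law ρ) := iE.sub (integrable_const 1)
  have hmono := integral_mono (i1.sub iWg) ((i2.sub iW).const_mul hi) hpt
  simp only [Pi.sub_apply] at hmono
  rw [integral_sub i1 iWg, integral_sub iEg hgi, integral_const_mul, integral_sub i2 iW,
    integral_sub iE (integrable_const 1), hWg, hW, ← hm, integral_const, probReal_univ,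
    one_smul] at hmono
  have h1 : ∫ x, g x * Real.exp (W x) ∂law ρ ≤ m + hi * (2 * (Real.exp (δ ^ 2 + v) - 1)) := by
    have := mul_le_mul_of_nonneg_left
      ((show (∫ x, Real.exp (W x) ∂law ρ) - 1 - δ ≤ _ by linarith).trans (exp_shift_le hv))
      ((hlo.le.trans hm1).trans hm2)
    linarith
  have hhi : hi ≤ R * m := by
    calc hi = R * lo := by rw [hR, div_mul_cancel₀ _ hlo.ne']
      _ ≤ R * m := mul_le_mul_of_nonneg_left hm1 (by linarith)
  have hw0 : 1 ≤ Real.exp (δ ^ 2 + v) := Real.one_le_exp (by positivity)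
  have h2 : ∫ x, g x * Real.exp (W x) ∂law ρ ≤
      m * (1 + 2 * R * (Real.exp (δ ^ 2 + v) - 1)) := by
    have := mul_le_mul_of_nonneg_right hhi
      (show 0 ≤ 2 * (Real.exp (δ ^ 2 + v) - 1) by linarith)
    linarith
  refine h2.trans (mul_le_mul_of_nonneg_left ?_ hm0.le)
  have h3 := one_add_mul_self_le_rpow_one_add (s := Real.exp (δ ^ 2 + v) - 1) (p := 2 * R)
    (by linarith) (by linarith)
  rw [add_sub_cancel, ← Real.exp_mul] at h3
  refine h3.trans (Real.exp_le_exp.2 ?_)
  have hδ : δ ^ 2 ≤ Dd * nsq u := by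
    have h4 : δ ^ 2 ≤ nsq u * nsq (c - b) := Finset.sum_mul_sq_le_sq_mul_sq _ _ _
    have e : nsq (c - b) = nsq (b - c) := by simp [nsq, sub_sq_comm]
    rw [e] at h4
    nlinarith [mul_le_mul_of_nonneg_left hD (nsq_nonneg u)]
  have e : v = 1 / η * nsq u := by simp only [v]; ring
  have := mul_le_mul_of_nonneg_left hδ (show 0 ≤ 2 * R by linarith)
  rw [e]
  linarith

/-- The tilted barycentre. -/
def tbary (ρ g : (Fin n → ℝ) → ℝ) (T : ℝ) (θ : Fin n → ℝ) : Fin n → ℝ :=
  fun i => num ρ (fun x => g x * x i) T θ / num ρ g T θ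

lemma measurable_tbary (h : Ulc η ρ) (hgm : Measurable g) (T : ℝ) : Measurable (tbary ρ g T) :=
  measurable_pi_iff.2 fun i => (measurable_num h (Φ := fun x _ => g x * x i)
    ((hgm.comp measurable_fst).mul ((measurable_pi_apply i).comp measurable_fst)) T).div
      (measurable_num h (Φ := fun x _ => g x) (hgm.comp measurable_fst) T)

/-- The posterior mean of a function bounded above and below. -/
lemma mean_basic (h : Ulc η ρ) (hT : 0 ≤ T) (hgm : Measurable g) {lo hi : ℝ} (hlo : 0 < lo)
    (hgb : ∀ x, lo ≤ g x ∧ g x ≤ hi) (θ : Fin n → ℝ) :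
    lo ≤ mg ρ g T θ ∧ mg ρ g T θ ≤ hi ∧ num ρ g T θ = mg ρ g T θ * part ρ T θ ∧
      0 < num ρ g T θ := by
  obtain ⟨h1, h2, -, -⟩ := bounded_ent (post_ulc h hT θ) hgm hlo hgb
  rw [integral_post h hT θ] at h1 h2
  have e : num ρ g T θ = mg ρ g T θ * part ρ T θ := by
    rw [mg, div_mul_cancel₀ _ (part_pos h hT θ).ne']
  exact ⟨h1, h2, e, e ▸ mul_pos (hlo.trans_le h1) (part_pos h hT θ)⟩

/-- The tilted barycentre at one state. -/
lemma tbary_bound (h : Ulc η ρ) (hT : 0 ≤ T) (hgm : Measurable g) {lo hi : ℝ} (hlo : 0 < lo)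
    (hgb : ∀ x, lo ≤ g x ∧ g x ≤ hi) (θ : Fin n → ℝ) :
    mg ρ g T θ * nsq (tbary ρ g T θ - bary ρ T θ) * (η + T) ≤
        4 * ent (law (post ρ T θ)) g ∧
      nsq (tbary ρ g T θ - bary ρ T θ) ≤ 4 * (Real.log hi - Real.log lo) / (η + T) ∧
      ∀ u, ∫ x, g x * Real.exp (dotp u (x - tbary ρ g T θ)) ∂law (post ρ T θ) ≤ mg ρ g T θ *
        Real.exp (2 * (hi / lo) * (4 * (Real.log hi - Real.log lo) / (η + T) + 1 / (η + T))
          * nsq u) := by
  have hN := (mean_basic h hT hgm hlo hgb θ).2.2.2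
  have := tilt_bound (post_ulc h hT θ) hgm hlo hgb (tbary ρ g T θ) fun i => by
    rw [integral_post h hT θ, integral_post h hT θ]
    simp only [tbary, mg]
    have := hN.ne'
    field_simp
  rwa [center_post h hT θ, integral_post h hT θ] at this

/-- The logarithm of the unnormalised mean lies below a parabola at each point. -/
lemma log_num_taylor (h : Ulc η ρ) (hT : 0 ≤ T) (hgm : Measurable g) {lo hi : ℝ} (hlo : 0 < lo)
    (hgb : ∀ x, lo ≤ g x ∧ g x ≤ hi) (x z : Fin n → ℝ) :
    Real.log (num ρ g T x) ≤ Real.log (num ρ g T z) + dotp (tbary ρ g T z) (x - z) +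
      2 * (hi / lo) * (4 * (Real.log hi - Real.log lo) / (η + T) + 1 / (η + T))
        * nsq (x - z) := by
  obtain ⟨hM1, -, hNM, hN⟩ := mean_basic h hT hgm hlo hgb z
  have hNx := (mean_basic h hT hgm hlo hgb x).2.2.2
  have hmono := (tbary_bound h hT hgm hlo hgb z).2.2 (x - z)
  set b := tbary ρ g T z
  set u := x - z
  set K := 2 * (hi / lo) * (4 * (Real.log hi - Real.log lo) / (η + T) + 1 / (η + T))
  set I := ∫ y, g y * Real.exp (dotp u (y - b)) ∂law (post ρ T z)
  have hP := part_pos h hT z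
  have hid : num ρ g T x = Real.exp (dotp b u) * (part ρ T z * I) := by
    simp only [I]
    rw [integral_post h hT z, mg, mul_div_cancel₀ _ hP.ne', num, num, ← integral_const_mul]
    refine integral_congr_ae (Eventually.of_forall fun y => ?_)
    have e : dotp x y = dotp b u + dotp u (y - b) + dotp z y := by
      simp only [u, dotp, ← Finset.sum_add_distrib, Pi.sub_apply]
      exact Finset.sum_congr rfl fun i _ => by ring
    simp only [wgt]
    rw [show dotp x y - T / 2 * nsq y = dotp b u + dotp u (y - b) + (dotp z y - T / 2 * nsq y) by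
      rw [e]; ring, Real.exp_add, Real.exp_add]
    ring
  have hint : 0 < I := by
    have : 0 < Real.exp (dotp b u) * (part ρ T z * I) := hid ▸ hNx
    exact (mul_pos_iff_of_pos_left hP).1 ((mul_pos_iff_of_pos_left (Real.exp_pos _)).1 this)
  have hM0 := hlo.trans_le hM1
  rw [hid, Real.log_mul (Real.exp_pos _).ne' (mul_pos hP hint).ne', Real.log_exp,
    Real.log_mul hP.ne' hint.ne', hNM, Real.log_mul hM0.ne' hP.ne']
  have := Real.log_le_log hint hmono
  rw [Real.log_mul hM0.ne' (Real.exp_pos _).ne', Real.log_exp] at this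
  linarith

/-- An integrable majorant for the functions of the state met below. -/
lemma gauss_dom (h : Ulc η ρ) (hc : center ρ = 0) (hs : SubG ρ) (hT : 0 < T) :
    ∃ (D : (Fin n → ℝ) → ℝ) (κ δ A : ℝ), 0 < κ ∧ 0 < δ ∧ 0 ≤ A ∧
      Integrable D (law (gd n T)) ∧
      ∀ θ, 1 ≤ D θ ∧ part ρ T θ ≤ D θ ∧ Real.exp (κ * nsq θ) * part ρ T θ ≤ D θ ∧
        part ρ T θ * |Real.log (part ρ T θ)| ≤ A * D θ ∧
        part ρ T θ ^ (1 + δ) ≤ D θ := by
  have := isProb h
  have := isProb_gd (n := n) hT
  set δ₀ := min 1 (η / (16 * T)) with hδ₀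
  have hδ₀0 : 0 < δ₀ := lt_min one_pos (div_pos h.pos (by linarith))
  set p := 1 + δ₀ with hpdef
  have hp1 : 1 ≤ p := by linarith
  have hp2 : T / 2 * (p * (p - 1)) ≤ η / 16 := by
    have h1 : δ₀ ≤ 1 := min_le_left _ _
    have h2 : δ₀ * (16 * T) ≤ η := (le_div_iff₀ (by linarith)).1 (min_le_right _ _)
    rw [hpdef]
    nlinarith [mul_le_mul_of_nonneg_right h1 (mul_nonneg hδ₀0.le hT.le)]
  have iPp := integrable_part_rpow h hT hp1 hp2
  set q := p / δ₀ with hqdef
  have hq1 : 1 ≤ q := by rw [hqdef, le_div_iff₀ hδ₀0]; linarith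
  set κ := 1 / (4 * T * q) with hκ
  have hκ0 : 0 < κ := by positivity
  set D := fun θ => part ρ T θ ^ p + Real.exp (q * κ * nsq θ) with hDdef
  have iD : Integrable D (law (gd n T)) := by
    refine iPp.add ?_
    have hm : Measurable fun θ : Fin n → ℝ => Real.exp (q * κ * nsq θ) :=
      (continuous_nsq.measurable.const_mul _).exp
    rw [law_gd_eq hT, integrable_map_measure hm.aestronglyMeasurable (by fun_prop)]
    refine (integral_exp_nsq_gauss (n := n) (b := 1 / 4) (by norm_num) le_rfl).1.congr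
      (Eventually.of_forall fun v => ?_)
    simp only [Function.comp_apply, nsq_smul', Real.sq_sqrt hT.le, hκ]
    congr 1
    field_simp
  refine ⟨D, κ, δ₀, T * n + δ₀⁻¹, hκ0, hδ₀0, by positivity, iD, fun θ => ?_⟩
  have hP := part_pos h hT.le θ
  have hE : 1 ≤ Real.exp (q * κ * nsq θ) :=
    Real.one_le_exp (mul_nonneg (mul_nonneg (by linarith) hκ0.le) (nsq_nonneg θ))
  have hx : 0 ≤ part ρ T θ ^ p := Real.rpow_nonneg hP.le _
  have hyoung : Real.exp (κ * nsq θ) * part ρ T θ ≤ D θ := by
    have hpq : p.HolderConjugate q := by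
      rw [Real.holderConjugate_iff]
      refine ⟨by linarith, ?_⟩
      rw [hqdef, inv_div]
      field_simp
      linarith
    have h1 := Real.young_inequality_of_nonneg hP.le (Real.exp_pos (κ * nsq θ)).le hpq
    have hy : Real.exp (κ * nsq θ) ^ q = Real.exp (q * κ * nsq θ) := by
      rw [← Real.exp_mul]; congr 1; ring
    rw [hy] at h1
    have h2 : part ρ T θ ^ p / p ≤ part ρ T θ ^ p := div_le_self hx hp1
    have h3 := div_le_self (Real.exp_pos (q * κ * nsq θ)).le hq1
    simp only [hDdef]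
    linarith
  have hPD : part ρ T θ ≤ D θ :=
    le_trans (le_mul_of_one_le_left hP.le
      (Real.one_le_exp (mul_nonneg hκ0.le (nsq_nonneg θ)))) hyoung
  have hPp : part ρ T θ ^ p ≤ D θ := le_add_of_nonneg_right (Real.exp_pos _).le
  refine ⟨le_add_of_nonneg_of_le hx hE, hPD, hyoung, ?_, hPp⟩
  have h1 := log_part_ge h hc hs hT.le θ
  have h2 := Real.log_le_rpow_div hP.le hδ₀0
  have h4 : (0 : ℝ) ≤ part ρ T θ ^ δ₀ / δ₀ := div_nonneg (Real.rpow_nonneg hP.le _) hδ₀0.le
  have h5 : (0 : ℝ) ≤ T * n := by positivity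
  have h3 : |Real.log (part ρ T θ)| ≤ T * n + part ρ T θ ^ δ₀ / δ₀ :=
    abs_le.2 ⟨by linarith, by linarith⟩
  have h6 : part ρ T θ * part ρ T θ ^ δ₀ = part ρ T θ ^ p := by
    rw [hpdef, Real.rpow_add hP, Real.rpow_one]
  calc part ρ T θ * |Real.log (part ρ T θ)|
      ≤ part ρ T θ * (T * n + part ρ T θ ^ δ₀ / δ₀) := mul_le_mul_of_nonneg_left h3 hP.le
    _ = T * n * part ρ T θ + δ₀⁻¹ * part ρ T θ ^ p := by rw [← h6]; ring
    _ ≤ _ := by
        rw [add_mul]
        exact add_le_add (mul_le_mul_of_nonneg_left hPD (by positivity))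
          (mul_le_mul_of_nonneg_left hPp (by positivity))

/-- The chain rule of the entropy along the channel and the bound of the posterior part. -/
lemma ent_chain (h : Ulc η ρ) (hT : 0 < T) {f : (Fin n → ℝ) → ℝ} (hf : Tame f) {lo hi : ℝ}
    (hlo : 0 < lo) (hgb : ∀ x, lo ≤ f x ^ 2 ∧ f x ^ 2 ≤ hi) :
    ent (law ρ) (fun x => f x ^ 2) = Ep ρ T (fun θ => ent (law (post ρ T θ)) fun x => f x ^ 2) +
        (Ep ρ T (fun θ => mg ρ (fun x => f x ^ 2) T θ * Real.log (mg ρ (fun x => f x ^ 2) T θ))
          - (∫ x, f x ^ 2 ∂law ρ) * Real.log (∫ x, f x ^ 2 ∂law ρ)) ∧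
      Ep ρ T (fun θ => ent (law (post ρ T θ)) fun x => f x ^ 2) ≤
        2 / T * energy (law ρ) f := by
  have := isProb h
  set g := fun x => f x ^ 2 with hgdef
  have hgm : Measurable g := (hf.continuous.pow 2).measurable
  set M := mg ρ g T with hMdef
  set gl := fun x => g x * Real.log (g x) with hgl
  set Bl := hi * (|Real.log lo| + |Real.log hi|) with hBl
  have hglm : Measurable gl := hgm.mul hgm.log
  have hglB : ∀ x, |gl x| ≤ Bl := fun x => abs_mul_log_le hlo (hgb x).1 (hgb x).2
  have hpost := post_ulc h hT.le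
  have hMm : Measurable M := measurable_mg h (Φ := fun x _ => g x) (hgm.comp measurable_fst) T
  have hMlP : PolyB fun θ => M θ * Real.log (M θ) := polyB_of_bounded fun θ =>
    abs_mul_log_le hlo (mean_basic h hT.le hgm hlo hgb θ).1 (mean_basic h hT.le hgm hlo hgb θ).2.1
  set ep := fun θ => ent (law (post ρ T θ)) g with hepdef
  have hep : ∀ θ, ep θ = mg ρ gl T θ - M θ * Real.log (M θ) := fun θ => by
    simp only [hepdef, ent, integral_post h hT.le θ, hMdef, hgl]
  have hepm : Measurable ep := by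
    rw [funext hep]
    exact (measurable_mg h (Φ := fun x _ => gl x) (hglm.comp measurable_fst) T).sub
      (hMm.mul hMm.log)
  have hepP : PolyB ep := polyB_of_bounded fun θ => (bounded_ent (hpost θ) hgm hlo hgb).2.2.2
  have hmix : ∀ {F : (Fin n → ℝ) → ℝ} {C : ℝ}, Measurable F → (∀ x, |F x| ≤ C) →
      Ep ρ T (mg ρ F T) = ∫ x, F x ∂law ρ := fun {F C} hm hC => by
    have hP2 : PolyB2 fun x (_ : Fin n → ℝ) => F x :=
      ⟨C, 0, fun x θ => by simpa using hC x⟩
    rw [← joint_mg h hT (Φ := fun x _ => F x) (hm.comp measurable_fst) hP2, joint,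
      integral_fun_fst]
    simp
  have p2 : ∀ {F : (Fin n → ℝ) → ℝ}, PolyB F → PolyB2 fun _ θ => F θ := fun {F} ⟨A, k, hA⟩ =>
    ⟨|A|, k, fun x θ => (hA θ).trans (mul_le_mul (le_abs_self A)
      (pow_le_pow_left₀ (by linarith [nsq_nonneg θ]) (by linarith [nsq_nonneg x]) k)
      (by have := nsq_nonneg θ; positivity) (abs_nonneg A))⟩
  have iJ : ∀ {F : (Fin n → ℝ) → ℝ}, Measurable F → PolyB F →
      Integrable (fun z => F (T • z.1 + Real.sqrt T • z.2))
        ((law ρ).prod (P166W.gauss (Fin n))) := fun {F} hm hF =>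
    integrable_joint h (Φ := fun _ θ => F θ) (hm.comp measurable_snd) (p2 hF) hT.le
  refine ⟨?_, ?_⟩
  · have e : Ep ρ T (mg ρ gl T) = Ep ρ T ep + Ep ρ T (fun θ => M θ * Real.log (M θ)) := by
      simp only [Ep, joint]
      rw [← integral_add (iJ hepm hepP)
        (iJ (F := fun θ => M θ * Real.log (M θ)) (hMm.mul hMm.log) hMlP)]
      refine integral_congr_ae (Eventually.of_forall fun z => ?_)
      simp only [hep]
      ring
    rw [hmix hglm hglB] at e
    rw [ent]
    simp only [hgl] at e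
    linarith
  · obtain ⟨Cg, hCg⟩ := hf.bounded_gradSq
    have hgsm := hf.continuous_gradSq.measurable
    have hgs0 : ∀ x, 0 ≤ gradSq f x := fun x => gradSq_nonneg f x
    have hgsB : ∀ x, |gradSq f x| ≤ Cg := fun x => by rw [abs_of_nonneg (hgs0 x)]; exact hCg x
    have hle : ∀ θ, ep θ ≤ 2 / T * mg ρ (gradSq f) T θ := fun θ => by
      refine (lsi_tame (hpost θ) hf).trans ?_
      rw [energy, integral_post h hT.le θ]
      refine mul_le_mul_of_nonneg_right
        (div_le_div_of_nonneg_left two_pos.le hT (by linarith [h.pos])) ?_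
      rw [← integral_post h hT.le θ]
      exact integral_nonneg hgs0
    have hmgm := measurable_mg h (Φ := fun x _ => gradSq f x) (hgsm.comp measurable_fst) T
    have hmgB : ∀ θ, |mg ρ (gradSq f) T θ| ≤ Cg := fun θ => by
      have := isProb (hpost θ)
      rw [← integral_post h hT.le θ, ← Real.norm_eq_abs]
      refine (norm_integral_le_of_norm_le (integrable_const Cg)
        (Eventually.of_forall fun x => hgsB x)).trans (le_of_eq ?_)
      simp
    refine (Ep_mono h hT.le hepm (hmgm.const_mul (2 / T)) hepP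
      (polyB_mul (polyB_const _) (polyB_of_bounded hmgB)) hle).trans (le_of_eq ?_)
    rw [Ep, joint, integral_const_mul]
    congr 1
    exact hmix hgsm hgsB

/-- Functions of the state against the Gaussian. -/
lemma mean_integrable (h : Ulc η ρ) (hc : center ρ = 0) (hs : SubG ρ) (hT : 0 < T)
    (hgm : Measurable g) {lo hi : ℝ} (hlo : 0 < lo) (hgb : ∀ x, lo ≤ g x ∧ g x ≤ hi) :
    Integrable (num ρ g T) (law (gd n T)) ∧
      Integrable (fun θ => num ρ g T θ * Real.log (part ρ T θ)) (law (gd n T)) ∧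
      Integrable (fun θ => num ρ g T θ * Real.log (num ρ g T θ)) (law (gd n T)) ∧
      Integrable (fun θ => num ρ g T θ * nsq (bary ρ T θ)) (law (gd n T)) ∧
      Integrable (fun θ => part ρ T θ * (mg ρ g T θ * Real.log (mg ρ g T θ))) (law (gd n T)) ∧
      Integrable (fun θ => part ρ T θ * ent (law (post ρ T θ)) g) (law (gd n T)) ∧
      ∃ δ, 0 < δ ∧
        Integrable (fun θ => Real.exp ((1 + δ) * Real.log (num ρ g T θ))) (law (gd n T)) ∧
        Integrable (fun θ => nsq (tbary ρ g T θ) *
          Real.exp (Real.log (num ρ g T θ) + δ * nsq (tbary ρ g T θ))) (law (gd n T)) := by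
  obtain ⟨D, κ, δ₀, A, hκ0, hδ₀0, hA0, iD, hD⟩ := gauss_dom h hc hs hT
  have hdom : ∀ {F : (Fin n → ℝ) → ℝ} (C : ℝ), Measurable F → (∀ θ, |F θ| ≤ C * D θ) →
      Integrable F (law (gd n T)) := fun {F} C hm hF =>
    (iD.const_mul C).mono' hm.aestronglyMeasurable (Eventually.of_forall fun θ => hF θ)
  have hb := mean_basic h hT.le hgm hlo hgb
  have hhi0 : 0 < hi := hlo.trans_le ((hgb 0).1.trans (hgb 0).2)
  have hP : ∀ θ, 0 < part ρ T θ := part_pos h hT.le
  have hPD : ∀ θ, part ρ T θ ≤ D θ := fun θ => (hD θ).2.1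
  have hMm : Measurable (mg ρ g T) :=
    measurable_mg h (Φ := fun x _ => g x) (hgm.comp measurable_fst) T
  have hNm : Measurable (num ρ g T) :=
    measurable_num h (Φ := fun x _ => g x) (hgm.comp measurable_fst) T
  have hPm : Measurable (part ρ T) := measurable_part h T
  have hND : ∀ θ, num ρ g T θ ≤ hi * D θ := fun θ => by
    rw [(hb θ).2.2.1]
    exact mul_le_mul (hb θ).2.1 (hPD θ) (hP θ).le hhi0.le
  set Lh := |Real.log lo| + |Real.log hi| with hLh
  have hepm : Measurable fun θ => ent (law (post ρ T θ)) g := by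
    have : (fun θ => ent (law (post ρ T θ)) g) =
        fun θ => mg ρ (fun x => g x * Real.log (g x)) T θ
          - mg ρ g T θ * Real.log (mg ρ g T θ) := by
      funext θ; simp only [ent, integral_post h hT.le θ]
    rw [this]
    exact (measurable_mg h (Φ := fun x _ => g x * Real.log (g x))
      ((hgm.mul hgm.log).comp measurable_fst) T).sub (hMm.mul hMm.log)
  have hθD : ∀ θ, nsq θ * part ρ T θ ≤ κ⁻¹ * D θ := fun θ => by
    have h1 : nsq θ ≤ κ⁻¹ * Real.exp (κ * nsq θ) := by
      rw [← div_eq_inv_mul, le_div_iff₀ hκ0]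
      linarith [Real.add_one_le_exp (κ * nsq θ)]
    calc nsq θ * part ρ T θ ≤ κ⁻¹ * Real.exp (κ * nsq θ) * part ρ T θ :=
          mul_le_mul_of_nonneg_right h1 (hP θ).le
      _ ≤ _ := by
          rw [mul_assoc]; exact mul_le_mul_of_nonneg_left (hD θ).2.2.1 (by positivity)
  have ham : Measurable fun θ => nsq (bary ρ T θ) :=
    continuous_nsq.measurable.comp (measurable_pi_iff.2 fun i =>
      measurable_mg h (Φ := fun x _ => x i) ((measurable_pi_apply i).comp measurable_fst) T)
  have hbm := measurable_tbary h hgm T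
  refine ⟨hdom hi hNm fun θ => by rw [abs_of_pos (hb θ).2.2.2]; exact hND θ,
    hdom (hi * A) (hNm.mul hPm.log) fun θ => ?_, hdom (hi * (Lh + A)) (hNm.mul hNm.log) fun θ => ?_,
    hdom (hi * (κ⁻¹ + (2 * T * n + 4))) (hNm.mul ham) fun θ => ?_,
    hdom (hi * Lh) (hPm.mul (hMm.mul hMm.log)) fun θ => ?_,
    hdom (2 * (hi * Lh)) (hPm.mul hepm) fun θ => ?_,
    min δ₀ (κ / 8), lt_min hδ₀0 (by positivity), ?_, ?_⟩
  · rw [abs_mul, abs_of_pos (hb θ).2.2.2, (hb θ).2.2.1, mul_assoc, mul_assoc]
    exact mul_le_mul (hb θ).2.1 (hD θ).2.2.2.1 (mul_nonneg (hP θ).le (abs_nonneg _)) hhi0.le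
  · rw [abs_mul, abs_of_pos (hb θ).2.2.2, (hb θ).2.2.1,
      Real.log_mul (hlo.trans_le (hb θ).1).ne' (hP θ).ne', mul_assoc, mul_assoc]
    refine mul_le_mul (hb θ).2.1 ?_ (mul_nonneg (hP θ).le (abs_nonneg _)) hhi0.le
    calc part ρ T θ * |Real.log (mg ρ g T θ) + Real.log (part ρ T θ)|
        ≤ part ρ T θ * (Lh + |Real.log (part ρ T θ)|) :=
          mul_le_mul_of_nonneg_left ((abs_add_le _ _).trans
            (add_le_add (abs_log_le hlo (hb θ).1 (hb θ).2.1) le_rfl)) (hP θ).le
      _ = Lh * part ρ T θ + part ρ T θ * |Real.log (part ρ T θ)| := by ring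
      _ ≤ Lh * D θ + A * D θ :=
          add_le_add (mul_le_mul_of_nonneg_left (hPD θ) (by positivity)) (hD θ).2.2.2.1
      _ = _ := by ring
  · rw [abs_of_nonneg (mul_nonneg (hb θ).2.2.2.le (nsq_nonneg _)), (hb θ).2.2.1, mul_assoc,
      mul_assoc]
    refine mul_le_mul (hb θ).2.1 ?_ (mul_nonneg (hP θ).le (nsq_nonneg _)) hhi0.le
    calc part ρ T θ * nsq (bary ρ T θ) ≤ part ρ T θ * (nsq θ + (2 * T * n + 4)) :=
          mul_le_mul_of_nonneg_left (by linarith [bary_le h hc hs hT.le θ]) (hP θ).le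
      _ = nsq θ * part ρ T θ + (2 * T * n + 4) * part ρ T θ := by ring
      _ ≤ κ⁻¹ * D θ + (2 * T * n + 4) * D θ :=
          add_le_add (hθD θ) (mul_le_mul_of_nonneg_left (hPD θ) (by positivity))
      _ = _ := by ring
  · rw [abs_mul, abs_of_pos (hP θ), mul_comm]
    exact mul_le_mul (abs_mul_log_le hlo (hb θ).1 (hb θ).2.1) (hPD θ) (hP θ).le (by positivity)
  · rw [abs_mul, abs_of_pos (hP θ), mul_comm]
    exact mul_le_mul (bounded_ent (post_ulc h hT.le θ) hgm hlo hgb).2.2.2 (hPD θ) (hP θ).le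
      (by positivity)
  · refine hdom ((1 + hi) ^ (1 + δ₀) * 2) ((hNm.log.const_mul _).exp) fun θ => ?_
    set δ := min δ₀ (κ / 8)
    have hδ0 : 0 < δ := lt_min hδ₀0 (by positivity)
    rw [abs_of_pos (Real.exp_pos _), mul_comm (1 + δ), ← Real.rpow_def_of_pos (hb θ).2.2.2,
      (hb θ).2.2.1, Real.mul_rpow (hlo.le.trans (hb θ).1) (hP θ).le, mul_assoc]
    have hδle : 1 + δ ≤ 1 + δ₀ := by linarith [min_le_left δ₀ (κ / 8)]
    refine mul_le_mul ((Real.rpow_le_rpow (hlo.le.trans (hb θ).1)
        (by linarith [(hb θ).2.1] : mg ρ g T θ ≤ 1 + hi) (by linarith)).trans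
        (Real.rpow_le_rpow_of_exponent_le (by linarith) hδle)) ?_
      (Real.rpow_nonneg (hP θ).le _) (Real.rpow_nonneg (by linarith) _)
    rcases le_total (part ρ T θ) 1 with h1 | h1
    · have := Real.rpow_le_one (hP θ).le h1 (show 0 ≤ 1 + δ by linarith)
      linarith [(hD θ).1]
    · have := (Real.rpow_le_rpow_of_exponent_le h1 hδle).trans (hD θ).2.2.2.2
      linarith [(hD θ).1]
  · set Dd := 4 * (Real.log hi - Real.log lo) / (η + T) with hDd
    set Cb := 4 * T * n + 8 + 2 * Dd with hCb
    refine hdom (hi * (8 / κ * Real.exp (κ / 4 * Cb)))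
      ((continuous_nsq.measurable.comp hbm).mul
        ((hNm.log.add ((continuous_nsq.measurable.comp hbm).const_mul _)).exp)) fun θ => ?_
    rw [abs_of_nonneg (mul_nonneg (nsq_nonneg _) (Real.exp_pos _).le), Real.exp_add,
      Real.exp_log (hb θ).2.2.2, (hb θ).2.2.1]
    have hv2 : nsq (tbary ρ g T θ) ≤ 2 * nsq θ + Cb := by
      have h1 := nsq_add_le (bary ρ T θ) (tbary ρ g T θ - bary ρ T θ)
      rw [add_sub_cancel] at h1
      linarith [bary_le h hc hs hT.le θ, (tbary_bound h hT.le hgm hlo hgb θ).2.1]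
    set v := nsq (tbary ρ g T θ)
    have hv : 0 ≤ v := nsq_nonneg _
    set δ := min δ₀ (κ / 8)
    have h1 : v * Real.exp (δ * v) ≤ 8 / κ * Real.exp (κ / 4 * v) := by
      have h2 : v ≤ 8 / κ * Real.exp (κ / 8 * v) := by
        rw [div_mul_eq_mul_div, le_div_iff₀ hκ0]
        linarith [Real.add_one_le_exp (κ / 8 * v)]
      calc v * Real.exp (δ * v) ≤ 8 / κ * Real.exp (κ / 8 * v) * Real.exp (κ / 8 * v) :=
            mul_le_mul h2 (Real.exp_le_exp.2 (mul_le_mul_of_nonneg_right (min_le_right _ _) hv))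
              (Real.exp_pos _).le (by positivity)
        _ = _ := by rw [mul_assoc, ← Real.exp_add]; ring_nf
    have h3 : Real.exp (κ / 4 * v) ≤ Real.exp (κ / 4 * Cb) * Real.exp (κ * nsq θ) := by
      rw [← Real.exp_add]
      refine Real.exp_le_exp.2 ?_
      have := mul_le_mul_of_nonneg_left hv2 (show 0 ≤ κ / 4 by positivity)
      linarith [mul_nonneg hκ0.le (nsq_nonneg θ)]
    calc v * (mg ρ g T θ * part ρ T θ * Real.exp (δ * v))
        = mg ρ g T θ * ((v * Real.exp (δ * v)) * part ρ T θ) := by ring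
      _ ≤ hi * ((8 / κ * (Real.exp (κ / 4 * Cb) * Real.exp (κ * nsq θ))) * part ρ T θ) :=
          mul_le_mul (hb θ).2.1 (mul_le_mul_of_nonneg_right (h1.trans
            (mul_le_mul_of_nonneg_left h3 (by positivity))) (hP θ).le)
            (mul_nonneg (mul_nonneg hv (Real.exp_pos _).le) (hP θ).le) hhi0.le
      _ = hi * (8 / κ * Real.exp (κ / 4 * Cb)) * (Real.exp (κ * nsq θ) * part ρ T θ) := by ring
      _ ≤ _ := mul_le_mul_of_nonneg_left (hD θ).2.2.1 (by positivity)

/-- The entropy of the posterior mean, by the inequality of the Gaussian. -/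
lemma mean_step (h : Ulc η ρ) (hc : center ρ = 0) (hs : SubG ρ) (hT : 0 < T)
    (hgm : Measurable g) {lo hi : ℝ} (hlo : 0 < lo) (hgb : ∀ x, lo ≤ g x ∧ g x ≤ hi) {m : ℝ}
    (hm : ∫ θ, num ρ g T θ ∂law (gd n T) = m) :
    Ep ρ T (fun θ => mg ρ g T θ * Real.log (mg ρ g T θ)) - m * Real.log m ≤
      4 * Ep ρ T (fun θ => ent (law (post ρ T θ)) g) +
        ∫ θ, num ρ g T θ * (T * nsq (bary ρ T θ) - Real.log (part ρ T θ)) ∂law (gd n T) := by
  obtain ⟨iN, iNL, iNN, iNa, -, iPep, δ, hδ0, iG2, iG4⟩ := mean_integrable h hc hs hT hgm hlo hgb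
  have hb := mean_basic h hT.le hgm hlo hgb
  have hη' : 0 < η + T := by linarith [h.pos]
  have hhi := (hgb 0).1.trans (hgb 0).2
  have hK : 0 ≤ 2 * (hi / lo) *
      (4 * (Real.log hi - Real.log lo) / (η + T) + 1 / (η + T)) := by
    have := sub_nonneg.2 (Real.log_le_log hlo hhi)
    have := hlo.le.trans hhi
    positivity
  have hbm := measurable_tbary h hgm T
  have hNm : Measurable (num ρ g T) :=
    measurable_num h (Φ := fun x _ => g x) (hgm.comp measurable_fst) T
  have hexp : ∀ θ, Real.exp (Real.log (num ρ g T θ)) = num ρ g T θ :=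
    fun θ => Real.exp_log (hb θ).2.2.2
  have hlsi := lsi_general (gd_ulc (n := n) hT) (G := fun θ => Real.log (num ρ g T θ))
    (DG := tbary ρ g T) hNm.log hbm hK hδ0 (log_num_taylor h hT.le hgm hlo hgb)
    (by simp only [hexp]; exact iN) iG2
    (by simp only [hexp, mul_comm (Real.log _)]; exact iNN) iG4
  simp only [hexp] at hlsi
  have ibN : Integrable (fun θ => nsq (tbary ρ g T θ) * num ρ g T θ) (law (gd n T)) := by
    refine iG4.mono' ((continuous_nsq.measurable.comp hbm).mul hNm).aestronglyMeasurable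
      (Eventually.of_forall fun θ => ?_)
    rw [Real.norm_eq_abs, abs_of_nonneg (mul_nonneg (nsq_nonneg _) (hb θ).2.2.2.le),
      Real.exp_add, hexp]
    exact mul_le_mul_of_nonneg_left (le_mul_of_one_le_right (hb θ).2.2.2.le
      (Real.one_le_exp (mul_nonneg hδ0.le (nsq_nonneg _)))) (nsq_nonneg _)
  have hMm : Measurable (mg ρ g T) :=
    measurable_mg h (Φ := fun x _ => g x) (hgm.comp measurable_fst) T
  have hSeq : Ep ρ T (fun θ => mg ρ g T θ * Real.log (mg ρ g T θ)) - m * Real.log m =
      ent (law (gd n T)) (num ρ g T) -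
        ∫ θ, num ρ g T θ * Real.log (part ρ T θ) ∂law (gd n T) := by
    rw [Ep_eq_of_measurable h hT (F := fun θ => mg ρ g T θ * Real.log (mg ρ g T θ))
      (hMm.mul hMm.log), ent, hm, sub_right_comm, ← integral_sub iNN iNL]
    congr 1
    refine integral_congr_ae (Eventually.of_forall fun θ => ?_)
    simp only [(hb θ).2.2.1]
    rw [Real.log_mul (hlo.trans_le (hb θ).1).ne' (part_pos h hT.le θ).ne']
    ring
  have hent : ent (law (gd n T)) (num ρ g T) ≤
      T / 2 * ∫ θ, nsq (tbary ρ g T θ) * num ρ g T θ ∂law (gd n T) := by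
    refine hlsi.trans (le_of_eq ?_)
    congr 1
    field_simp
  have iNY : Integrable
      (fun θ => num ρ g T θ * (T * nsq (bary ρ T θ) - Real.log (part ρ T θ))) (law (gd n T)) := by
    refine ((iNa.const_mul T).sub iNL).congr (Eventually.of_forall fun θ => ?_)
    simp only [Pi.sub_apply]
    ring
  have hstep : ∀ θ,
      T / 2 * (nsq (tbary ρ g T θ) * num ρ g T θ) - num ρ g T θ * Real.log (part ρ T θ) ≤
        4 * (part ρ T θ * ent (law (post ρ T θ)) g) +
          num ρ g T θ * (T * nsq (bary ρ T θ) - Real.log (part ρ T θ)) := by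
    intro θ
    set e := ent (law (post ρ T θ)) g
    set M := mg ρ g T θ
    set d := nsq (tbary ρ g T θ - bary ρ T θ)
    have hM : 0 ≤ M := hlo.le.trans (hb θ).1
    have hd : 0 ≤ d := nsq_nonneg _
    have h1 := nsq_add_le (bary ρ T θ) (tbary ρ g T θ - bary ρ T θ)
    rw [add_sub_cancel] at h1
    have h2 : M * d * T ≤ 4 * e := le_trans
      (mul_le_mul_of_nonneg_left (by linarith [h.pos]) (mul_nonneg hM hd))
      (tbary_bound h hT.le hgm hlo hgb θ).1
    have h3 := mul_le_mul_of_nonneg_left h2 (part_pos h hT.le θ).le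
    have h4 := mul_le_mul_of_nonneg_left h1 (show 0 ≤ T / 2 * num ρ g T θ by
      have := (hb θ).2.2.2.le; positivity)
    rw [(hb θ).2.2.1] at h4 ⊢
    linarith
  have hmono := integral_mono ((ibN.const_mul (T / 2)).sub iNL)
    ((iPep.const_mul 4).add iNY) hstep
  simp only [Pi.sub_apply, Pi.add_apply] at hmono
  rw [integral_sub (ibN.const_mul _) iNL, integral_add (iPep.const_mul 4) iNY,
    integral_const_mul, integral_const_mul] at hmono
  have hepm : Measurable fun θ => ent (law (post ρ T θ)) g := by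
    have : (fun θ => ent (law (post ρ T θ)) g) =
        fun θ => mg ρ (fun x => g x * Real.log (g x)) T θ
          - mg ρ g T θ * Real.log (mg ρ g T θ) := by
      funext θ; simp only [ent, integral_post h hT.le θ]
    rw [this]
    exact (measurable_mg h (Φ := fun x _ => g x * Real.log (g x))
      ((hgm.mul hgm.log).comp measurable_fst) T).sub (hMm.mul hMm.log)
  have hE : Ep ρ T (fun θ => ent (law (post ρ T θ)) g) =
      ∫ θ, part ρ T θ * ent (law (post ρ T θ)) g ∂law (gd n T) := by
    rw [Ep_eq_of_measurable h hT hepm]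
    exact integral_congr_ae (Eventually.of_forall fun θ => mul_comm _ _)
  rw [hSeq, hE]
  linarith

/-- The bound of the barycentre term by duality. -/
lemma fenchel_step (h : Ulc η ρ) (hc : center ρ = 0) (hs : SubG ρ) (hT : 0 < T)
    (hT4 : 4 * T ^ 2 ≤ 1 / 4) (hgm : Measurable g) {lo hi : ℝ} (hlo : 0 < lo)
    (hgb : ∀ x, lo ≤ g x ∧ g x ≤ hi) {m : ℝ} (hm0 : 0 < m)
    (hm : ∫ θ, num ρ g T θ ∂law (gd n T) = m) :
    2 * (∫ θ, num ρ g T θ * (T * nsq (bary ρ T θ) - Real.log (part ρ T θ)) ∂law (gd n T)) ≤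
      Ep ρ T (fun θ => mg ρ g T θ * Real.log (mg ρ g T θ)) - m * Real.log m
        + m * (16 * (T ^ 2 * n + T)) := by
  obtain ⟨iN, iNL, -, iNa, iPMl, -, -⟩ := mean_integrable h hc hs hT hgm hlo hgb
  obtain ⟨iZ, hZ⟩ := exp_bary h hc hs hT hT4
  have hb := mean_basic h hT.le hgm hlo hgb
  set B := 16 * (T ^ 2 * (n : ℝ) + T) with hB
  set Y := fun θ => T * nsq (bary ρ T θ) - Real.log (part ρ T θ) with hY
  have iNY : Integrable (fun θ => num ρ g T θ * Y θ) (law (gd n T)) := by
    refine ((iNa.const_mul T).sub iNL).congr (Eventually.of_forall fun θ => ?_)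
    simp only [Pi.sub_apply, hY]
    ring
  set c := Real.log m - B with hcd
  have hpt : ∀ θ, 2 * (num ρ g T θ * Y θ) + (c + 1) * num ρ g T θ ≤
      part ρ T θ * (mg ρ g T θ * Real.log (mg ρ g T θ)) +
        Real.exp c * Real.exp (2 * T * nsq (bary ρ T θ) - Real.log (part ρ T θ)) := fun θ => by
    have hP := part_pos h hT.le θ
    have h1 := mul_le_mul_of_nonneg_left
      (fenchel_mul_log (t := 2 * Y θ + c) (hlo.le.trans (hb θ).1)) hP.le
    have e : part ρ T θ * Real.exp (2 * Y θ + c) =
        Real.exp c * Real.exp (2 * T * nsq (bary ρ T θ) - Real.log (part ρ T θ)) := by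
      conv_lhs => rw [← Real.exp_log hP]
      rw [← Real.exp_add, ← Real.exp_add]
      congr 1
      simp only [hY]
      ring
    rw [(hb θ).2.2.1]
    rw [mul_add (part ρ T θ), mul_sub (part ρ T θ), e] at h1
    linarith
  have hmono := integral_mono ((iNY.const_mul 2).add (iN.const_mul (c + 1)))
    (iPMl.add (iZ.const_mul (Real.exp c))) hpt
  simp only [Pi.add_apply] at hmono
  rw [integral_add (iNY.const_mul 2) (iN.const_mul _), integral_add iPMl (iZ.const_mul _),
    integral_const_mul, integral_const_mul, integral_const_mul, hm] at hmono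
  have hMm : Measurable (mg ρ g T) :=
    measurable_mg h (Φ := fun x _ => g x) (hgm.comp measurable_fst) T
  have hEl : ∫ θ, part ρ T θ * (mg ρ g T θ * Real.log (mg ρ g T θ)) ∂law (gd n T) =
      Ep ρ T (fun θ => mg ρ g T θ * Real.log (mg ρ g T θ)) := by
    rw [Ep_eq_of_measurable h hT (F := fun θ => mg ρ g T θ * Real.log (mg ρ g T θ))
      (hMm.mul hMm.log)]
    exact integral_congr_ae (Eventually.of_forall fun θ => mul_comm _ _)
  have hexpc : Real.exp c *
      ∫ θ, Real.exp (2 * T * nsq (bary ρ T θ) - Real.log (part ρ T θ)) ∂law (gd n T) ≤ m := by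
    calc _ ≤ Real.exp c * Real.exp B := mul_le_mul_of_nonneg_left hZ (Real.exp_pos c).le
      _ = m := by rw [← Real.exp_add, hcd, sub_add_cancel, Real.exp_log hm0]
  rw [hEl] at hmono
  have e : (c + 1) * m = m * Real.log m - m * B + m := by rw [hcd]; ring
  linarith

/-- The inequality for a function bounded away from zero. -/
lemma defective_pos (h : Ulc η ρ) (hc : center ρ = 0) (hs : SubG ρ) (hT : 0 < T)
    (hT4 : 4 * T ^ 2 ≤ 1 / 4) {f : (Fin n → ℝ) → ℝ} (hf : Tame f) {lo : ℝ} (hlo : 0 < lo)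
    (hlof : ∀ x, lo ≤ f x ^ 2) :
    ent (law ρ) (fun x => f x ^ 2) ≤ 18 / T * energy (law ρ) f
      + 16 * (T ^ 2 * n + T) * ∫ x, f x ^ 2 ∂law ρ := by
  obtain ⟨Cf, hCf⟩ := hf.bounded
  have hgb : ∀ x, lo ≤ f x ^ 2 ∧ f x ^ 2 ≤ Cf ^ 2 := fun x =>
    ⟨hlof x, sq_le_sq' (abs_le.1 (hCf x)).1 (abs_le.1 (hCf x)).2⟩
  have hgm : Measurable fun x => f x ^ 2 := (hf.continuous.pow 2).measurable
  have hb := mean_basic h hT.le hgm hlo hgb
  obtain ⟨hchain, hE⟩ := ent_chain h hT hf hlo hgb
  set m := ∫ x, f x ^ 2 ∂law ρ with hmdef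
  have hm0 : 0 < m := hlo.trans_le (bounded_ent h hgm hlo hgb).1
  have hMm : Measurable (mg ρ (fun x => f x ^ 2) T) :=
    measurable_mg h (Φ := fun x _ => f x ^ 2) (hgm.comp measurable_fst) T
  have hP2 : PolyB2 fun x (_ : Fin n → ℝ) => f x ^ 2 :=
    ⟨Cf ^ 2, 0, fun x θ => by rw [abs_of_nonneg (sq_nonneg _)]; simpa using (hgb x).2⟩
  have hm : ∫ θ, num ρ (fun x => f x ^ 2) T θ ∂law (gd n T) = m := by
    have := isProb h
    have e := joint_mg h hT (Φ := fun x _ => f x ^ 2) (hgm.comp measurable_fst) hP2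
    rw [Ep_eq_of_measurable h hT hMm, joint, integral_fun_fst (fun x => f x ^ 2)] at e
    simp only [probReal_univ, one_smul, ← (hb _).2.2.1] at e
    exact e.symm
  have h1 := mean_step h hc hs hT hgm hlo hgb hm
  have h2 := fenchel_step h hc hs hT hT4 hgm hlo hgb hm0 hm
  have h3 : 18 / T * energy (law ρ) f = 9 * (2 / T * energy (law ρ) f) := by ring
  rw [hchain]
  linarith

/-- The regularised square. -/
lemma tame_sqrt {f : (Fin n → ℝ) → ℝ} (hf : Tame f) {ε : ℝ} (hε : 0 < ε) :
    Tame (fun x => Real.sqrt (f x ^ 2 + ε)) ∧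
      ∀ x, gradSq (fun x => Real.sqrt (f x ^ 2 + ε)) x ≤ gradSq f x := by
  refine ⟨hf.comp_smooth (φ := fun t => Real.sqrt (t ^ 2 + ε)) (s := Set.univ)
    ((contDiff_id.pow 2).add contDiff_const |>.sqrt fun t => by positivity).contDiffOn
    fun _ => Set.mem_univ _, fun x => Finset.sum_le_sum fun i _ => ?_⟩
  have hd : HasDerivAt (fun t => Real.sqrt (t ^ 2 + ε))
      (2 * f x / (2 * Real.sqrt (f x ^ 2 + ε))) (f x) := by
    have := ((hasDerivAt_pow 2 (f x)).add_const ε).sqrt (by positivity)
    simpa using this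
  have h2 : HasFDerivAt (fun x => Real.sqrt (f x ^ 2 + ε))
      ((2 * f x / (2 * Real.sqrt (f x ^ 2 + ε))) • fderiv ℝ f x) x :=
    hd.comp_hasFDerivAt x (hf.differentiable x).hasFDerivAt
  simp only [pd, h2.fderiv, smul_apply, smul_eq_mul, mul_pow]
  refine mul_le_of_le_one_left (sq_nonneg _) ?_
  rw [div_pow, mul_pow, mul_pow, Real.sq_sqrt (by positivity), div_le_one (by positivity)]
  linarith

theorem defective : ∃ C : ℝ, 1 ≤ C ∧ ∀ (n : ℕ) (η : ℝ) (ρ : (Fin n → ℝ) → ℝ), Ulc η ρ →
    center ρ = 0 → SubG ρ → ∀ T : ℝ, 0 < T → T ≤ 1 / C → ∀ f, Tame f →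
      ent (law ρ) (fun x => f x ^ 2) ≤ C / T * energy (law ρ) f
        + C * (T ^ 2 * n + T) * ∫ x, f x ^ 2 ∂law ρ := by
  refine ⟨18, by norm_num, fun n η ρ h hc hs T hT hTC f hf => ?_⟩
  have := isProb h
  obtain ⟨C, hC⟩ := hf.bounded
  set ε : ℕ → ℝ := fun k => 1 / ((k : ℝ) + 1) with hεdef
  have hε : ∀ k, 0 < ε k := fun k => by rw [hεdef]; positivity
  have hε1 : ∀ k, ε k ≤ 1 := fun k => by
    rw [hεdef, div_le_one (by positivity)]; linarith [(Nat.cast_nonneg k : (0:ℝ) ≤ k)]
  have hεt : Tendsto ε atTop (𝓝 0) := tendsto_one_div_add_atTop_nhds_zero_nat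
  set B := 16 * (T ^ 2 * (n : ℝ) + T) with hB
  have hT4 : 4 * T ^ 2 ≤ 1 / 4 := by nlinarith
  have hfi : Integrable (fun x => f x ^ 2) (law ρ) := hf.sq.integrable
  have hk : ∀ k, ent (law ρ) (fun x => f x ^ 2 + ε k) ≤
      18 / T * energy (law ρ) f + B * ((∫ x, f x ^ 2 ∂law ρ) + ε k) := fun k => by
    obtain ⟨hft, hgr⟩ := tame_sqrt hf (hε k)
    have e : ∀ x, Real.sqrt (f x ^ 2 + ε k) ^ 2 = f x ^ 2 + ε k := fun x =>
      Real.sq_sqrt (by have := hε k; positivity)
    have h1 := defective_pos h hc hs hT hT4 hft (hε k) fun x => by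
      rw [e]; linarith [sq_nonneg (f x)]
    simp only [e] at h1
    rw [integral_add hfi (integrable_const _), integral_const, probReal_univ, one_smul] at h1
    refine h1.trans (add_le_add (mul_le_mul_of_nonneg_left ?_ (by positivity)) le_rfl)
    exact integral_mono hft.integrable_gradSq hf.integrable_gradSq hgr
  have hlim : Tendsto (fun k => ent (law ρ) fun x => f x ^ 2 + ε k) atTop
      (𝓝 (ent (law ρ) fun x => f x ^ 2)) := by
    obtain ⟨D, hD⟩ := (isCompact_Icc (a := (0 : ℝ)) (b := C ^ 2 + 1)).exists_bound_of_continuousOn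
      Real.continuous_mul_log.continuousOn
    have h1 : Tendsto (fun k => ∫ x, (f x ^ 2 + ε k) * Real.log (f x ^ 2 + ε k) ∂law ρ) atTop
        (𝓝 (∫ x, f x ^ 2 * Real.log (f x ^ 2) ∂law ρ)) := by
      refine tendsto_integral_of_dominated_convergence (fun _ => D) (fun k => ?_)
        (integrable_const D) (fun k => Eventually.of_forall fun x => hD _ ⟨?_, ?_⟩)
        (Eventually.of_forall fun x => ?_)
      · exact (Real.continuous_mul_log.comp
          ((hf.continuous.pow 2).add continuous_const)).aestronglyMeasurable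
      · linarith [sq_nonneg (f x), hε k]
      · have := sq_le_sq' (abs_le.1 (hC x)).1 (abs_le.1 (hC x)).2
        linarith [hε1 k]
      · have := hεt.const_add (f x ^ 2)
        rw [add_zero] at this
        exact (Real.continuous_mul_log.tendsto _).comp this
    have h2 : Tendsto (fun k => ∫ x, f x ^ 2 + ε k ∂law ρ) atTop (𝓝 (∫ x, f x ^ 2 ∂law ρ)) := by
      have e : ∀ k, ∫ x, f x ^ 2 + ε k ∂law ρ = (∫ x, f x ^ 2 ∂law ρ) + ε k := fun k => by
        rw [integral_add hfi (integrable_const _), integral_const, probReal_univ, one_smul]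
      simp only [e]
      simpa using hεt.const_add (∫ x, f x ^ 2 ∂law ρ)
    exact h1.sub ((Real.continuous_mul_log.tendsto _).comp h2)
  have hr : Tendsto (fun k => 18 / T * energy (law ρ) f + B * ((∫ x, f x ^ 2 ∂law ρ) + ε k)) atTop
      (𝓝 (18 / T * energy (law ρ) f + B * ∫ x, f x ^ 2 ∂law ρ)) := by
    simpa using ((hεt.const_add (∫ x, f x ^ 2 ∂law ρ)).const_mul B).const_add
      (18 / T * energy (law ρ) f)
  refine (le_of_tendsto_of_tendsto' hlim hr hk).trans (add_le_add le_rfl ?_)
  refine mul_le_mul_of_nonneg_right ?_ (integral_nonneg fun x => sq_nonneg _)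
  rw [hB]
  nlinarith [show 0 ≤ T ^ 2 * (n : ℝ) + T by positivity]

end

end Vale.Agent.P245.General
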