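import Vale.Agent.P245.General.QForm
import Vale.Agent.P245.General.Defective

/-!
# P245, general measures: the spectral gap of a subgaussian measure

The variance of a function is the variance of its posterior mean at a time `T ≍ (1 + log n)⁻⁴` plus
at most `energy / T`. The growth of the former is governed by the posterior covariance; the states
where the covariance is large carry little of `f²`, by the entropy inequality and a chain of dyadic
times.
-/

open MeasureTheory

namespace Vale.Agent.P245.General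

noncomputable section

variable {n : ℕ} {η : ℝ} {ρ : (Fin n → ℝ) → ℝ}

/-! ### Averages along the channel -/

theorem polyB2_of_state {F : (Fin n → ℝ) → ℝ} (hF : PolyB F) : PolyB2 fun _ θ => F θ := by
  obtain ⟨A, k, hA⟩ := hF
  refine ⟨|A|, k, fun x θ => (hA θ).trans ?_⟩
  have h0 := nsq_nonneg θ
  have hx := nsq_nonneg x
  calc A * (1 + nsq θ) ^ k ≤ |A| * (1 + nsq θ) ^ k :=
        mul_le_mul_of_nonneg_right (le_abs_self A) (by positivity)
    _ ≤ _ := by gcongr; linarith

theorem polyB2_of_point {F : (Fin n → ℝ) → ℝ} (hF : PolyB F) : PolyB2 fun x _ => F x := by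
  obtain ⟨A, k, hA⟩ := hF
  refine ⟨|A|, k, fun x θ => (hA x).trans ?_⟩
  have h0 := nsq_nonneg θ
  have hx := nsq_nonneg x
  calc A * (1 + nsq x) ^ k ≤ |A| * (1 + nsq x) ^ k :=
        mul_le_mul_of_nonneg_right (le_abs_self A) (by positivity)
    _ ≤ _ := mul_le_mul_of_nonneg_left (pow_le_pow_left₀ (by positivity) (by linarith) k)
        (abs_nonneg A)

theorem integrable_chan (h : Ulc η ρ) {F : (Fin n → ℝ) → ℝ} (hm : Measurable F) (hF : PolyB F)
    {s : ℝ} (hs : 0 ≤ s) :
    Integrable (fun z => F (s • z.1 + Real.sqrt s • z.2))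
      ((law ρ).prod (P166W.gauss (Fin n))) :=
  integrable_joint h (Φ := fun _ θ => F θ) (hm.comp measurable_snd) (polyB2_of_state hF) hs

theorem Ep_add_eq (h : Ulc η ρ) {s : ℝ} (hs : 0 ≤ s) {F G : (Fin n → ℝ) → ℝ} (hF : Measurable F)
    (hG : Measurable G) (hF' : PolyB F) (hG' : PolyB G) :
    Ep ρ s (fun θ => F θ + G θ) = Ep ρ s F + Ep ρ s G :=
  integral_add (integrable_chan h hF hF' hs) (integrable_chan h hG hG' hs)

/-- Comparison of averages; the smaller function only has to be nonnegative. -/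
theorem Ep_le_of_sign (h : Ulc η ρ) {s : ℝ} (hs : 0 ≤ s) {F G : (Fin n → ℝ) → ℝ}
    (h0 : ∀ θ, 0 ≤ F θ) (hG : Measurable G) (hG' : PolyB G) (hle : ∀ θ, F θ ≤ G θ) :
    Ep ρ s F ≤ Ep ρ s G :=
  integral_mono_of_nonneg (Filter.Eventually.of_forall fun _ => h0 _)
    (integrable_chan h hG hG' hs) (Filter.Eventually.of_forall fun _ => hle _)

theorem cp_gradSq {f : (Fin n → ℝ) → ℝ} (hf : Tame f) : CP (gradSq f) :=
  ⟨hf.continuous_gradSq, polyB_gradSq (c1p_tame hf)⟩

theorem cp_sq {f : (Fin n → ℝ) → ℝ} (hf : Tame f) : CP fun x => f x ^ 2 :=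
  ⟨hf.continuous.pow 2, (c1p_tame hf.sq).2.1⟩

theorem measurable_mg_state (h : Ulc η ρ) {F : (Fin n → ℝ) → ℝ} (hF : CP F) (s : ℝ) :
    Measurable fun θ => mg ρ F s θ :=
  measurable_mg h (Φ := fun x _ => F x) (hF.1.measurable.comp measurable_fst) s

theorem polyB_mg_state (h : Ulc η ρ) {F : (Fin n → ℝ) → ℝ} (hF : CP F) {s : ℝ} (hs : 0 ≤ s) :
    PolyB fun θ => mg ρ F s θ :=
  polyB_slice (polyT_mg h hF.1.measurable hF.2) hs

/-- The average of a posterior average is the average. -/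
theorem Ep_mg_eq (h : Ulc η ρ) {F : (Fin n → ℝ) → ℝ} (hF : CP F) {s : ℝ} (hs : 0 < s) :
    Ep ρ s (fun θ => mg ρ F s θ) = ∫ x, F x ∂law ρ := by
  have := isProb h
  rw [← joint_mg h hs (Φ := fun x _ => F x) (hF.1.measurable.comp measurable_fst)
    (polyB2_of_point hF.2), joint]
  simp [integral_fun_fst]

theorem mg_nonneg (h : Ulc η ρ) {F : (Fin n → ℝ) → ℝ} (hF : ∀ x, 0 ≤ F x) {s : ℝ} (hs : 0 ≤ s)
    (θ : Fin n → ℝ) : 0 ≤ mg ρ F s θ := by
  rw [← integral_post h hs θ]
  exact integral_nonneg hF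

theorem bad_nonneg (ρ : (Fin n → ℝ) → ℝ) (s c : ℝ) (θ : Fin n → ℝ) : 0 ≤ bad ρ s c θ :=
  Set.indicator_nonneg (fun _ _ => zero_le_one) θ

theorem bad_le_one (ρ : (Fin n → ℝ) → ℝ) (s c : ℝ) (θ : Fin n → ℝ) : bad ρ s c θ ≤ 1 :=
  Set.indicator_le_self' (fun _ _ => zero_le_one) θ

theorem bad_post (h : Ulc η ρ) {r δ : ℝ} (hr : 0 ≤ r) (hδ : 0 ≤ δ) (c : ℝ) (θ θ' : Fin n → ℝ) :
    bad ρ (r + δ) c (θ + θ') = bad (post ρ r θ) δ c θ' := by
  have e : θ + θ' ∈ badSet ρ (r + δ) c ↔ θ' ∈ badSet (post ρ r θ) δ c := by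
    simp only [badSet, Set.mem_ofPred_eq, post_post h hr hδ]
  by_cases hb : θ' ∈ badSet (post ρ r θ) δ c
  · simp [bad, hb, e.2 hb]
  · simp [bad, hb, mt e.1 hb]

/-- The mass of `f²` on the states whose covariance exceeds `c`. -/
def badMass (ρ : (Fin n → ℝ) → ℝ) (f : (Fin n → ℝ) → ℝ) (s c : ℝ) : ℝ :=
  joint ρ s fun x θ => f x ^ 2 * bad ρ s c θ

theorem measurable_weight (h : Ulc η ρ) {f : (Fin n → ℝ) → ℝ} (hf : Tame f) {s : ℝ} (hs : 0 ≤ s)
    (c : ℝ) : Measurable (Function.uncurry fun x θ => f x ^ 2 * bad ρ s c θ) :=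
  ((hf.continuous.measurable.comp measurable_fst).pow_const 2).mul
    ((measurable_bad h hs c).comp measurable_snd)

theorem polyB2_weight (ρ : (Fin n → ℝ) → ℝ) {f : (Fin n → ℝ) → ℝ} (hf : Tame f) (s c : ℝ) :
    PolyB2 fun x θ => f x ^ 2 * bad ρ s c θ := by
  obtain ⟨A, hA⟩ := hf.bounded
  refine ⟨A ^ 2, 0, fun x θ => ?_⟩
  rw [pow_zero, mul_one, abs_mul, abs_pow, abs_of_nonneg (bad_nonneg ρ s c θ)]
  calc |f x| ^ 2 * bad ρ s c θ ≤ A ^ 2 * 1 := mul_le_mul
        (pow_le_pow_left₀ (abs_nonneg _) (hA x) 2) (bad_le_one ρ s c θ) (bad_nonneg ρ s c θ)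
        (sq_nonneg A)
    _ = A ^ 2 := mul_one _

theorem badMass_eq (h : Ulc η ρ) {f : (Fin n → ℝ) → ℝ} (hf : Tame f) {s : ℝ} (hs : 0 < s) (c : ℝ) :
    badMass ρ f s c = Ep ρ s fun θ => bad ρ s c θ * mg ρ (fun x => f x ^ 2) s θ := by
  rw [badMass, joint_mg h hs (measurable_weight h hf hs.le c) (polyB2_weight ρ hf s c)]
  congr 1
  funext θ
  simp only [mul_comm (_ ^ 2) (bad ρ s c θ), mg_const_mul]

/-! ### The entropy inequality -/

/-- An event of exponentially small probability carries little of `f²`. -/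
theorem badMass_le_ent (h : Ulc η ρ) {f : (Fin n → ℝ) → ℝ} (hf : Tame f) {δ c L : ℝ} (hδ : 0 ≤ δ)
    (hL : Ep ρ δ (bad ρ δ c) ≤ Real.exp (-L)) :
    L * badMass ρ f δ c ≤ ent (law ρ) (fun x => f x ^ 2) + ∫ x, f x ^ 2 ∂law ρ := by
  have := isProb h
  set γ := P166W.gauss (Fin n) with hγ
  set B : (Fin n → ℝ) × (Fin n → ℝ) → ℝ :=
    fun z => bad ρ δ c (δ • z.1 + Real.sqrt δ • z.2) with hB
  have iB : Integrable B ((law ρ).prod γ) :=
    integrable_chan h (measurable_bad h hδ c) (polyB_bad δ c) hδ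
  have iW : Integrable (fun z => f z.1 ^ 2 * B z) ((law ρ).prod γ) :=
    integrable_joint h (measurable_weight h hf hδ c) (polyB2_weight ρ hf δ c) hδ
  set q : (Fin n → ℝ) → ℝ := fun x => ∫ g, B (x, g) ∂γ with hq
  have hBm : StronglyMeasurable B :=
    ((measurable_bad h hδ c).comp (by fun_prop)).stronglyMeasurable
  have hqm : Measurable q := hBm.integral_prod_right'.measurable
  have hq0 : ∀ x, 0 ≤ q x := fun x => integral_nonneg fun g => bad_nonneg _ _ _ _
  have hq1 : ∀ x, q x ≤ 1 := fun x =>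
    (integral_mono_of_nonneg (Filter.Eventually.of_forall fun g => bad_nonneg _ _ _ _)
      (integrable_const (1 : ℝ)) (Filter.Eventually.of_forall fun g => bad_le_one _ _ _ _)).trans
      (by simp)
  have hqE : ∫ x, q x ∂law ρ = Ep ρ δ (bad ρ δ c) := by
    rw [Ep, joint, integral_prod _ iB]
  have hv : Integrable (fun x => f x ^ 2) (law ρ) := hf.sq.integrable
  have hvl : Integrable (fun x => f x ^ 2 * Real.log (f x ^ 2)) (law ρ) :=
    hf.sq.integrable_comp Real.continuous_mul_log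
  have hvY : Integrable (fun x => f x ^ 2 * (L * q x)) (law ρ) :=
    hv.mul_bdd (c := |L|) (hqm.const_mul L).aestronglyMeasurable
      (Filter.Eventually.of_forall fun x => by
        rw [Real.norm_eq_abs, abs_mul]
        exact mul_le_of_le_one_right (abs_nonneg L) (by rw [abs_of_nonneg (hq0 x)]; exact hq1 x))
  have hiq : Integrable q (law ρ) := iB.integral_prod_left
  have key : ∀ x, Real.exp (L * q x) ≤ 1 + Real.exp L * q x := fun x => by
    have h1 := convexOn_exp.2 (Set.mem_univ (0 : ℝ)) (Set.mem_univ L)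
      (sub_nonneg.2 (hq1 x)) (hq0 x) (by ring)
    simp only [smul_eq_mul, mul_zero, zero_add, Real.exp_zero, mul_one] at h1
    rw [mul_comm L]
    linarith [hq0 x]
  have hY : ∫⁻ x, ENNReal.ofReal (Real.exp (L * q x)) ∂law ρ ≤ ENNReal.ofReal (Real.exp 1) := by
    refine (lintegral_mono fun x => ENNReal.ofReal_le_ofReal (key x)).trans ?_
    have hi : Integrable (fun x => (1 : ℝ) + Real.exp L * q x) (law ρ) :=
      (integrable_const 1).add (hiq.const_mul _)
    rw [← ofReal_integral_eq_lintegral_ofReal hi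
      (Filter.Eventually.of_forall fun x => add_nonneg zero_le_one
        (mul_nonneg (Real.exp_pos L).le (hq0 x)))]
    refine ENNReal.ofReal_le_ofReal ?_
    rw [integral_add (integrable_const 1) (hiq.const_mul _), integral_const_mul, hqE]
    have h2 := mul_le_mul_of_nonneg_left hL (Real.exp_pos L).le
    rw [← Real.exp_add, add_neg_cancel, Real.exp_zero] at h2
    have h3 := Real.add_one_le_exp (1 : ℝ)
    simp
    linarith
  have hmain := integral_mul_le_ent (L := 1) (fun x => sq_nonneg (f x)) hv hvl hvY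
    (hqm.const_mul L) hY
  rw [mul_one] at hmain
  refine le_trans (le_of_eq ?_) hmain
  rw [badMass, joint, integral_prod _ iW, ← integral_const_mul]
  exact integral_congr_ae (Filter.Eventually.of_forall fun x => by
    simp only [hq, hB, integral_const_mul]; ring)

/-! ### The estimates at given constants -/

/-- The hypothesis with constants `D` and times up to `T` the bad mass of `f²` in one step is
small: the conclusion of `badMass_le_ent` with the bound of `guan` inserted. -/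
def StepBound (n : ℕ) (J : ℕ) (D T : ℝ) : Prop :=
  ∀ (η : ℝ) (σ : (Fin n → ℝ) → ℝ), Ulc η σ → ∀ c ε δ : ℝ, 0 < c → c * (1 + ε) ≤ 4 → CovLe σ c →
    1 / (2 * (J + 1)) ≤ ε → ε ≤ 1 → 0 < δ → δ ≤ T → ∀ f, Tame f →
      badMass σ f δ (c * (1 + ε)) ≤
        D * δ * (ent (law σ) (fun x => f x ^ 2) + ∫ x, f x ^ 2 ∂law σ)

/-- One step of the chain. -/
theorem badMass_step (h : Ulc η ρ) {f : (Fin n → ℝ) → ℝ} (hf : Tame f) {J : ℕ} {D T : ℝ}
    (hD : 0 ≤ D) (hS : StepBound n J D T) {c ε r : ℝ} (hc : 0 < c) (hc4 : c * (1 + ε) ≤ 4)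
    (hε : 1 / (2 * ((J : ℝ) + 1)) ≤ ε) (hε1 : ε ≤ 1) (hr : 0 < r) (hrT : r ≤ T) :
    badMass ρ f (r + r) (c * (1 + ε)) ≤
      badMass ρ f r c + D * (2 * energy (law ρ) f + r * ∫ x, f x ^ 2 ∂law ρ) := by
  set c' := c * (1 + ε) with hc'
  set G := fun θ => mg ρ (fun x => f x ^ 2) r θ with hG
  set H := fun θ => mg ρ (gradSq f) r θ with hH
  set U := fun θ => bad ρ r c θ * G θ + (D * 2 * H θ + D * r * G θ) with hU
  have hGm : Measurable G := measurable_mg_state h (cp_sq hf) r
  have hHm : Measurable H := measurable_mg_state h (cp_gradSq hf) r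
  have hGp : PolyB G := polyB_mg_state h (cp_sq hf) hr.le
  have hHp : PolyB H := polyB_mg_state h (cp_gradSq hf) hr.le
  have hG0 : ∀ θ, 0 ≤ G θ := mg_nonneg h (fun x => sq_nonneg _) hr.le
  have hH0 : ∀ θ, 0 ≤ H θ := mg_nonneg h (fun x => gradSq_nonneg f x) hr.le
  have hle : ∀ θ, joint (post ρ r θ) r
      (fun x θ' => f x ^ 2 * bad ρ (r + r) c' (θ + θ')) ≤ U θ := fun θ => by
    have hp := post_ulc h hr.le θ
    have := isProb hp
    have hsum : 0 ≤ D * 2 * H θ + D * r * G θ :=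
      add_nonneg (mul_nonneg (by positivity) (hH0 θ)) (mul_nonneg (by positivity) (hG0 θ))
    simp only [bad_post h hr.le hr.le]
    by_cases hb : θ ∈ badSet ρ r c
    · have h1 : joint (post ρ r θ) r (fun x θ' => f x ^ 2 * bad (post ρ r θ) r c' θ') ≤ G θ := by
        refine le_trans (integral_mono_of_nonneg (Filter.Eventually.of_forall fun z =>
          mul_nonneg (sq_nonneg _) (bad_nonneg _ _ _ _))
          (integrable_joint hp (Φ := fun x _ => f x ^ 2)
            ((hf.continuous.measurable.comp measurable_fst).pow_const 2)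
            (polyB2_of_point (cp_sq hf).2) hr.le)
          (Filter.Eventually.of_forall fun z =>
            mul_le_of_le_one_right (sq_nonneg _) (bad_le_one _ _ _ _))) ?_
        show ∫ z, f z.1 ^ 2 ∂(law (post ρ r θ)).prod (P166W.gauss (Fin n)) ≤ G θ
        rw [integral_fun_fst (fun x => f x ^ 2)]
        simp [hG, ← integral_post h hr.le θ]
      have hb1 : bad ρ r c θ = 1 := Set.indicator_of_mem hb _
      simp only [hU, hb1, one_mul]
      linarith
    · have hcov : CovLe (post ρ r θ) c := not_not.1 hb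
      have h1 := hS _ _ hp c ε r hc hc4 hcov hε hε1 hr hrT f hf
      have h2 := lsi_tame hp hf
      have eE : energy (law (post ρ r θ)) f = H θ := integral_post h hr.le θ _
      have eG : ∫ x, f x ^ 2 ∂law (post ρ r θ) = G θ := integral_post h hr.le θ _
      rw [eE] at h2
      rw [eG] at h1
      have h3 : r * (2 / (η + r) * H θ) ≤ 2 * H θ := by
        rw [← mul_assoc]
        refine mul_le_mul_of_nonneg_right ?_ (hH0 θ)
        rw [← mul_div_assoc, div_le_iff₀ (by linarith [h.pos])]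
        linarith [h.pos]
      have h4 := mul_le_mul_of_nonneg_left h2 (mul_nonneg hD hr.le)
      have h5 := mul_le_mul_of_nonneg_left h3 hD
      have hb0 : bad ρ r c θ = 0 := Set.indicator_of_notMem hb _
      simp only [hU, hb0, zero_mul, zero_add]
      refine le_trans h1 ?_
      linarith
  have hbm := measurable_bad h hr.le c
  have hbp := polyB_bad (ρ := ρ) r c
  calc badMass ρ f (r + r) c' = Ep ρ r fun θ =>
        joint (post ρ r θ) r fun x θ' => f x ^ 2 * bad ρ (r + r) c' (θ + θ') :=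
        joint_split h hr hr.le (measurable_weight h hf (by linarith) _) (polyB2_weight ρ hf _ _)
    _ ≤ Ep ρ r U := Ep_le_of_sign h hr.le
        (fun θ => integral_nonneg fun z => mul_nonneg (sq_nonneg _) (bad_nonneg _ _ _ _))
        ((hbm.mul hGm).add ((hHm.const_mul _).add (hGm.const_mul _)))
        (polyB_add (polyB_mul hbp hGp)
          (polyB_add (polyB_mul (polyB_const _) hHp) (polyB_mul (polyB_const _) hGp))) hle
    _ = _ := by
        rw [hU, Ep_add_eq h hr.le (F := fun θ => bad ρ r c θ * G θ)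
            (G := fun θ => D * 2 * H θ + D * r * G θ) (hbm.mul hGm)
            ((hHm.const_mul _).add (hGm.const_mul _)) (polyB_mul hbp hGp)
            (polyB_add (polyB_mul (polyB_const _) hHp) (polyB_mul (polyB_const _) hGp)),
          Ep_add_eq h hr.le (F := fun θ => D * 2 * H θ) (G := fun θ => D * r * G θ)
            (hHm.const_mul _) (hGm.const_mul _) (polyB_mul (polyB_const _) hHp)
            (polyB_mul (polyB_const _) hGp),
          Ep_const_mul, Ep_const_mul, Ep_mg_eq h (cp_gradSq hf) hr, Ep_mg_eq h (cp_sq hf) hr,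
          ← badMass_eq h hf hr]
        simp only [energy]
        ring

/-- The mass of `f²` on the states of covariance above `4`, by a chain of dyadic times. -/
theorem badMass_chain (h : Ulc η ρ) (hcov : CovLe ρ 2) {f : (Fin n → ℝ) → ℝ} (hf : Tame f)
    {J : ℕ} {D T R : ℝ} (hD : 0 ≤ D) (hS : StepBound n J D T) {s : ℝ} (hs : 0 < s) (hsT : s ≤ T)
    (hR : ent (law ρ) (fun x => f x ^ 2) + ∫ x, f x ^ 2 ∂law ρ ≤ 2 ^ J * R) :
    badMass ρ f s 4 ≤
      D * (s * R + 2 * J * energy (law ρ) f + s * ∫ x, f x ^ 2 ∂law ρ) := by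
  set E := energy (law ρ) f with hE
  set S := ∫ x, f x ^ 2 ∂law ρ with hSdef
  have hS0 : 0 ≤ S := integral_nonneg fun x => sq_nonneg _
  set r : ℕ → ℝ := fun i => s / 2 ^ J * 2 ^ i with hr
  set c : ℕ → ℝ := fun i => 2 + 2 * (i : ℝ) / (J + 1) with hc
  have hrJ : r J = s := by simp only [hr]; field_simp
  have hrpos : ∀ i, 0 < r i := fun i => by simp only [hr]; positivity
  have hrle : ∀ i ≤ J, r i ≤ s := fun i hi => by
    rw [← hrJ]
    exact mul_le_mul_of_nonneg_left (pow_le_pow_right₀ one_le_two hi) (by positivity)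
  have hstep : ∀ i ≤ J, 0 < c i ∧ ∃ ε : ℝ, 1 / (2 * ((J : ℝ) + 1)) ≤ ε ∧ ε ≤ 1 ∧
      c i * (1 + ε) = c (i + 1) ∧ c (i + 1) ≤ 4 := fun i hi => by
    have hi' : (i : ℝ) ≤ J := by exact_mod_cast hi
    have hc0 : 2 ≤ c i := le_add_of_nonneg_right (by positivity)
    have hJ1 : (0 : ℝ) < J + 1 := by positivity
    have hc1 : c (i + 1) ≤ 4 := by
      simp only [hc]
      rw [← le_sub_iff_add_le', div_le_iff₀ hJ1]
      push_cast
      linarith
    have hci : c i ≤ c (i + 1) := by
      simp only [hc]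
      gcongr
      simp
    refine ⟨by linarith, (c (i + 1) - c i) / c i, ?_, ?_, by field_simp; ring, hc1⟩
    · have e : c (i + 1) - c i = 2 / (J + 1) := by simp only [hc]; push_cast; ring
      rw [e, div_div, div_le_div_iff₀ (by positivity) (by positivity)]
      nlinarith
    · rw [div_le_one (by linarith)]
      linarith
  have main : ∀ i ≤ J, badMass ρ f (r i) (c (i + 1)) ≤
      D * (s * R + 2 * i * E + r i * S) := by
    intro i
    induction i with
    | zero =>
        intro _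
        obtain ⟨-, ε, h1, h2, h3, h4⟩ := hstep 0 (Nat.zero_le _)
        have hc00 : c 0 = 2 := by simp [hc]
        rw [hc00] at h3
        have hh := hS _ _ h 2 ε (r 0) two_pos (h3.trans_le h4) hcov h1 h2 (hrpos 0)
          ((hrle 0 (Nat.zero_le _)).trans hsT) f hf
        rw [h3] at hh
        refine hh.trans ?_
        have h6 : r 0 * (ent (law ρ) (fun x => f x ^ 2) + S) ≤ s * R := by
          refine (mul_le_mul_of_nonneg_left hR (hrpos 0).le).trans (le_of_eq ?_)
          simp only [hr]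
          field_simp
        have h7 := mul_nonneg hD (mul_nonneg (hrpos 0).le hS0)
        have h8 := mul_le_mul_of_nonneg_left h6 hD
        push_cast
        linarith
    | succ i ih =>
        intro hi
        obtain ⟨hc0, ε, h1, h2, h3, h4⟩ := hstep (i + 1) hi
        have h5 := badMass_step h hf hD hS hc0 (h3.trans_le h4) h1 h2 (hrpos i)
          ((hrle i (by omega)).trans hsT)
        rw [h3, show r i + r i = r (i + 1) by simp only [hr, pow_succ]; ring] at h5
        refine h5.trans ?_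
        have := ih (by omega)
        rw [show r (i + 1) = r i + r i by simp only [hr, pow_succ]; ring]
        push_cast
        linarith
  have hcJ : c (J + 1) = 4 := by simp only [hc]; push_cast; field_simp; norm_num
  have := main J le_rfl
  rwa [hrJ, hcJ] at this

/-- The squared covariance of `f` with the coordinates at a posterior of covariance at most `L`. -/
theorem pcov_coord_le (h : Ulc η ρ) {f : (Fin n → ℝ) → ℝ} (hf : Tame f) {s : ℝ} (hs : 0 ≤ s)
    (θ : Fin n → ℝ) {L : ℝ} (hL : 0 ≤ L) (hcov : CovLe (post ρ s θ) L) :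
    ∑ i, pcov ρ f (fun x => x i) s θ ^ 2 ≤ L * mg ρ (fun x => f x ^ 2) s θ := by
  set v : Fin n → ℝ := fun i => pcov ρ f (fun x => x i) s θ with hv
  have hcf : CP f := ⟨hf.continuous, (c1p_tame hf).2.1⟩
  have hp := post_ulc h hs θ
  have hvm : Measurable (dotp v) := (continuous_dotp v).measurable
  have e1 : covc (post ρ s θ) f (dotp v) = nsq v := by
    rw [covc_post h hs θ hcf.1.measurable hvm hcf.2 (polyB_dotp v), pcov_comm]
    show pcov ρ (fun x => ∑ i, v i * x i) f s θ = nsq v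
    rw [pcov_sum h Finset.univ (f := fun i x => x i) CP.coord hcf v hs θ]
    exact Finset.sum_congr rfl fun i _ => by rw [pcov_comm, sq]
  have h1 := covc_sq_le hp hcf.1.measurable hvm hcf.2 (polyB_dotp v)
  rw [e1] at h1
  have e2 : covc (post ρ s θ) f f ≤ mg ρ (fun x => f x ^ 2) s θ := by
    rw [covc_post h hs θ hcf.1.measurable hcf.1.measurable hcf.2 hcf.2, pcov]
    simp only [← sq]
    linarith [sq_nonneg (mg ρ f s θ)]
  have hn := nsq_nonneg v
  have hM : 0 ≤ mg ρ (fun x => f x ^ 2) s θ := mg_nonneg h (fun x => sq_nonneg _) hs θ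
  have h2 : nsq v ^ 2 ≤ mg ρ (fun x => f x ^ 2) s θ * (L * nsq v) :=
    h1.trans (mul_le_mul e2 (hcov v) (covc_self_nonneg _) hM)
  show nsq v ≤ _
  rcases hn.eq_or_lt' with h0 | h0
  · rw [h0]; positivity
  · nlinarith

/-- The speed of the variance of the posterior mean. -/
theorem deriv_le (h : Ulc η ρ) {f : (Fin n → ℝ) → ℝ} (hf : Tame f) {s : ℝ} (hs : 0 < s) :
    ∃ d, HasDerivAt (fun r => Ep ρ r fun θ => mg ρ f r θ * mg ρ f r θ) d s ∧
      d ≤ 4 * ∫ x, f x ^ 2 ∂law ρ + badMass ρ f s 4 / s := by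
  have hcf : CP f := ⟨hf.continuous, (c1p_tame hf).2.1⟩
  have hu := reg_mfield h hcf.1 hcf.2
  set u := mfield ρ f with hudef
  have hd := hasDerivAt_Ep h (reg_mul hu hu) hs
  refine ⟨_, hd, ?_⟩
  set G := fun θ => mg ρ (fun x => f x ^ 2) s θ with hG
  have hGm : Measurable G := measurable_mg_state h (cp_sq hf) s
  have hGp : PolyB G := polyB_mg_state h (cp_sq hf) hs.le
  have hbm := measurable_bad h hs.le (4 : ℝ)
  have hbp := polyB_bad (ρ := ρ) s (4 : ℝ)
  have hgen : ∀ θ, (u.mul u).gen ρ s θ = ∑ i, pcov ρ f (fun x => x i) s θ ^ 2 := fun θ => by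
    rw [gen_mul, gen_mfield h hcf.1 hcf.2 hs.le θ]
    simp [hudef, mfield, sq]
  have hle : ∀ θ, (u.mul u).gen ρ s θ ≤ 4 * G θ + 1 / s * (bad ρ s 4 θ * G θ) := fun θ => by
    have hG0 : 0 ≤ G θ := mg_nonneg h (fun x => sq_nonneg _) hs.le θ
    rw [hgen]
    by_cases hb : θ ∈ badSet ρ s 4
    · have hcov : CovLe (post ρ s θ) (1 / s) := fun v => (covLe_inv (post_ulc h hs.le θ) v).trans
        (mul_le_mul_of_nonneg_right (one_div_le_one_div_of_le hs (by linarith [h.pos]))
          (nsq_nonneg v))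
      refine (pcov_coord_le h hf hs.le θ (by positivity) hcov).trans ?_
      have hb1 : bad ρ s 4 θ = 1 := Set.indicator_of_mem hb _
      simp only [hb1, one_mul]
      linarith
    · refine (pcov_coord_le h hf hs.le θ (by norm_num) (not_not.1 hb)).trans (le_add_of_nonneg_right ?_)
      exact mul_nonneg (by positivity) (mul_nonneg (bad_nonneg _ _ _ _) hG0)
  refine (Ep_le_of_sign h hs.le (fun θ => ?_) ((hGm.const_mul 4).add ((hbm.mul hGm).const_mul _))
    (polyB_add (polyB_mul (polyB_const 4) hGp) (polyB_mul (polyB_const _) (polyB_mul hbp hGp)))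
    hle).trans (le_of_eq ?_)
  · rw [hgen]
    exact Finset.sum_nonneg fun i _ => sq_nonneg _
  change Ep ρ s (fun θ => 4 * G θ + 1 / s * (bad ρ s 4 θ * G θ)) = _
  rw [Ep_add_eq h hs.le (F := fun θ => 4 * G θ) (G := fun θ => 1 / s * (bad ρ s 4 θ * G θ))
    (hGm.const_mul 4) ((hbm.mul hGm).const_mul _) (polyB_mul (polyB_const 4) hGp)
    (polyB_mul (polyB_const _) (polyB_mul hbp hGp)),
    Ep_const_mul, Ep_const_mul, Ep_mg_eq h (cp_sq hf) hs, ← badMass_eq h hf hs]
  ring

/-- The variance is the variance of the posterior mean plus the mean posterior variance. -/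
theorem variance_le (h : Ulc η ρ) {f : (Fin n → ℝ) → ℝ} (hf : Tame f) {T : ℝ} (hT : 0 < T) :
    ∫ x, f x ^ 2 ∂law ρ ≤
      Ep ρ T (fun θ => mg ρ f T θ * mg ρ f T θ) + energy (law ρ) f / T := by
  have hcf : CP f := ⟨hf.continuous, (c1p_tame hf).2.1⟩
  have hm := measurable_mg_state h hcf T
  have hp := polyB_mg_state h hcf hT.le
  have hHm := measurable_mg_state h (cp_gradSq hf) T
  have hHp := polyB_mg_state h (cp_gradSq hf) hT.le
  have hle : ∀ θ, mg ρ (fun x => f x ^ 2) T θ ≤
      mg ρ f T θ * mg ρ f T θ + 1 / T * mg ρ (gradSq f) T θ := fun θ => by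
    have h1 := poincare (post_ulc h hT.le θ) (c1p_tame hf)
    rw [covc_post h hT.le θ hcf.1.measurable hcf.1.measurable hcf.2 hcf.2, energy,
      integral_post h hT.le θ, pcov] at h1
    simp only [← sq] at h1 ⊢
    have h2 : 1 / (η + T) * mg ρ (gradSq f) T θ ≤ 1 / T * mg ρ (gradSq f) T θ :=
      mul_le_mul_of_nonneg_right (one_div_le_one_div_of_le hT (by linarith [h.pos]))
        (mg_nonneg h (fun x => gradSq_nonneg f x) hT.le θ)
    linarith
  rw [← Ep_mg_eq h (cp_sq hf) hT]
  refine (Ep_le_of_sign h hT.le (mg_nonneg h (fun x => sq_nonneg _) hT.le)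
    ((hm.mul hm).add (hHm.const_mul _)) (polyB_add (polyB_mul hp hp)
      (polyB_mul (polyB_const _) hHp)) hle).trans (le_of_eq ?_)
  change Ep ρ T (fun θ => mg ρ f T θ * mg ρ f T θ + 1 / T * mg ρ (gradSq f) T θ) = _
  rw [Ep_add_eq h hT.le (F := fun θ => mg ρ f T θ * mg ρ f T θ)
    (G := fun θ => 1 / T * mg ρ (gradSq f) T θ) (hm.mul hm) (hHm.const_mul _) (polyB_mul hp hp)
    (polyB_mul (polyB_const _) hHp), Ep_const_mul, Ep_mg_eq h (cp_gradSq hf) hT]
  simp only [energy]
  ring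

/-- The growth of the variance of the posterior mean of a centred function. -/
theorem mean_variance_le (h : Ulc η ρ) (hcov : CovLe ρ 2) {f : (Fin n → ℝ) → ℝ} (hf : Tame f)
    (h0 : ∫ x, f x ∂law ρ = 0) {J : ℕ} {D T R : ℝ} (hD : 0 ≤ D) (hS : StepBound n J D T)
    (hT : 0 < T)
    (hR : ent (law ρ) (fun x => f x ^ 2) + ∫ x, f x ^ 2 ∂law ρ ≤ 2 ^ J * R) (hR0 : 0 ≤ R) :
    Ep ρ T (fun θ => mg ρ f T θ * mg ρ f T θ) ≤
      T * (8 * (∫ x, f x ^ 2 ∂law ρ) + 2 * D * R + D * ∫ x, f x ^ 2 ∂law ρ)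
        + 2 * D * (J : ℝ) ^ 2 * energy (law ρ) f := by
  have hcf : CP f := ⟨hf.continuous, (c1p_tame hf).2.1⟩
  set S := ∫ x, f x ^ 2 ∂law ρ with hSdef
  set E := energy (law ρ) f with hE
  have hS0 : 0 ≤ S := integral_nonneg fun x => sq_nonneg _
  have hE0 : 0 ≤ E := integral_nonneg (gradSq_nonneg f)
  set F := fun r => Ep ρ r fun θ => mg ρ f r θ * mg ρ f r θ with hF
  have hFc : ContinuousOn F (Set.Ici 0) := by
    have hu := reg_mfield h hcf.1 hcf.2
    exact continuousOn_Ep h (reg_mul hu hu)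
  have hF0 : F 0 = 0 := by
    simp [hF, Ep_zero h, mg_zero h, h0]
  choose! d hd hdle using fun r (hr : (0 : ℝ) < r) => deriv_le h hf hr
  set a := T / 2 ^ J with ha
  have ha0 : 0 < a := by positivity
  have haT : a ≤ T := div_le_self hT.le (one_le_pow₀ one_le_two)
  -- the short first interval
  have hA : ∀ r, 0 < r → r ≤ T → d r ≤ 4 * S + D * (2 ^ J * R) := fun r hr hrT => by
    refine (hdle r hr).trans (add_le_add_right ?_ _)
    rw [div_le_iff₀ hr]
    have h1 := hS _ _ h 2 1 r two_pos (by norm_num) hcov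
      (by rw [div_le_one (by positivity)]; linarith [J.cast_nonneg (α := ℝ)])
      le_rfl hr hrT f hf
    norm_num at h1
    refine h1.trans ((mul_le_mul_of_nonneg_left hR (mul_nonneg hD hr.le)).trans (le_of_eq ?_))
    ring
  have h1 : F a - F 0 ≤ (4 * S + D * (2 ^ J * R)) * (a - 0) :=
    (convex_Icc 0 a).image_sub_le_mul_sub_of_deriv_le (hFc.mono fun x hx => hx.1)
      (fun r hr => ((hd r (by rw [interior_Icc] at hr; exact hr.1)).differentiableAt
        ).differentiableWithinAt)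
      (fun r hr => by
        rw [interior_Icc] at hr
        rw [(hd r hr.1).deriv]
        exact hA r hr.1 (hr.2.le.trans haT))
      0 (Set.left_mem_Icc.2 ha0.le) a (Set.right_mem_Icc.2 ha0.le) ha0.le
  -- the dyadic range
  set B := 2 * D * J * E with hB
  have hB0 : 0 ≤ B := by positivity
  set A := 4 * S + D * (R + S) with hA'
  have h2 : (F T - B * Real.log T) - (F a - B * Real.log a) ≤ A * (T - a) := by
    refine (convex_Icc a T).image_sub_le_mul_sub_of_deriv_le (f := fun r => F r - B * Real.log r)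
      ((hFc.mono fun x hx => ha0.le.trans hx.1).sub
        (continuousOn_const.mul (Real.continuousOn_log.mono fun x hx => (ha0.trans_le hx.1).ne')))
      (fun r hr => ?_) (fun r hr => ?_) a (Set.left_mem_Icc.2 haT) T (Set.right_mem_Icc.2 haT) haT
    · rw [interior_Icc] at hr
      exact ((hd r (ha0.trans hr.1)).differentiableAt.sub
        ((Real.differentiableAt_log (ha0.trans hr.1).ne').const_mul B)).differentiableWithinAt
    · rw [interior_Icc] at hr
      have hr0 := ha0.trans hr.1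
      rw [((hd r hr0).fun_sub ((Real.hasDerivAt_log hr0.ne').const_mul B)).deriv]
      have h3 := badMass_chain h hcov hf hD hS hr0 hr.2.le hR
      have h4 : badMass ρ f r 4 / r ≤ D * (R + S) + B * r⁻¹ := by
        rw [div_le_iff₀ hr0, add_mul, mul_assoc B, inv_mul_cancel₀ hr0.ne', mul_one]
        refine h3.trans (le_of_eq ?_)
        simp only [hB]
        ring
      have := hdle r hr0
      simp only [hA']
      linarith
  have hlog : Real.log T - Real.log a ≤ J := by
    rw [ha, Real.log_div hT.ne' (by positivity), Real.log_pow]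
    have : Real.log 2 ≤ 1 := (Real.log_le_sub_one_of_pos two_pos).trans (by norm_num)
    nlinarith [J.cast_nonneg (α := ℝ)]
  have h5 := mul_le_mul_of_nonneg_left hlog hB0
  have e1 : a * (2 ^ J * R) = T * R := by rw [ha]; field_simp
  have h6 : a * (4 * S + D * (2 ^ J * R)) ≤ T * (4 * S) + T * (D * R) := by
    rw [mul_add, show a * (D * (2 ^ J * R)) = D * (a * (2 ^ J * R)) by ring, e1,
      show D * (T * R) = T * (D * R) by ring]
    exact add_le_add (mul_le_mul_of_nonneg_right haT (by positivity)) le_rfl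
  have h7 : A * (T - a) ≤ A * T := by
    have : 0 ≤ A * a := mul_nonneg (by positivity) ha0.le
    linarith
  rw [hF0, sub_zero, sub_zero] at h1
  have h8 : B * J = 2 * D * (J : ℝ) ^ 2 * E := by simp only [hB]; ring
  show F T ≤ _
  simp only [hA'] at h2 h7
  linarith

/-! ### The constants -/

theorem stepBound_of {n J : ℕ} {C₁ V D T : ℝ} (hC₁ : 0 < C₁)
    (hguan : ∀ (η : ℝ) (σ : (Fin n → ℝ) → ℝ), Ulc η σ → ∀ c ε s : ℝ, 0 < c → CovLe σ c →
      0 < ε → ε ≤ 1 → 0 < s →
        Ep σ s (bad σ s (c * (1 + ε))) ≤ C₁ * n * Real.exp (-(ε ^ 2 / (C₁ * V * c * s))))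
    (hV : 0 < V) (hD : 32 * C₁ * V * ((J : ℝ) + 1) ^ 2 ≤ D)
    (hT : D * T * ((C₁ + 1) + Real.log ((n : ℝ) + 1)) ≤ 1) : StepBound n J D T := by
  intro η σ hσ c ε δ hc hc4 hcov hε hε1 hδ hδT f hf
  have hJ : (0 : ℝ) < J + 1 := by positivity
  have hε0 : 0 < ε := lt_of_lt_of_le (by positivity) hε
  have hD0 : 0 < D := lt_of_lt_of_le (by positivity) hD
  have hc' : c ≤ 4 := le_trans (le_mul_of_one_le_right hc.le (by linarith)) hc4
  set L := 1 / (D * δ) with hL
  have hLpos : 0 < L := by positivity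
  have hX : 2 * L ≤ ε ^ 2 / (C₁ * V * c * δ) := by
    have h1 : 1 ≤ 4 * ((J : ℝ) + 1) ^ 2 * ε ^ 2 := by
      rw [div_le_iff₀ (by positivity)] at hε
      nlinarith
    have h2 : 2 * (C₁ * V * c) ≤ D * ε ^ 2 := by
      have h3 : C₁ * V * c ≤ C₁ * V * 4 := mul_le_mul_of_nonneg_left hc' (by positivity)
      have h4 := mul_le_mul_of_nonneg_left h1 (by positivity : (0 : ℝ) ≤ 8 * C₁ * V)
      have h5 := mul_le_mul_of_nonneg_right hD (sq_nonneg ε)
      linarith
    rw [hL, mul_one_div, div_le_div_iff₀ (by positivity) (by positivity)]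
    have := mul_le_mul_of_nonneg_right h2 hδ.le
    linarith
  have hlog : C₁ * n ≤ Real.exp L := by
    have hn : (0 : ℝ) < (n : ℝ) + 1 := by positivity
    have h0 : 0 ≤ (C₁ + 1) + Real.log ((n : ℝ) + 1) := by
      have := Real.log_nonneg (show (1 : ℝ) ≤ (n : ℝ) + 1 by linarith [n.cast_nonneg (α := ℝ)])
      linarith
    have h1 : (C₁ + 1) + Real.log ((n : ℝ) + 1) ≤ L := by
      rw [hL, le_div_iff₀ (by positivity)]
      calc ((C₁ + 1) + Real.log ((n : ℝ) + 1)) * (D * δ)
          = D * δ * ((C₁ + 1) + Real.log ((n : ℝ) + 1)) := by ring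
        _ ≤ D * T * ((C₁ + 1) + Real.log ((n : ℝ) + 1)) :=
            mul_le_mul_of_nonneg_right (mul_le_mul_of_nonneg_left hδT hD0.le) h0
        _ ≤ 1 := hT
    refine le_trans ?_ (Real.exp_le_exp.2 h1)
    rw [Real.exp_add, Real.exp_log hn]
    have h2 : C₁ ≤ Real.exp (C₁ + 1) := by linarith [Real.add_one_le_exp (C₁ + 1)]
    exact mul_le_mul h2 (by linarith) n.cast_nonneg (Real.exp_pos _).le
  have hE : Ep σ δ (bad σ δ (c * (1 + ε))) ≤ Real.exp (-L) := by
    refine (hguan η σ hσ c ε δ hc hcov hε0 hε1 hδ).trans ?_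
    calc C₁ * n * Real.exp (-(ε ^ 2 / (C₁ * V * c * δ)))
        ≤ Real.exp L * Real.exp (-(2 * L)) :=
          mul_le_mul hlog (Real.exp_le_exp.2 (neg_le_neg hX)) (Real.exp_pos _).le
            (Real.exp_pos _).le
      _ = Real.exp (-L) := by rw [← Real.exp_add]; ring_nf
  have h := badMass_le_ent hσ hf hδ.le hE
  rw [hL, div_mul_eq_mul_div, one_mul, div_le_iff₀ (by positivity)] at h
  linarith

/-- A subgaussian uniformly log-concave measure has spectral gap at least `(1 + log n)⁻⁵` up to a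
constant, uniformly in the convexity constant. -/
theorem poincare_subG : ∃ C : ℝ, 1 ≤ C ∧ ∀ (n : ℕ) (η : ℝ) (ρ : (Fin n → ℝ) → ℝ), Ulc η ρ →
    center ρ = 0 → SubG ρ → ∀ f, Tame f →
      covc ρ f f ≤ C * (1 + Real.log n) ^ 5 * energy (law ρ) f := by
  obtain ⟨C₁, hC₁, hguan⟩ := guan
  obtain ⟨C₂, hC₂, hq⟩ := qbound
  obtain ⟨C₃, hC₃, hdef⟩ := defective
  set D₀ := 800 * C₁ * C₂ with hD₀
  have hD₀pos : 0 < D₀ := by positivity
  set K₁ := D₀ * (C₁ + 3) + 2 * (8 + 7 * D₀) with hK₁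
  have hK₁pos : 0 < K₁ := by positivity
  refine ⟨2 * (K₁ + 2 * C₃ ^ 2 + 18 * D₀) + 1, by nlinarith [sq_nonneg C₃], ?_⟩
  intro n η ρ h hc hs f hf
  have hℓn : 0 ≤ Real.log (n : ℝ) := Real.log_natCast_nonneg n
  set ℓ := 1 + Real.log n with hℓdef
  have hℓ : 1 ≤ ℓ := le_add_of_nonneg_right hℓn
  have := isProb h
  -- centring
  set g := fun x => f x - ∫ y, f y ∂law ρ with hgdef
  have hg : Tame g := hf.sub_const _
  have hg0 : ∫ x, g x ∂law ρ = 0 := by
    simp only [hgdef]
    rw [integral_sub hf.integrable (integrable_const _)]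
    simp
  have hcv : covc ρ f f = ∫ x, g x ^ 2 ∂law ρ := by simp only [covc, hgdef, sq]
  have hEg : energy (law ρ) g = energy (law ρ) f := by
    simp only [energy, gradSq, pd, hgdef, fderiv_sub_const]
  rw [hcv, ← hEg]
  set S := ∫ x, g x ^ 2 ∂law ρ with hSdef
  set E := energy (law ρ) g with hEdef
  have hS0 : 0 ≤ S := integral_nonneg fun x => sq_nonneg _
  have hE0 : 0 ≤ E := integral_nonneg (gradSq_nonneg g)
  -- the number of dyadic scales
  set J := Nat.log 2 n + 1 with hJdef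
  have hnJ : (n : ℝ) + 1 ≤ 2 ^ J := by
    have := Nat.lt_pow_succ_log_self one_lt_two n
    exact_mod_cast this
  have hJ : (J : ℝ) ≤ 3 * ℓ := by
    simp only [hJdef, Nat.cast_add, Nat.cast_one]
    have h2 : (Nat.log 2 n : ℝ) * Real.log 2 ≤ Real.log n := by
      rcases Nat.eq_zero_or_pos n with rfl | hn
      · simp
      · rw [← Real.log_pow]
        exact Real.log_le_log (by positivity) (by exact_mod_cast Nat.pow_log_le_self 2 hn.ne')
    have h3 : (1 / 2 : ℝ) ≤ Real.log 2 := by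
      have := Real.one_sub_inv_le_log_of_pos two_pos
      linarith
    nlinarith [(Nat.log 2 n).cast_nonneg (α := ℝ)]
  set D := D₀ * ℓ ^ 3 with hDdef
  set T := 1 / (K₁ * ℓ ^ 4) with hTdef
  have hT : 0 < T := by positivity
  have hD0 : 0 ≤ D := by positivity
  have hstep : StepBound n J D T := by
    refine stepBound_of (V := C₂ * ℓ) hC₁ (fun η' σ hσ c ε s hc hcv hε hε1 hs =>
      hguan n η' σ hσ (C₂ * ℓ) c ε s (hq n) (one_le_mul_of_one_le_of_one_le hC₂ hℓ) hc hcv hε hε1
        hs) (by positivity) ?_ ?_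
    · have h1 : ((J : ℝ) + 1) ^ 2 ≤ (5 * ℓ) ^ 2 :=
        pow_le_pow_left₀ (by positivity) (by linarith) 2
      have h2 := mul_le_mul_of_nonneg_left h1 (by positivity : (0 : ℝ) ≤ 32 * C₁ * (C₂ * ℓ))
      refine h2.trans (le_of_eq ?_)
      simp only [hDdef, hD₀]
      ring
    · have h1 : Real.log ((n : ℝ) + 1) ≤ 1 + Real.log n := by
        rcases Nat.eq_zero_or_pos n with rfl | hn
        · simp
        · have hn' : (1 : ℝ) ≤ n := by exact_mod_cast hn
          calc Real.log ((n : ℝ) + 1) ≤ Real.log (2 * n) :=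
                Real.log_le_log (by positivity) (by linarith)
            _ = Real.log 2 + Real.log n := Real.log_mul two_ne_zero (by positivity)
            _ ≤ 1 + Real.log n := by
                linarith [(Real.log_le_sub_one_of_pos (show (0 : ℝ) < 2 by norm_num))]
      have h2 : (C₁ + 1) + Real.log ((n : ℝ) + 1) ≤ (C₁ + 3) * ℓ := by
        have : C₁ + 1 ≤ (C₁ + 1) * ℓ := le_mul_of_one_le_right (by positivity) hℓ
        rw [← hℓdef] at h1
        linarith
      have e : D * T = D₀ / (K₁ * ℓ) := by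
        simp only [hDdef, hTdef]
        field_simp
      refine (mul_le_mul_of_nonneg_left h2 (mul_nonneg hD0 hT.le)).trans ?_
      rw [e, div_mul_eq_mul_div, div_le_one (by positivity)]
      have : D₀ * (C₁ + 3) ≤ K₁ := by
        simp only [hK₁]
        linarith [hD₀pos]
      have := mul_le_mul_of_nonneg_right this (show 0 ≤ ℓ by linarith)
      linarith
  -- the initial entropy
  have hR : ent (law ρ) (fun x => g x ^ 2) + S ≤ 2 ^ J * (C₃ ^ 2 * E + 3 * S) := by
    have h1 := hdef n η ρ h hc hs (1 / C₃) (by positivity) le_rfl g hg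
    have e1 : C₃ / (1 / C₃) = C₃ ^ 2 := by field_simp
    have e2 : C₃ * ((1 / C₃) ^ 2 * n + 1 / C₃) = n / C₃ + 1 := by field_simp
    rw [e1, e2] at h1
    have h2 : (n : ℝ) / C₃ ≤ n := div_le_self n.cast_nonneg hC₃
    have h3 := mul_le_mul_of_nonneg_right h2 hS0
    have h4 : (1 : ℝ) ≤ 2 ^ J := one_le_pow₀ one_le_two
    have h5 := mul_le_mul_of_nonneg_right h4 (mul_nonneg (sq_nonneg C₃) hE0)
    have h6 := mul_le_mul_of_nonneg_right hnJ hS0
    have h7 := mul_le_mul_of_nonneg_right h4 hS0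
    linarith
  have hmv := mean_variance_le h (covLe_of_subG h hc hs) hg hg0 hD0 hstep hT hR (by positivity)
  have hv := variance_le h hg hT
  -- the arithmetic
  have hθ : T * (8 + 7 * D) ≤ 1 / 2 := by
    rw [hTdef, div_mul_eq_mul_div, one_mul, div_le_iff₀ (by positivity)]
    have h1 : 8 + 7 * D ≤ (8 + 7 * D₀) * ℓ ^ 4 := by
      have h34 : ℓ ^ 3 ≤ ℓ ^ 4 := pow_le_pow_right₀ hℓ (by norm_num)
      have h4 : (1 : ℝ) ≤ ℓ ^ 4 := one_le_pow₀ hℓ
      have := mul_le_mul_of_nonneg_left h34 hD₀pos.le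
      simp only [hDdef]
      linarith
    have h2 : 0 ≤ D₀ * (C₁ + 3) * ℓ ^ 4 := by positivity
    simp only [hK₁]
    linarith
  have h1 := mul_le_mul_of_nonneg_right hθ hS0
  have h2 : T * (2 * D * (C₃ ^ 2 * E)) ≤ 2 * C₃ ^ 2 * ℓ ^ 5 * E := by
    have e : T * D ≤ ℓ ^ 5 := by
      refine le_trans ?_ (one_le_pow₀ hℓ)
      have : T * (7 * D) ≤ 1 / 2 := le_trans (mul_le_mul_of_nonneg_left (by linarith) hT.le) hθ
      linarith
    have := mul_le_mul_of_nonneg_right e (by positivity : (0 : ℝ) ≤ 2 * C₃ ^ 2 * E)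
    linarith
  have h3 : 2 * D * (J : ℝ) ^ 2 * E ≤ 18 * D₀ * ℓ ^ 5 * E := by
    have hJ2 := pow_le_pow_left₀ J.cast_nonneg hJ 2
    have := mul_le_mul_of_nonneg_left hJ2 (by positivity : (0 : ℝ) ≤ 2 * D * E)
    simp only [hDdef] at this ⊢
    linarith
  have h4 : E / T ≤ K₁ * ℓ ^ 5 * E := by
    rw [hTdef, div_div_eq_mul_div, div_one]
    have := mul_le_mul_of_nonneg_left (pow_le_pow_right₀ hℓ (show 4 ≤ 5 by norm_num))
      (mul_nonneg hK₁pos.le hE0)
    linarith
  have h5 : 0 ≤ ℓ ^ 5 * E := by positivity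
  linarith

end

end Vale.Agent.P245.General
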