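import Vale.Agent.P245.Tighten
import Vale.Agent.P166W.Ibp

/-!
# P245, general measures: definitions

Uniformly log-concave densities, their Gaussian-channel posteriors and the averages along the
channel.
-/

open MeasureTheory

namespace Vale.Agent.P245.General

noncomputable section

variable {n : ℕ}

/-- The Euclidean pairing. -/
def dotp (x y : Fin n → ℝ) : ℝ := ∑ i, x i * y i

/-- The squared Euclidean norm. -/
def nsq (x : Fin n → ℝ) : ℝ := ∑ i, x i ^ 2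

/-- An `η`-uniformly log-concave probability density. -/
structure Ulc (η : ℝ) (ρ : (Fin n → ℝ) → ℝ) : Prop where
  pos : 0 < η
  meas : Measurable ρ
  nonneg : ∀ x, 0 ≤ ρ x
  mass : ∫⁻ x, ENNReal.ofReal (ρ x) = 1
  conc : ∀ (x y : Fin n → ℝ) (a b : ℝ), 0 < a → 0 < b → a + b = 1 →
    ρ x ^ a * ρ y ^ b * Real.exp (η * a * b / 2 * nsq (x - y)) ≤ ρ (a • x + b • y)

/-- Polynomial growth. -/
def PolyB (f : (Fin n → ℝ) → ℝ) : Prop := ∃ (A : ℝ) (k : ℕ), ∀ x, |f x| ≤ A * (1 + nsq x) ^ k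

/-- Continuously differentiable with polynomial growth of the function and of its gradient. -/
def C1P (f : (Fin n → ℝ) → ℝ) : Prop := ContDiff ℝ 1 f ∧ PolyB f ∧ ∀ i, PolyB (pd i f)

/-- The barycentre. -/
def center (ρ : (Fin n → ℝ) → ℝ) : Fin n → ℝ := fun i => ∫ x, x i ∂law ρ

/-- The covariance of two functions. -/
def covc (ρ : (Fin n → ℝ) → ℝ) (f g : (Fin n → ℝ) → ℝ) : ℝ :=
  ∫ x, (f x - ∫ y, f y ∂law ρ) * (g x - ∫ y, g y ∂law ρ) ∂law ρ

/-- The covariance matrix is at most `c`. -/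
def CovLe (ρ : (Fin n → ℝ) → ℝ) (c : ℝ) : Prop :=
  ∀ u : Fin n → ℝ, covc ρ (dotp u) (dotp u) ≤ c * nsq u

/-- A quadratic form. -/
def qf (M : Matrix (Fin n) (Fin n) ℝ) (z : Fin n → ℝ) : ℝ := ∑ i, ∑ j, M i j * z i * z j

/-- The variance of normalised quadratic forms is at most `V`. -/
def QBound (n : ℕ) (V : ℝ) : Prop :=
  ∀ (η : ℝ) (ρ : (Fin n → ℝ) → ℝ), Ulc η ρ → ∀ c : ℝ, 0 < c → CovLe ρ c →
    ∀ M : Matrix (Fin n) (Fin n) ℝ, M.IsSymm → (∑ i, ∑ j, M i j ^ 2) ≤ 1 →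
      covc ρ (fun x => qf M (x - center ρ)) (fun x => qf M (x - center ρ)) ≤ V * c ^ 2

/-- The weight of the channel at time `s` and state `θ`. -/
def wgt (s : ℝ) (θ x : Fin n → ℝ) : ℝ := Real.exp (dotp θ x - s / 2 * nsq x)

/-- The unnormalised posterior average. -/
def num (ρ : (Fin n → ℝ) → ℝ) (g : (Fin n → ℝ) → ℝ) (s : ℝ) (θ : Fin n → ℝ) : ℝ :=
  ∫ x, g x * wgt s θ x ∂law ρ

/-- The normalisation of the posterior. -/
def part (ρ : (Fin n → ℝ) → ℝ) (s : ℝ) (θ : Fin n → ℝ) : ℝ := num ρ (fun _ => 1) s θ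

/-- The posterior average. -/
def mg (ρ : (Fin n → ℝ) → ℝ) (g : (Fin n → ℝ) → ℝ) (s : ℝ) (θ : Fin n → ℝ) : ℝ :=
  num ρ g s θ / part ρ s θ

/-- The posterior density. -/
def post (ρ : (Fin n → ℝ) → ℝ) (s : ℝ) (θ : Fin n → ℝ) : (Fin n → ℝ) → ℝ :=
  fun x => ρ x * wgt s θ x / part ρ s θ

/-- The posterior barycentre. -/
def bary (ρ : (Fin n → ℝ) → ℝ) (s : ℝ) (θ : Fin n → ℝ) : Fin n → ℝ :=
  fun i => mg ρ (fun x => x i) s θ

/-- The posterior covariance of two functions. -/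
def pcov (ρ : (Fin n → ℝ) → ℝ) (f g : (Fin n → ℝ) → ℝ) (s : ℝ) (θ : Fin n → ℝ) : ℝ :=
  mg ρ (fun x => f x * g x) s θ - mg ρ f s θ * mg ρ g s θ

/-- The posterior covariance matrix. -/
def covMat (ρ : (Fin n → ℝ) → ℝ) (s : ℝ) (θ : Fin n → ℝ) : Matrix (Fin n) (Fin n) ℝ :=
  Matrix.of fun i j => pcov ρ (fun x => x i) (fun x => x j) s θ

/-- The average over the channel state `s X + √s G` jointly with the point `X`. -/
def joint (ρ : (Fin n → ℝ) → ℝ) (s : ℝ) (Φ : (Fin n → ℝ) → (Fin n → ℝ) → ℝ) : ℝ :=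
  ∫ z, Φ z.1 (s • z.1 + Real.sqrt s • z.2) ∂(law ρ).prod (P166W.gauss (Fin n))

/-- The average over the channel state. -/
def Ep (ρ : (Fin n → ℝ) → ℝ) (s : ℝ) (F : (Fin n → ℝ) → ℝ) : ℝ := joint ρ s fun _ θ => F θ

/-- The density of the centred Gaussian law of covariance `T`. -/
def gd (n : ℕ) (T : ℝ) (θ : Fin n → ℝ) : ℝ :=
  (Real.sqrt (2 * Real.pi * T))⁻¹ ^ n * Real.exp (-(nsq θ) / (2 * T))

/-- The states whose posterior covariance exceeds `c`. -/
def badSet (ρ : (Fin n → ℝ) → ℝ) (s c : ℝ) : Set (Fin n → ℝ) :=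
  {θ | ¬ CovLe (post ρ s θ) c}

/-- The indicator of `badSet`. -/
def bad (ρ : (Fin n → ℝ) → ℝ) (s c : ℝ) : (Fin n → ℝ) → ℝ :=
  (badSet ρ s c).indicator fun _ => (1 : ℝ)

/-- A scalar field on time and state, with the derivatives entering the generator. -/
structure Field (n : ℕ) where
  /-- The value. -/
  val : ℝ → (Fin n → ℝ) → ℝ
  /-- The time derivative. -/
  dt : ℝ → (Fin n → ℝ) → ℝ
  /-- The first state derivatives. -/
  dx : Fin n → ℝ → (Fin n → ℝ) → ℝ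
  /-- The pure second state derivatives. -/
  dxx : Fin n → ℝ → (Fin n → ℝ) → ℝ

/-- Polynomial growth in the state, locally uniform in time. -/
def PolyT (F : ℝ → (Fin n → ℝ) → ℝ) : Prop :=
  ∀ S : ℝ, ∃ (A : ℝ) (k : ℕ), ∀ s ∈ Set.Icc 0 S, ∀ θ, |F s θ| ≤ A * (1 + nsq θ) ^ k

/-- The linear map with given time and state components. -/
def dlin (a : ℝ) (b : Fin n → ℝ) : ℝ × (Fin n → ℝ) →L[ℝ] ℝ :=
  a • ContinuousLinearMap.fst ℝ ℝ (Fin n → ℝ) +
    ∑ i, b i • ((ContinuousLinearMap.proj i).comp (ContinuousLinearMap.snd ℝ ℝ (Fin n → ℝ)))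

/-- A regular field. -/
structure Field.Reg (u : Field n) : Prop where
  contVal : ContinuousOn (Function.uncurry u.val) (Set.Ici 0 ×ˢ Set.univ)
  contDt : ContinuousOn (Function.uncurry u.dt) (Set.Ici 0 ×ˢ Set.univ)
  contDx : ∀ i, ContinuousOn (Function.uncurry (u.dx i)) (Set.Ici 0 ×ˢ Set.univ)
  contDxx : ∀ i, ContinuousOn (Function.uncurry (u.dxx i)) (Set.Ici 0 ×ˢ Set.univ)
  polyVal : PolyT u.val
  polyDt : PolyT u.dt
  polyDx : ∀ i, PolyT (u.dx i)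
  polyDxx : ∀ i, PolyT (u.dxx i)
  hasD : ∀ s θ, 0 < s →
    HasFDerivAt (Function.uncurry u.val) (dlin (u.dt s θ) fun i => u.dx i s θ) (s, θ)
  hasDxx : ∀ i s θ, 0 < s →
    HasDerivAt (fun z => u.dx i s (Function.update θ i z)) (u.dxx i s θ) (θ i)

/-- The generator of the channel. -/
def Field.gen (u : Field n) (ρ : (Fin n → ℝ) → ℝ) (s : ℝ) (θ : Fin n → ℝ) : ℝ :=
  u.dt s θ + (∑ i, bary ρ s θ i * u.dx i s θ) + (∑ i, u.dxx i s θ) / 2

/-- The posterior average of `g` as a field. -/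
def mfield (ρ : (Fin n → ℝ) → ℝ) (g : (Fin n → ℝ) → ℝ) : Field n where
  val := mg ρ g
  dt := fun s θ => -(1 / 2) * pcov ρ g nsq s θ
  dx := fun i => pcov ρ g fun x => x i
  dxx := fun i s θ =>
    pcov ρ g (fun x => x i ^ 2) s θ - 2 * bary ρ s θ i * pcov ρ g (fun x => x i) s θ

/-- A constant field. -/
def Field.const (c : ℝ) : Field n := ⟨fun _ _ => c, 0, 0, 0⟩

/-- The sum of two fields. -/
def Field.add (u v : Field n) : Field n := ⟨u.val + v.val, u.dt + v.dt, u.dx + v.dx, u.dxx + v.dxx⟩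

/-- The finite sum of fields. -/
def Field.sum {ι : Type} (S : Finset ι) (u : ι → Field n) : Field n :=
  ⟨∑ j ∈ S, (u j).val, ∑ j ∈ S, (u j).dt, ∑ j ∈ S, (u j).dx, ∑ j ∈ S, (u j).dxx⟩

/-- The product of two fields. -/
def Field.mul (u v : Field n) : Field n where
  val := fun s θ => u.val s θ * v.val s θ
  dt := fun s θ => u.dt s θ * v.val s θ + u.val s θ * v.dt s θ
  dx := fun i s θ => u.dx i s θ * v.val s θ + u.val s θ * v.dx i s θ
  dxx := fun i s θ =>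
    u.dxx i s θ * v.val s θ + 2 * (u.dx i s θ * v.dx i s θ) + u.val s θ * v.dxx i s θ

/-- The composition with a function having first two derivatives `h'`, `h''`. -/
def Field.comp (u : Field n) (h h' h'' : ℝ → ℝ) : Field n where
  val := fun s θ => h (u.val s θ)
  dt := fun s θ => h' (u.val s θ) * u.dt s θ
  dx := fun i s θ => h' (u.val s θ) * u.dx i s θ
  dxx := fun i s θ => h'' (u.val s θ) * u.dx i s θ ^ 2 + h' (u.val s θ) * u.dxx i s θ

end

end Vale.Agent.P245.General
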