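import Vale.Agent.P245.General.Channel

/-!
# P245, general measures: calculus along the channel
-/

open MeasureTheory

namespace Vale.Agent.P245.General

noncomputable section

variable {n : ℕ} {η : ℝ} {ρ : (Fin n → ℝ) → ℝ}

/-! ### Growth and elementary identities -/

theorem one_le_one_add_nsq (x : Fin n → ℝ) : 1 ≤ 1 + nsq x :=
  le_add_of_nonneg_right (Finset.sum_nonneg fun i _ => sq_nonneg (x i))

theorem polyB_coord_sq (i : Fin n) : PolyB fun x : Fin n → ℝ => x i ^ 2 := by
  simpa [pow_two] using polyB_mul (polyB_coord i) (polyB_coord i)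

theorem abs_coord_le (x : Fin n → ℝ) (i : Fin n) : |x i| ≤ 1 + nsq x := by
  have h : x i ^ 2 ≤ nsq x :=
    Finset.single_le_sum (f := fun j => x j ^ 2) (fun j _ => sq_nonneg _) (Finset.mem_univ i)
  nlinarith [sq_abs (x i), sq_nonneg (|x i| - 1)]

theorem polyT_const (c : ℝ) : PolyT fun _ (_ : Fin n → ℝ) => c :=
  fun _ => ⟨|c|, 0, fun _ _ _ => by simp⟩

theorem polyT_add {F G : ℝ → (Fin n → ℝ) → ℝ} (hF : PolyT F) (hG : PolyT G) :
    PolyT fun s θ => F s θ + G s θ := fun S => by
  obtain ⟨A, k, hA⟩ := hF S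
  obtain ⟨B, l, hB⟩ := hG S
  refine ⟨|A| + |B|, k + l, fun s hs θ => ?_⟩
  have h1 := one_le_one_add_nsq θ
  have a1 : |F s θ| ≤ |A| * (1 + nsq θ) ^ (k + l) :=
    (hA s hs θ).trans (mul_le_mul (le_abs_self A) (pow_le_pow_right₀ h1 (by omega))
      (by positivity) (abs_nonneg A))
  have a2 : |G s θ| ≤ |B| * (1 + nsq θ) ^ (k + l) :=
    (hB s hs θ).trans (mul_le_mul (le_abs_self B) (pow_le_pow_right₀ h1 (by omega))
      (by positivity) (abs_nonneg B))
  linarith [abs_add_le (F s θ) (G s θ)]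

theorem polyT_mul {F G : ℝ → (Fin n → ℝ) → ℝ} (hF : PolyT F) (hG : PolyT G) :
    PolyT fun s θ => F s θ * G s θ := fun S => by
  obtain ⟨A, k, hA⟩ := hF S
  obtain ⟨B, l, hB⟩ := hG S
  refine ⟨A * B, k + l, fun s hs θ => ?_⟩
  rw [abs_mul, pow_add, show A * B * ((1 + nsq θ) ^ k * (1 + nsq θ) ^ l)
    = (A * (1 + nsq θ) ^ k) * (B * (1 + nsq θ) ^ l) by ring]
  exact mul_le_mul (hA s hs θ) (hB s hs θ) (abs_nonneg _) ((abs_nonneg _).trans (hA s hs θ))

theorem polyT_sub {F G : ℝ → (Fin n → ℝ) → ℝ} (hF : PolyT F) (hG : PolyT G) :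
    PolyT fun s θ => F s θ - G s θ := by
  simpa [sub_eq_add_neg] using polyT_add hF (polyT_mul (polyT_const (-1)) hG)

theorem polyT_sum {ι : Type*} (S : Finset ι) {F : ι → ℝ → (Fin n → ℝ) → ℝ}
    (hF : ∀ j ∈ S, PolyT (F j)) : PolyT fun s θ => ∑ j ∈ S, F j s θ := by
  classical
  induction S using Finset.induction_on with
  | empty => simpa using polyT_const (n := n) 0
  | insert a S ha ih =>
    simp only [Finset.sum_insert ha]
    exact polyT_add (hF a (Finset.mem_insert_self a S))
      (ih fun j hj => hF j (Finset.mem_insert_of_mem hj))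

theorem dlin_apply (a : ℝ) (b : Fin n → ℝ) (v : ℝ × (Fin n → ℝ)) :
    dlin a b v = a * v.1 + ∑ i, b i * v.2 i := by
  simp [dlin]

theorem dlin_congr {a a' : ℝ} {b b' : Fin n → ℝ} (ha : a = a') (hb : ∀ i, b i = b' i) :
    dlin a b = dlin a' b' := by
  rw [ha, funext hb]

theorem smul_dlin (c a : ℝ) (b : Fin n → ℝ) : c • dlin a b = dlin (c * a) fun i => c * b i :=
  ContinuousLinearMap.ext fun v => by
    simp [dlin_apply, mul_add, Finset.mul_sum, mul_assoc]

theorem dlin_add (a a' : ℝ) (b b' : Fin n → ℝ) :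
    dlin a b + dlin a' b' = dlin (a + a') fun i => b i + b' i :=
  ContinuousLinearMap.ext fun v => by
    simp [dlin_apply, add_mul, Finset.sum_add_distrib]
    ring

/-! ### Posterior averages -/

theorem wgt_dom (h : Ulc η ρ) {g : (Fin n → ℝ) → ℝ} (hg : PolyB g) (R : ℝ) :
    ∃ C, ∀ s θ x, 0 ≤ s → nsq θ ≤ R → |g x * wgt s θ x| ≤ C * Real.exp (η / 16 * nsq x) := by
  obtain ⟨A, k, hA⟩ := hg
  set d := η / 32 with hd
  have hd0 : 0 < d := by have := h.pos; positivity
  refine ⟨|A| * ((k.factorial / d ^ k) * Real.exp d) * Real.exp (R / (4 * d)), fun s θ x hs hR => ?_⟩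
  have hu : 0 ≤ nsq x := Finset.sum_nonneg fun i _ => sq_nonneg (x i)
  have h1 : (1 + nsq x) ^ k ≤ k.factorial / d ^ k * Real.exp d * Real.exp (d * nsq x) := by
    have := Real.pow_div_factorial_le_exp (x := d * (1 + nsq x)) (by positivity) k
    rw [mul_pow, div_le_iff₀ (by positivity), mul_add, mul_one, Real.exp_add] at this
    rw [div_mul_eq_mul_div, div_mul_eq_mul_div, le_div_iff₀ (by positivity)]
    linarith
  have h2 : dotp θ x ≤ d * nsq x + R / (4 * d) := by
    have h3 : dotp θ x ≤ ∑ i, (d * x i ^ 2 + θ i ^ 2 / (4 * d)) := by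
      refine Finset.sum_le_sum fun i _ => ?_
      rw [← sub_nonneg, show d * x i ^ 2 + θ i ^ 2 / (4 * d) - θ i * x i
        = (2 * d * x i - θ i) ^ 2 / (4 * d) by field_simp; ring]
      positivity
    rw [Finset.sum_add_distrib, ← Finset.mul_sum, ← Finset.sum_div] at h3
    exact h3.trans (add_le_add le_rfl (div_le_div_of_nonneg_right hR (by positivity)))
  have h4 : wgt s θ x ≤ Real.exp (d * nsq x) * Real.exp (R / (4 * d)) := by
    rw [← Real.exp_add]
    exact Real.exp_le_exp.2 (by have := mul_nonneg (show 0 ≤ s / 2 by linarith) hu; linarith)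
  rw [abs_mul, abs_of_pos (show 0 < wgt s θ x from Real.exp_pos _)]
  calc |g x| * wgt s θ x ≤ (|A| * (k.factorial / d ^ k * Real.exp d * Real.exp (d * nsq x))) *
        (Real.exp (d * nsq x) * Real.exp (R / (4 * d))) :=
        mul_le_mul ((hA x).trans (mul_le_mul (le_abs_self A) h1 (by positivity) (abs_nonneg A)))
          h4 (Real.exp_pos _).le (by positivity)
    _ = _ := by
        rw [show η / 16 * nsq x = d * nsq x + d * nsq x by rw [hd]; ring, Real.exp_add]
        ring

theorem continuous_wgt_st (x : Fin n → ℝ) :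
    Continuous fun p : ℝ × (Fin n → ℝ) => wgt p.1 p.2 x := by
  unfold wgt dotp
  fun_prop

theorem continuous_wgt_x (s : ℝ) (θ : Fin n → ℝ) : Continuous (wgt s θ) := by
  unfold wgt dotp nsq
  fun_prop

theorem continuousOn_num (h : Ulc η ρ) {g : (Fin n → ℝ) → ℝ} (hg : Continuous g)
    (hg' : PolyB g) :
    ContinuousOn (Function.uncurry (num ρ g)) (Set.Ici 0 ×ˢ Set.univ) := by
  intro p hp
  obtain ⟨C, hC⟩ := wgt_dom h hg' (nsq p.2 + 1)
  refine continuousWithinAt_of_dominated (bound := fun x => C * Real.exp (η / 16 * nsq x))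
    (F := fun (q : ℝ × (Fin n → ℝ)) x => g x * wgt q.1 q.2 x) ?_ ?_
    ((integrable_exp_nsq h).const_mul C) ?_
  · exact Filter.Eventually.of_forall fun q =>
      (hg.mul (continuous_wgt_x q.1 q.2)).aestronglyMeasurable
  · have hev : ∀ᶠ q in nhds p, nsq q.2 < nsq p.2 + 1 :=
      (continuous_nsq.comp continuous_snd).continuousAt.eventually_lt continuousAt_const
        (by simp)
    filter_upwards [nhdsWithin_le_nhds hev, self_mem_nhdsWithin] with q hq hq'
    exact ae_of_all _ fun x => hC q.1 q.2 x hq'.1 hq.le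
  · exact ae_of_all _ fun x => ((continuous_wgt_st x).const_mul (g x)).continuousWithinAt

theorem continuousOn_mg (h : Ulc η ρ) {g : (Fin n → ℝ) → ℝ} (hg : Continuous g)
    (hg' : PolyB g) : ContinuousOn (Function.uncurry (mg ρ g)) (Set.Ici 0 ×ˢ Set.univ) :=
  (continuousOn_num h hg hg').div (continuousOn_num h continuous_const (polyB_const 1))
    fun p hp => (part_pos h hp.1 p.2).ne'

theorem continuousOn_pcov (h : Ulc η ρ) {f g : (Fin n → ℝ) → ℝ} (hf : Continuous f)
    (hg : Continuous g) (hf' : PolyB f) (hg' : PolyB g) :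
    ContinuousOn (Function.uncurry (pcov ρ f g)) (Set.Ici 0 ×ˢ Set.univ) :=
  (continuousOn_mg h (hf.mul hg) (polyB_mul hf' hg')).sub
    ((continuousOn_mg h hf hf').mul (continuousOn_mg h hg hg'))

theorem polyT_pcov (h : Ulc η ρ) {f g : (Fin n → ℝ) → ℝ} (hf : Measurable f)
    (hg : Measurable g) (hf' : PolyB f) (hg' : PolyB g) : PolyT (pcov ρ f g) :=
  polyT_sub (polyT_mg h (hf.mul hg) (polyB_mul hf' hg'))
    (polyT_mul (polyT_mg h hf hf') (polyT_mg h hg hg'))

theorem hasFDerivAt_num (h : Ulc η ρ) {g : (Fin n → ℝ) → ℝ} (hg : Continuous g) (hg' : PolyB g)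
    {s : ℝ} (hs : 0 < s) (θ : Fin n → ℝ) :
    HasFDerivAt (Function.uncurry (num ρ g))
      (dlin (-(1 / 2) * num ρ (fun x => g x * nsq x) s θ)
        fun i => num ρ (fun x => g x * x i) s θ) (s, θ) := by
  obtain ⟨C0, hC0⟩ := wgt_dom h hg' (nsq θ + 1)
  obtain ⟨C1, hC1⟩ := wgt_dom h (polyB_mul hg' polyB_nsq) (nsq θ + 1)
  choose D hD using fun i => wgt_dom h (polyB_mul hg' (polyB_coord i)) (nsq θ + 1)
  set E : (Fin n → ℝ) → ℝ := fun x => Real.exp (η / 16 * nsq x)
  set T := ContinuousLinearMap.fst ℝ ℝ (Fin n → ℝ)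
  set P : Fin n → (ℝ × (Fin n → ℝ) →L[ℝ] ℝ) := fun i =>
    (ContinuousLinearMap.proj i).comp (ContinuousLinearMap.snd ℝ ℝ (Fin n → ℝ))
  set a : ℝ × (Fin n → ℝ) → (Fin n → ℝ) → ℝ := fun p x =>
    -(1 / 2) * (g x * nsq x * wgt p.1 p.2 x)
  set b : Fin n → ℝ × (Fin n → ℝ) → (Fin n → ℝ) → ℝ := fun i p x =>
    g x * x i * wgt p.1 p.2 x
  have hU : {q : ℝ × (Fin n → ℝ) | 0 < q.1 ∧ nsq q.2 < nsq θ + 1} ∈ nhds (s, θ) :=
    ((isOpen_lt continuous_const continuous_fst).inter
      (isOpen_lt (continuous_nsq.comp continuous_snd) continuous_const)).mem_nhds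
      ⟨hs, by simp⟩
  have ca : ∀ p, Continuous (a p) := fun p =>
    continuous_const.mul ((hg.mul continuous_nsq).mul (continuous_wgt_x p.1 p.2))
  have cb : ∀ i p, Continuous (b i p) := fun i p =>
    (hg.mul (continuous_apply i)).mul (continuous_wgt_x p.1 p.2)
  have key := hasFDerivAt_integral_of_dominated_of_fderiv_le (μ := law ρ)
    (F := fun (q : ℝ × (Fin n → ℝ)) x => g x * wgt q.1 q.2 x) (x₀ := (s, θ))
    (F' := fun p x => dlin (a p x) fun i => b i p x)
    (bound := fun x => C1 * E x * ‖T‖ + ∑ i, D i * E x * ‖P i‖) hU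
    (Filter.Eventually.of_forall fun q =>
      (hg.mul (continuous_wgt_x q.1 q.2)).aestronglyMeasurable)
    (((integrable_exp_nsq h).const_mul C0).mono' (hg.mul (continuous_wgt_x s θ)).aestronglyMeasurable
      (ae_of_all _ fun x => hC0 s θ x hs.le (by linarith)))
    (((ca _).smul continuous_const).add
      (continuous_finsetSum _ fun i _ => (cb i _).smul continuous_const)).aestronglyMeasurable
    (ae_of_all _ fun x q hq => by
      refine (norm_add_le _ _).trans (add_le_add ?_ ((norm_sum_le _ _).trans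
        (Finset.sum_le_sum fun i _ => ?_)))
      · rw [norm_smul]
        refine mul_le_mul_of_nonneg_right ?_ (norm_nonneg T)
        have := hC1 q.1 q.2 x hq.1.le hq.2.le
        rw [Real.norm_eq_abs, abs_mul, show |(-(1 / 2) : ℝ)| = 1 / 2 by norm_num]
        show _ ≤ C1 * Real.exp (η / 16 * nsq x)
        linarith [abs_nonneg (g x * nsq x * wgt q.1 q.2 x)]
      · rw [norm_smul]
        exact mul_le_mul_of_nonneg_right (hD i q.1 q.2 x hq.1.le hq.2.le) (norm_nonneg (P i)))
    ((((integrable_exp_nsq h).const_mul C1).mul_const _).add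
      (integrable_finsetSum _ fun i _ => ((integrable_exp_nsq h).const_mul (D i)).mul_const _))
    (ae_of_all _ fun x q _ => by
      have h1 := ((hasFDerivAt_fst (𝕜 := ℝ) (p := q)).mul_const (nsq x / 2))
      have h2 : HasFDerivAt (fun p : ℝ × (Fin n → ℝ) => dotp p.2 x)
          (∑ i, x i • P i) q := by
        refine HasFDerivAt.fun_sum fun i _ => ?_
        exact (P i).hasFDerivAt.mul_const (x i)
      have h3 := ((h2.sub h1).exp).const_mul (g x)
      refine HasFDerivAt.congr_fderiv (h3.congr_of_eventuallyEq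
        (Filter.Eventually.of_forall fun p => by simp [wgt, div_mul_eq_mul_div, mul_div_assoc])) ?_
      refine ContinuousLinearMap.ext fun v => ?_
      simp only [dlin_apply, a, b, P, wgt, smul_apply, sub_apply, sum_apply, Pi.sub_apply,
        smul_eq_mul, ContinuousLinearMap.comp_apply, ContinuousLinearMap.proj_apply,
        ContinuousLinearMap.coe_fst', ContinuousLinearMap.coe_snd', mul_sub, Finset.mul_sum]
      rw [show q.1 * (nsq x / 2) = q.1 / 2 * nsq x by ring, sub_eq_add_neg, add_comm]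
      refine congrArg₂ (· + ·) (by ring) (Finset.sum_congr rfl fun i _ => by ring))
  refine key.congr_fderiv ?_
  have hia : Integrable (fun x => a (s, θ) x • T) (law ρ) :=
    (((integrable_wgt h (hg.mul continuous_nsq).measurable (polyB_mul hg' polyB_nsq) hs.le θ
      ).const_mul _).smul_const T)
  have hib : ∀ i, Integrable (fun x => b i (s, θ) x • P i) (law ρ) := fun i =>
    ((integrable_wgt h (hg.mul (continuous_apply i)).measurable
      (polyB_mul hg' (polyB_coord i)) hs.le θ).smul_const (P i))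
  show ∫ x, (a (s, θ) x • T + ∑ i, b i (s, θ) x • P i) ∂law ρ = _
  rw [integral_add hia (integrable_finsetSum _ fun i _ => hib i),
    integral_finsetSum _ fun i _ => hib i, integral_smul_const]
  simp only [integral_smul_const, a, b, integral_const_mul]
  rfl

theorem hasFDerivAt_mg (h : Ulc η ρ) {g : (Fin n → ℝ) → ℝ} (hg : Continuous g) (hg' : PolyB g)
    {s : ℝ} (hs : 0 < s) (θ : Fin n → ℝ) :
    HasFDerivAt (Function.uncurry (mg ρ g))
      (dlin (-(1 / 2) * pcov ρ g nsq s θ) fun i => pcov ρ g (fun x => x i) s θ) (s, θ) := by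
  have hp := (part_pos h hs.le θ).ne'
  have hN := hasFDerivAt_num h hg hg' hs θ
  have hZ := hasFDerivAt_num h (continuous_const (y := (1 : ℝ))) (polyB_const 1) hs θ
  have key := hN.mul ((hasDerivAt_inv hp).comp_hasFDerivAt (s, θ) hZ)
  refine (key.congr_of_eventuallyEq (Filter.Eventually.of_forall fun p => ?_)).congr_fderiv ?_
  · simp [Function.uncurry, mg, part, div_eq_mul_inv]
  · simp only [Function.comp_apply, Function.uncurry_apply_pair, smul_dlin, dlin_add]
    simp only [pcov, mg, part, one_mul]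
    refine dlin_congr ?_ fun i => ?_ <;> (simp only [part] at hp; field_simp; ring)

theorem hasDerivAt_coord {F : ℝ → (Fin n → ℝ) → ℝ} {a : ℝ} {b : Fin n → ℝ} {s : ℝ}
    {θ : Fin n → ℝ} (hF : HasFDerivAt (Function.uncurry F) (dlin a b) (s, θ)) (i : Fin n) :
    HasDerivAt (fun z => F s (Function.update θ i z)) (b i) (θ i) := by
  have h1 : HasDerivAt (fun z => (s, Function.update θ i z)) ((0 : ℝ), Pi.single i (1 : ℝ))
      (θ i) := (hasDerivAt_const _ _).prodMk (hasDerivAt_update θ i (θ i))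
  have := hF.comp_hasDerivAt_of_eq (θ i) h1 (by simp)
  simpa [dlin_apply, Pi.single_apply, Function.comp_def] using this

theorem reg_mfield (h : Ulc η ρ) {g : (Fin n → ℝ) → ℝ} (hg : Continuous g) (hg' : PolyB g) :
    (mfield ρ g).Reg where
  contVal := continuousOn_mg h hg hg'
  contDt := continuousOn_const.mul (continuousOn_pcov h hg continuous_nsq hg' polyB_nsq)
  contDx i := continuousOn_pcov h hg (continuous_apply i) hg' (polyB_coord i)
  contDxx i := (continuousOn_pcov h hg ((continuous_apply i).pow 2) hg' (polyB_coord_sq i)).sub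
    ((continuousOn_const.mul (continuousOn_mg h (continuous_apply i) (polyB_coord i))).mul
      (continuousOn_pcov h hg (continuous_apply i) hg' (polyB_coord i)))
  polyVal := polyT_mg h hg.measurable hg'
  polyDt := polyT_mul (polyT_const _)
    (polyT_pcov h hg.measurable continuous_nsq.measurable hg' polyB_nsq)
  polyDx i := polyT_pcov h hg.measurable (measurable_pi_apply i) hg' (polyB_coord i)
  polyDxx i := polyT_sub
    (polyT_pcov h hg.measurable ((continuous_apply i).pow 2).measurable hg' (polyB_coord_sq i))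
    (polyT_mul (polyT_mul (polyT_const 2) (polyT_mg h (measurable_pi_apply i) (polyB_coord i)))
      (polyT_pcov h hg.measurable (measurable_pi_apply i) hg' (polyB_coord i)))
  hasD _ θ hs := hasFDerivAt_mg h hg hg' hs θ
  hasDxx i s θ hs := by
    have hgx := hasDerivAt_coord (hasFDerivAt_mg h (g := fun x => g x * x i)
      (hg.mul (continuous_apply i)) (polyB_mul hg' (polyB_coord i)) hs θ) i
    have hg0 := hasDerivAt_coord (hasFDerivAt_mg h hg hg' hs θ) i
    have hx := hasDerivAt_coord (hasFDerivAt_mg h (g := fun x => x i) (continuous_apply i)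
      (polyB_coord i) hs θ) i
    refine (hgx.sub (hg0.mul hx)).congr_deriv ?_
    simp only [mfield, pcov, bary, Function.update_eq_self, pow_two, ← mul_assoc]
    ring

theorem num_sum {ι : Type*} (h : Ulc η ρ) (S : Finset ι) {f : ι → (Fin n → ℝ) → ℝ}
    (hf : ∀ j, Continuous (f j)) (hf' : ∀ j, PolyB (f j)) {s : ℝ} (hs : 0 ≤ s)
    (θ : Fin n → ℝ) : num ρ (fun x => ∑ j ∈ S, f j x) s θ = ∑ j ∈ S, num ρ (f j) s θ := by
  unfold num
  rw [← integral_finsetSum S fun j _ => integrable_wgt h (hf j).measurable (hf' j) hs θ]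
  simp only [Finset.sum_mul]

theorem gen_mfield (h : Ulc η ρ) {g : (Fin n → ℝ) → ℝ} (hg : Continuous g) (hg' : PolyB g)
    {s : ℝ} (hs : 0 ≤ s) (θ : Fin n → ℝ) : (mfield ρ g).gen ρ s θ = 0 := by
  have e1 : mg ρ (fun x => g x * nsq x) s θ = ∑ i, mg ρ (fun x => g x * x i ^ 2) s θ := by
    simp only [mg, nsq, Finset.mul_sum, ← Finset.sum_div]
    rw [num_sum h _ (f := fun i x => g x * x i ^ 2) (fun i => hg.mul ((continuous_apply i).pow 2))
      (fun i => polyB_mul hg' (polyB_coord_sq i)) hs θ]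
  have e2 : mg ρ nsq s θ = ∑ i, mg ρ (fun x : Fin n → ℝ => x i ^ 2) s θ := by
    simp only [mg, ← Finset.sum_div]
    rw [← num_sum h _ (f := fun i (x : Fin n → ℝ) => x i ^ 2) (fun i => (continuous_apply i).pow 2)
      (fun i => polyB_coord_sq i) hs θ]
    rfl
  simp only [Field.gen, mfield, Finset.sum_sub_distrib, mul_assoc, ← Finset.mul_sum]
  simp only [pcov, e1, e2, Finset.sum_sub_distrib, ← Finset.mul_sum]
  ring

theorem reg_const (c : ℝ) : (Field.const c : Field n).Reg where
  contVal := continuousOn_const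
  contDt := continuousOn_const
  contDx _ := continuousOn_const
  contDxx _ := continuousOn_const
  polyVal := polyT_const c
  polyDt := polyT_const 0
  polyDx _ := polyT_const 0
  polyDxx _ := polyT_const 0
  hasD s θ _ := (hasFDerivAt_const c _).congr_fderiv
    (ContinuousLinearMap.ext fun v => by simp [dlin_apply, Field.const])
  hasDxx i _ θ _ := hasDerivAt_const (θ i) _

theorem gen_const (c s : ℝ) (θ : Fin n → ℝ) : (Field.const c).gen ρ s θ = 0 := by
  simp [Field.gen, Field.const]

theorem reg_add {u v : Field n} (hu : u.Reg) (hv : v.Reg) : (u.add v).Reg where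
  contVal := hu.contVal.add hv.contVal
  contDt := hu.contDt.add hv.contDt
  contDx i := (hu.contDx i).add (hv.contDx i)
  contDxx i := (hu.contDxx i).add (hv.contDxx i)
  polyVal := polyT_add hu.polyVal hv.polyVal
  polyDt := polyT_add hu.polyDt hv.polyDt
  polyDx i := polyT_add (hu.polyDx i) (hv.polyDx i)
  polyDxx i := polyT_add (hu.polyDxx i) (hv.polyDxx i)
  hasD s θ hs := ((hu.hasD s θ hs).add (hv.hasD s θ hs)).congr_fderiv (dlin_add _ _ _ _)
  hasDxx i s θ hs := (hu.hasDxx i s θ hs).add (hv.hasDxx i s θ hs)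

theorem gen_add (u v : Field n) (s : ℝ) (θ : Fin n → ℝ) :
    (u.add v).gen ρ s θ = u.gen ρ s θ + v.gen ρ s θ := by
  simp only [Field.gen, Field.add, Pi.add_apply, mul_add, Finset.sum_add_distrib]
  ring

theorem field_sum_empty {ι : Type} (u : ι → Field n) :
    Field.sum ∅ u = Field.const 0 := by
  simp only [Field.sum, Field.const, Finset.sum_empty]
  rfl

theorem field_sum_insert {ι : Type} [DecidableEq ι] {a : ι} {S : Finset ι} (ha : a ∉ S)
    (u : ι → Field n) : Field.sum (insert a S) u = (u a).add (Field.sum S u) := by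
  simp only [Field.sum, Field.add, Finset.sum_insert ha]

theorem reg_sum {ι : Type} {S : Finset ι} {u : ι → Field n} (hu : ∀ j ∈ S, (u j).Reg) :
    (Field.sum S u).Reg := by
  classical
  induction S using Finset.induction_on with
  | empty => exact field_sum_empty u ▸ reg_const 0
  | insert a S ha ih =>
    rw [field_sum_insert ha]
    exact reg_add (hu a (Finset.mem_insert_self a S))
      (ih fun j hj => hu j (Finset.mem_insert_of_mem hj))

theorem gen_sum {ι : Type} (S : Finset ι) (u : ι → Field n) (s : ℝ) (θ : Fin n → ℝ) :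
    (Field.sum S u).gen ρ s θ = ∑ j ∈ S, (u j).gen ρ s θ := by
  classical
  induction S using Finset.induction_on with
  | empty => rw [field_sum_empty, gen_const, Finset.sum_empty]
  | insert a S ha ih => rw [field_sum_insert ha, gen_add, ih, Finset.sum_insert ha]

theorem reg_mul {u v : Field n} (hu : u.Reg) (hv : v.Reg) : (u.mul v).Reg where
  contVal := hu.contVal.mul hv.contVal
  contDt := (hu.contDt.mul hv.contVal).add (hu.contVal.mul hv.contDt)
  contDx i := ((hu.contDx i).mul hv.contVal).add (hu.contVal.mul (hv.contDx i))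
  contDxx i := (((hu.contDxx i).mul hv.contVal).add
    (continuousOn_const.mul ((hu.contDx i).mul (hv.contDx i)))).add
      (hu.contVal.mul (hv.contDxx i))
  polyVal := polyT_mul hu.polyVal hv.polyVal
  polyDt := polyT_add (polyT_mul hu.polyDt hv.polyVal) (polyT_mul hu.polyVal hv.polyDt)
  polyDx i := polyT_add (polyT_mul (hu.polyDx i) hv.polyVal) (polyT_mul hu.polyVal (hv.polyDx i))
  polyDxx i := polyT_add (polyT_add (polyT_mul (hu.polyDxx i) hv.polyVal)
    (polyT_mul (polyT_const 2) (polyT_mul (hu.polyDx i) (hv.polyDx i))))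
    (polyT_mul hu.polyVal (hv.polyDxx i))
  hasD s θ hs := ((hu.hasD s θ hs).mul (hv.hasD s θ hs)).congr_fderiv <| by
    simp only [smul_dlin, dlin_add, Function.uncurry_apply_pair, Field.mul]
    exact dlin_congr (by ring) fun i => by ring
  hasDxx i s θ hs := (((hu.hasDxx i s θ hs).mul (hasDerivAt_coord (hv.hasD s θ hs) i)).add
      ((hasDerivAt_coord (hu.hasD s θ hs) i).mul (hv.hasDxx i s θ hs))).congr_deriv <| by
    simp only [Field.mul, Function.update_eq_self]
    ring

theorem gen_mul (u v : Field n) (s : ℝ) (θ : Fin n → ℝ) :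
    (u.mul v).gen ρ s θ = u.gen ρ s θ * v.val s θ + u.val s θ * v.gen ρ s θ
      + ∑ i, u.dx i s θ * v.dx i s θ := by
  simp only [Field.gen, Field.mul]
  have e1 : ∀ i, bary ρ s θ i * (u.dx i s θ * v.val s θ + u.val s θ * v.dx i s θ)
      = bary ρ s θ i * u.dx i s θ * v.val s θ + u.val s θ * (bary ρ s θ i * v.dx i s θ) :=
    fun i => by ring
  simp only [e1, Finset.sum_add_distrib, ← Finset.sum_mul, ← Finset.mul_sum]
  ring

theorem reg_comp {u : Field n} (hu : u.Reg) {h h' h'' : ℝ → ℝ} {D : Set ℝ}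
    (hD : ∀ s θ, 0 ≤ s → u.val s θ ∈ D) (h1 : ∀ y, HasDerivAt h (h' y) y)
    (h2 : ∀ y, HasDerivAt h' (h'' y) y) (h3 : Continuous h'') {A : ℝ} {k : ℕ}
    (hb : ∀ y ∈ D, |h y| ≤ A * (1 + |y|) ^ k ∧ |h' y| ≤ A * (1 + |y|) ^ k ∧
      |h'' y| ≤ A * (1 + |y|) ^ k) : (u.comp h h' h'').Reg := by
  have c0 : Continuous h := continuous_iff_continuousAt.2 fun y => (h1 y).continuousAt
  have c1 : Continuous h' := continuous_iff_continuousAt.2 fun y => (h2 y).continuousAt
  have k0 : ∀ {w : ℝ → ℝ}, Continuous w →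
      ContinuousOn (Function.uncurry fun s θ => w (u.val s θ)) (Set.Ici 0 ×ˢ Set.univ) :=
    fun hw => hw.comp_continuousOn hu.contVal
  have p0 : ∀ {w : ℝ → ℝ}, (∀ y ∈ D, |w y| ≤ A * (1 + |y|) ^ k) →
      PolyT fun s θ => w (u.val s θ) := fun {w} hw S => by
    obtain ⟨B, m, hB⟩ := hu.polyVal S
    refine ⟨|A| * (1 + |B|) ^ k, m * k, fun s hs θ => (hw _ (hD s θ hs.1)).trans ?_⟩
    rw [pow_mul, mul_assoc, ← mul_pow]
    refine mul_le_mul (le_abs_self A) (pow_le_pow_left₀ (by positivity) ?_ k) (by positivity)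
      (abs_nonneg A)
    have hone : 1 ≤ (1 + nsq θ) ^ m := one_le_pow₀ (one_le_one_add_nsq θ)
    have := (hB s hs θ).trans (mul_le_mul_of_nonneg_right (le_abs_self B) (zero_le_one.trans hone))
    linarith
  have hxx : ∀ i, PolyT fun s θ => h'' (u.val s θ) * u.dx i s θ ^ 2 := fun i => by
    simpa only [← pow_two] using
      polyT_mul (p0 fun y hy => (hb y hy).2.2) (polyT_mul (hu.polyDx i) (hu.polyDx i))
  exact {
    contVal := k0 c0
    contDt := (k0 c1).mul hu.contDt
    contDx := fun i => (k0 c1).mul (hu.contDx i)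
    contDxx := fun i => ((k0 h3).mul ((hu.contDx i).pow 2)).add ((k0 c1).mul (hu.contDxx i))
    polyVal := p0 fun y hy => (hb y hy).1
    polyDt := polyT_mul (p0 fun y hy => (hb y hy).2.1) hu.polyDt
    polyDx := fun i => polyT_mul (p0 fun y hy => (hb y hy).2.1) (hu.polyDx i)
    polyDxx := fun i => polyT_add (hxx i)
      (polyT_mul (p0 fun y hy => (hb y hy).2.1) (hu.polyDxx i))
    hasD := fun s θ hs => ((h1 _).comp_hasFDerivAt (s, θ) (hu.hasD s θ hs)).congr_fderiv
      (smul_dlin _ _ _)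
    hasDxx := fun i s θ hs => by
      have e1 := (h2 _).comp (θ i) (hasDerivAt_coord (hu.hasD s θ hs) i)
      refine (e1.mul (hu.hasDxx i s θ hs)).congr_deriv ?_
      simp [Field.comp]
      ring }

theorem gen_comp (u : Field n) (h h' h'' : ℝ → ℝ) (s : ℝ) (θ : Fin n → ℝ) :
    (u.comp h h' h'').gen ρ s θ = h' (u.val s θ) * u.gen ρ s θ
      + h'' (u.val s θ) / 2 * ∑ i, u.dx i s θ ^ 2 := by
  simp only [Field.gen, Field.comp, Finset.sum_add_distrib, ← Finset.mul_sum,
    mul_left_comm _ (h' (u.val s θ))]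
  ring

/-! ### Slices and averages -/

theorem continuous_slice {F : ℝ → (Fin n → ℝ) → ℝ}
    (hF : ContinuousOn (Function.uncurry F) (Set.Ici 0 ×ˢ Set.univ)) {s : ℝ} (hs : 0 ≤ s) :
    Continuous (F s) :=
  hF.comp_continuous (continuous_const.prodMk continuous_id) fun θ => ⟨hs, Set.mem_univ θ⟩

theorem polyB_slice {F : ℝ → (Fin n → ℝ) → ℝ} (hF : PolyT F) {s : ℝ} (hs : 0 ≤ s) :
    PolyB (F s) := by
  obtain ⟨A, k, hA⟩ := hF s
  exact ⟨A, k, hA s ⟨hs, le_rfl⟩⟩

theorem continuousOn_gen (h : Ulc η ρ) {u : Field n} (hu : u.Reg) :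
    ContinuousOn (Function.uncurry (u.gen ρ)) (Set.Ici 0 ×ˢ Set.univ) :=
  (hu.contDt.add (continuousOn_finsetSum _ fun i _ =>
    (continuousOn_mg h (continuous_apply i) (polyB_coord i)).mul (hu.contDx i))).add
    ((continuousOn_finsetSum _ fun i _ => hu.contDxx i).div_const 2)

theorem polyT_gen (h : Ulc η ρ) {u : Field n} (hu : u.Reg) : PolyT (u.gen ρ) := by
  have h2 := polyT_mul (polyT_sum Finset.univ fun i _ => hu.polyDxx i) (polyT_const (1 / 2))
  simpa [Field.gen, div_eq_mul_inv, Function.comp_def] using! polyT_add (polyT_add hu.polyDt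
    (polyT_sum Finset.univ fun i _ =>
      polyT_mul (polyT_mg h (measurable_pi_apply i) (polyB_coord i)) (hu.polyDx i))) h2

/-- A dominating function on the sample space of the channel. -/
def chanW (k : ℕ) (z : (Fin n → ℝ) × (Fin n → ℝ)) : ℝ := (1 + nsq z.1) ^ k * (1 + nsq z.2) ^ k

theorem chanW_mono {k l : ℕ} (hkl : k ≤ l) (z : (Fin n → ℝ) × (Fin n → ℝ)) :
    chanW k z ≤ chanW l z :=
  mul_le_mul (pow_le_pow_right₀ (one_le_one_add_nsq _) hkl)
    (pow_le_pow_right₀ (one_le_one_add_nsq _) hkl)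
    (pow_nonneg (zero_le_one.trans (one_le_one_add_nsq _)) _)
    (pow_nonneg (zero_le_one.trans (one_le_one_add_nsq _)) _)

theorem coord_mul_chanW_le (k : ℕ) (z : (Fin n → ℝ) × (Fin n → ℝ)) (i : Fin n) :
    |z.1 i| * chanW k z ≤ chanW (k + 1) z ∧ |z.2 i| * chanW k z ≤ chanW (k + 1) z := by
  have h1 := one_le_one_add_nsq z.1
  have h2 := one_le_one_add_nsq z.2
  have e : chanW (k + 1) z = (1 + nsq z.1) * (1 + nsq z.2) * chanW k z := by
    simp only [chanW, pow_succ]
    ring
  have h0 : 0 ≤ chanW k z := mul_nonneg (pow_nonneg (by linarith) k) (pow_nonneg (by linarith) k)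
  rw [e]
  exact ⟨mul_le_mul_of_nonneg_right ((abs_coord_le z.1 i).trans
      (le_mul_of_one_le_right (by linarith) h2)) h0,
    mul_le_mul_of_nonneg_right ((abs_coord_le z.2 i).trans
      (le_mul_of_one_le_left (by linarith) h1)) h0⟩

theorem nsq_comb_le (a b : ℝ) (x y : Fin n → ℝ) :
    nsq (a • x + b • y) ≤ 2 * a ^ 2 * nsq x + 2 * b ^ 2 * nsq y := by
  simp only [nsq, Finset.mul_sum, ← Finset.sum_add_distrib]
  refine Finset.sum_le_sum fun i _ => ?_
  simp only [Pi.add_apply, Pi.smul_apply, smul_eq_mul]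
  nlinarith [sq_nonneg (a * x i - b * y i)]

theorem abs_path_le {F : ℝ → (Fin n → ℝ) → ℝ} (hF : PolyT F) (S : ℝ) :
    ∃ (C : ℝ) (k : ℕ), 0 ≤ C ∧ ∀ r ∈ Set.Icc 0 S, ∀ z : (Fin n → ℝ) × (Fin n → ℝ),
      |F r (r • z.1 + Real.sqrt r • z.2)| ≤ C * chanW k z := by
  obtain ⟨A, k, hA⟩ := hF S
  set B := 1 + 2 * S ^ 2 + 2 * |S| with hB
  refine ⟨|A| * B ^ k, k, by positivity, fun r hr z => (hA r hr _).trans ?_⟩
  have h1 := one_le_one_add_nsq z.1
  have h2 := one_le_one_add_nsq z.2
  rw [chanW, mul_assoc, ← mul_pow, ← mul_pow]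
  refine mul_le_mul (le_abs_self A) (pow_le_pow_left₀ ?_ ?_ k) ?_ (abs_nonneg A)
  · exact zero_le_one.trans (one_le_one_add_nsq _)
  · have h3 := nsq_comb_le r (Real.sqrt r) z.1 z.2
    rw [Real.sq_sqrt hr.1] at h3
    have h4 : r ^ 2 * nsq z.1 ≤ S ^ 2 * ((1 + nsq z.1) * (1 + nsq z.2)) :=
      mul_le_mul (pow_le_pow_left₀ hr.1 hr.2 2) (by nlinarith) (by linarith) (sq_nonneg S)
    have h5 : r * nsq z.2 ≤ |S| * ((1 + nsq z.1) * (1 + nsq z.2)) :=
      mul_le_mul (hr.2.trans (le_abs_self S)) (by nlinarith) (by linarith) (abs_nonneg S)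
    have h6 : 1 ≤ (1 + nsq z.1) * (1 + nsq z.2) := one_le_mul_of_one_le_of_one_le h1 h2
    rw [hB]
    linarith
  · exact pow_nonneg (zero_le_one.trans (one_le_one_add_nsq _)) _

theorem integrable_chanW (h : Ulc η ρ) (k : ℕ) :
    Integrable (chanW k) ((law ρ).prod (P166W.gauss (Fin n))) := by
  have := isProb h
  have hc : Continuous fun x : Fin n → ℝ => (1 + nsq x) ^ k :=
    (continuous_const.add continuous_nsq).pow k
  refine Integrable.mul_prod (integrable_polyB h hc.measurable ⟨1, k, fun x => ?_⟩)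
    (P166W.PolyGrowth.integrable ⟨1, 2 * k, fun x => ?_⟩ hc)
  · rw [abs_of_nonneg (pow_nonneg (zero_le_one.trans (one_le_one_add_nsq x)) k), one_mul]
  · rw [abs_of_nonneg (pow_nonneg (zero_le_one.trans (one_le_one_add_nsq x)) k), one_mul, pow_mul]
    refine pow_le_pow_left₀ (zero_le_one.trans (one_le_one_add_nsq x)) ?_ k
    have h1 := Finset.sum_sq_le_sq_sum_of_nonneg (s := Finset.univ) (f := fun q : Fin n => |x q|)
      fun q _ => abs_nonneg _
    simp only [sq_abs] at h1
    change nsq x ≤ _ at h1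
    nlinarith [Finset.sum_nonneg (s := Finset.univ) fun q _ => abs_nonneg (x q)]

theorem continuous_path {F : ℝ → (Fin n → ℝ) → ℝ}
    (hF : ContinuousOn (Function.uncurry F) (Set.Ici 0 ×ˢ Set.univ)) {r : ℝ} (hr : 0 ≤ r) :
    Continuous fun z : (Fin n → ℝ) × (Fin n → ℝ) => F r (r • z.1 + Real.sqrt r • z.2) :=
  (continuous_slice hF hr).comp
    ((continuous_fst.const_smul r).add (continuous_snd.const_smul (Real.sqrt r)))

theorem continuousOn_Ep (h : Ulc η ρ) {u : Field n} (hu : u.Reg) :
    ContinuousOn (fun s => Ep ρ s (u.val s)) (Set.Ici 0) := by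
  intro s hs
  obtain ⟨C, k, -, hC⟩ := abs_path_le hu.polyVal (s + 1)
  refine continuousWithinAt_of_dominated (bound := fun z => C * chanW k z)
    (F := fun r (z : (Fin n → ℝ) × (Fin n → ℝ)) => u.val r (r • z.1 + Real.sqrt r • z.2))
    ?_ ?_ ((integrable_chanW h k).const_mul C) (ae_of_all _ fun z => ?_)
  · filter_upwards [self_mem_nhdsWithin] with r hr
    exact (continuous_path hu.contVal hr).aestronglyMeasurable
  · filter_upwards [nhdsWithin_le_nhds (Iic_mem_nhds (lt_add_one s)), self_mem_nhdsWithin]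
      with r hr hr'
    exact ae_of_all _ fun z => hC r ⟨hr', hr⟩ z
  · have hp : Continuous fun r : ℝ => (r, r • z.1 + Real.sqrt r • z.2) := by fun_prop
    exact hu.contVal.comp hp.continuousOn (fun r hr => ⟨hr, Set.mem_univ _⟩) s hs

theorem hasDerivAt_path {u : Field n} (hu : u.Reg) {r : ℝ} (hr : 0 < r) (x g : Fin n → ℝ) :
    HasDerivAt (fun q => u.val q (q • x + Real.sqrt q • g))
      (u.dt r (r • x + Real.sqrt r • g) + ∑ i, u.dx i r (r • x + Real.sqrt r • g) *
        (x i + 1 / (2 * Real.sqrt r) * g i)) r := by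
  have h1 : HasDerivAt (fun q : ℝ => (q, q • x + Real.sqrt q • g))
      ((1 : ℝ), (1 : ℝ) • x + (1 / (2 * Real.sqrt r)) • g) r :=
    (hasDerivAt_id r).prodMk
      (((hasDerivAt_id r).smul_const x).add ((Real.hasDerivAt_sqrt hr.ne').smul_const g))
  refine ((hu.hasD r _ hr).comp_hasDerivAt_of_eq r h1 rfl).congr_deriv ?_
  simp [dlin_apply]

theorem hasDerivAt_Ep (h : Ulc η ρ) {u : Field n} (hu : u.Reg) {s : ℝ} (hs : 0 < s) :
    HasDerivAt (fun r => Ep ρ r (u.val r)) (Ep ρ s (u.gen ρ s)) s := by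
  have := isProb h
  set μ := (law ρ).prod (P166W.gauss (Fin n)) with hμ
  set b := 1 / (2 * Real.sqrt s) with hb
  set pth : ℝ → (Fin n → ℝ) × (Fin n → ℝ) → Fin n → ℝ :=
    fun r z => r • z.1 + Real.sqrt r • z.2 with hpth
  obtain ⟨C0, k0, -, hC0⟩ := abs_path_le hu.polyVal (2 * s)
  obtain ⟨Ct, kt, -, hCt⟩ := abs_path_le hu.polyDt (2 * s)
  choose Cx kx hCx0 hCx using fun i => abs_path_le (hu.polyDx i) (2 * s)
  set β := 1 / (2 * Real.sqrt (s / 2)) with hβ
  have hβ0 : 0 ≤ β := by positivity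
  have hnhds : Set.Ioo (s / 2) (2 * s) ∈ nhds s := Ioo_mem_nhds (by linarith) (by linarith)
  have hd := hasDerivAt_integral_of_dominated_loc_of_deriv_le (μ := μ)
    (F := fun r z => u.val r (pth r z)) (x₀ := s) hnhds
    (Filter.eventually_of_mem hnhds fun r hr =>
      (continuous_path hu.contVal (by linarith [hr.1])).aestronglyMeasurable)
    (((integrable_chanW h k0).const_mul C0).mono'
      (continuous_path hu.contVal hs.le).aestronglyMeasurable
      (ae_of_all _ fun z => hC0 s ⟨hs.le, by linarith⟩ z))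
    (F' := fun r z => u.dt r (pth r z)
      + ∑ i, u.dx i r (pth r z) * (z.1 i + 1 / (2 * Real.sqrt r) * z.2 i))
    (((continuous_path hu.contDt hs.le).add (continuous_finsetSum _ fun i _ =>
      (continuous_path (hu.contDx i) hs.le).mul (((continuous_apply i).comp continuous_fst).add
        (continuous_const.mul ((continuous_apply i).comp continuous_snd))))).aestronglyMeasurable)
    (bound := fun z => Ct * chanW kt z + ∑ i, Cx i * (1 + β) * chanW (kx i + 1) z)
    (ae_of_all _ fun z r hr => by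
      have hr' : r ∈ Set.Icc 0 (2 * s) := ⟨by linarith [hr.1], hr.2.le⟩
      refine (abs_add_le _ _).trans (add_le_add (hCt r hr' z)
        ((Finset.abs_sum_le_sum_abs _ _).trans (Finset.sum_le_sum fun i _ => ?_)))
      rw [abs_mul]
      have hx := coord_mul_chanW_le (kx i) z i
      have hsq : 1 / (2 * Real.sqrt r) ≤ β :=
        one_div_le_one_div_of_le (by positivity) (by gcongr; exact hr.1.le)
      have h2 : |z.1 i + 1 / (2 * Real.sqrt r) * z.2 i| ≤ |z.1 i| + β * |z.2 i| := by
        refine (abs_add_le _ _).trans (add_le_add le_rfl ?_)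
        rw [abs_mul, abs_of_nonneg (by positivity : (0 : ℝ) ≤ 1 / (2 * Real.sqrt r))]
        exact mul_le_mul_of_nonneg_right hsq (abs_nonneg _)
      have h3 := mul_le_mul (hCx i r hr' z) h2 (abs_nonneg _)
        (mul_nonneg (hCx0 i) ((abs_nonneg _).trans (le_of_eq (abs_of_nonneg (mul_nonneg
          (pow_nonneg (zero_le_one.trans (one_le_one_add_nsq z.1)) _)
          (pow_nonneg (zero_le_one.trans (one_le_one_add_nsq z.2)) _))))))
      refine h3.trans ?_
      calc Cx i * chanW (kx i) z * (|z.1 i| + β * |z.2 i|)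
          = Cx i * (|z.1 i| * chanW (kx i) z + β * (|z.2 i| * chanW (kx i) z)) := by ring
        _ ≤ Cx i * (chanW (kx i + 1) z + β * chanW (kx i + 1) z) :=
            mul_le_mul_of_nonneg_left
              (add_le_add hx.1 (mul_le_mul_of_nonneg_left hx.2 hβ0)) (hCx0 i)
        _ = Cx i * (1 + β) * chanW (kx i + 1) z := by ring)
    (((integrable_chanW h kt).const_mul Ct).add
      (integrable_finsetSum _ fun i _ => (integrable_chanW h _).const_mul _))
    (ae_of_all _ fun z r hr => hasDerivAt_path hu (by linarith [hr.1]) z.1 z.2)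
  refine hd.2.congr_deriv ?_
  have iD : ∀ {F : ℝ → (Fin n → ℝ) → ℝ},
      ContinuousOn (Function.uncurry F) (Set.Ici 0 ×ˢ Set.univ) → PolyT F →
      Integrable (fun z => F s (pth s z)) μ := fun {F} hF hF' => by
    obtain ⟨C, k, -, hC⟩ := abs_path_le hF' s
    exact ((integrable_chanW h k).const_mul C).mono' (continuous_path hF hs.le).aestronglyMeasurable
      (ae_of_all _ fun z => hC s ⟨hs.le, le_rfl⟩ z)
  have iM : ∀ {F : ℝ → (Fin n → ℝ) → ℝ},
      ContinuousOn (Function.uncurry F) (Set.Ici 0 ×ˢ Set.univ) → PolyT F → ∀ i,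
      Integrable (fun z => F s (pth s z) * z.1 i) μ ∧
      Integrable (fun z => F s (pth s z) * z.2 i) μ := fun {F} hF hF' i => by
    obtain ⟨C, k, hC0', hC⟩ := abs_path_le hF' s
    refine ⟨((integrable_chanW h (k + 1)).const_mul C).mono' ((continuous_path hF hs.le).mul
        ((continuous_apply i).comp continuous_fst)).aestronglyMeasurable (ae_of_all _ fun z => ?_),
      ((integrable_chanW h (k + 1)).const_mul C).mono' ((continuous_path hF hs.le).mul
        ((continuous_apply i).comp continuous_snd)).aestronglyMeasurable (ae_of_all _ fun z => ?_)⟩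
    all_goals
      rw [Real.norm_eq_abs, abs_mul]
      refine (mul_le_mul_of_nonneg_right (hC s ⟨hs.le, le_rfl⟩ z) (abs_nonneg _)).trans ?_
      rw [mul_assoc, mul_comm (chanW k z)]
      apply mul_le_mul_of_nonneg_left _ hC0'
    · exact (coord_mul_chanW_le k z i).1
    · exact (coord_mul_chanW_le k z i).2
  have eX : ∀ i, ∫ z, u.dx i s (pth s z) * z.1 i ∂μ
      = ∫ z, u.dx i s (pth s z) * bary ρ s (pth s z) i ∂μ := fun i => by
    obtain ⟨A, k, hA⟩ := polyB_slice (hu.polyDx i) hs.le
    have hm : Measurable (Function.uncurry fun (x θ : Fin n → ℝ) => u.dx i s θ * x i) :=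
      (((continuous_slice (hu.contDx i) hs.le).comp continuous_snd).mul
        ((continuous_apply i).comp continuous_fst)).measurable
    have hP : PolyB2 fun (x θ : Fin n → ℝ) => u.dx i s θ * x i := by
      refine ⟨|A|, k + 1, fun x θ => ?_⟩
      have h1 := one_le_one_add_nsq θ
      have h2 := one_le_one_add_nsq x
      rw [abs_mul, pow_succ, ← mul_assoc]
      refine mul_le_mul ((hA θ).trans (mul_le_mul (le_abs_self A)
        (pow_le_pow_left₀ (by linarith) (by linarith) k) (by positivity) (abs_nonneg A)))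
        ((abs_coord_le x i).trans (by linarith)) (abs_nonneg _) ?_
      exact mul_nonneg (abs_nonneg A) (pow_nonneg (by linarith) k)
    have hj := joint_mg h hs hm hP
    simp only [joint, Ep] at hj
    refine hj.trans (integral_congr_ae (ae_of_all _ fun z => ?_))
    simp only [mg, num, bary, mul_assoc, integral_const_mul, pth]
    exact mul_div_assoc _ _ _
  have eG : ∀ i, ∫ z, u.dx i s (pth s z) * z.2 i ∂μ
      = Real.sqrt s * ∫ z, u.dxx i s (pth s z) ∂μ := fun i => by
    rw [hμ, integral_prod _ (iM (hu.contDx i) (hu.polyDx i) i).2,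
      integral_prod _ (iD (hu.contDxx i) (hu.polyDxx i)), ← integral_const_mul]
    refine integral_congr_ae (ae_of_all _ fun x => ?_)
    have hpg : ∀ {F : ℝ → (Fin n → ℝ) → ℝ}, PolyT F →
        P166W.PolyGrowth fun g => F s (pth s (x, g)) := fun {F} hF => by
      obtain ⟨C, k, hC0', hC⟩ := abs_path_le hF s
      refine ⟨C * (1 + nsq x) ^ k, 2 * k, fun g => (hC s ⟨hs.le, le_rfl⟩ (x, g)).trans ?_⟩
      rw [chanW, ← mul_assoc, pow_mul]
      refine mul_le_mul_of_nonneg_left ?_
        (mul_nonneg hC0' (pow_nonneg (zero_le_one.trans (one_le_one_add_nsq x)) k))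
      refine pow_le_pow_left₀ (zero_le_one.trans (one_le_one_add_nsq g)) ?_ k
      have h1 := Finset.sum_sq_le_sq_sum_of_nonneg (s := Finset.univ) (f := fun q : Fin n => |g q|)
        fun q _ => abs_nonneg _
      simp only [sq_abs] at h1
      change nsq g ≤ _ at h1
      nlinarith [Finset.sum_nonneg (s := Finset.univ) fun q _ => abs_nonneg (g q)]
    have hc : ∀ {F : ℝ → (Fin n → ℝ) → ℝ},
        ContinuousOn (Function.uncurry F) (Set.Ici 0 ×ˢ Set.univ) →
        Continuous fun g => F s (pth s (x, g)) := fun hF =>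
      (continuous_path hF hs.le).comp (continuous_const.prodMk continuous_id)
    have hib := P166W.gauss_ibp i (F := fun g => u.dx i s (pth s (x, g)))
      (G := fun g => Real.sqrt s * u.dxx i s (pth s (x, g))) (hc (hu.contDx i))
      ((hc (hu.contDxx i)).const_mul _) (fun g => ?_) (hpg (hu.polyDx i)) ?_
    · rw [integral_const_mul] at hib
      dsimp only
      rw [← hib]
      exact integral_congr_ae (ae_of_all _ fun g => mul_comm _ _)
    · have h1 : HasDerivAt (fun q => s * x i + Real.sqrt s * q) (Real.sqrt s) (g i) :=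
        (((hasDerivAt_id (g i)).const_mul (Real.sqrt s)).const_add (s * x i)).congr_deriv
          (mul_one _)
      have h2 := (hu.hasDxx i s (pth s (x, g)) hs).comp_of_eq (g i) h1 (by simp [pth])
      refine (h2.congr_of_eventuallyEq (Filter.Eventually.of_forall fun q => ?_)).congr_deriv
        (mul_comm _ _)
      simp only [Function.comp_def, pth]
      congr 1
      funext j
      rcases eq_or_ne j i with rfl | hj
      · simp
      · simp [hj]
    · obtain ⟨B, m, hB⟩ := hpg (hu.polyDxx i)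
      refine ⟨Real.sqrt s * B, m, fun g => ?_⟩
      rw [abs_mul, abs_of_nonneg (Real.sqrt_nonneg s), mul_assoc]
      exact mul_le_mul_of_nonneg_left (hB g) (Real.sqrt_nonneg s)
  have iT : Integrable (fun z => ∑ i, u.dx i s (pth s z) * z.1 i) μ :=
    integrable_finsetSum _ fun i _ => (iM (hu.contDx i) (hu.polyDx i) i).1
  have iG : Integrable (fun z => b * ∑ i, u.dx i s (pth s z) * z.2 i) μ :=
    (integrable_finsetSum _ fun i _ => (iM (hu.contDx i) (hu.polyDx i) i).2).const_mul b
  have iB : ∀ i, Integrable (fun z => bary ρ s (pth s z) i * u.dx i s (pth s z)) μ := fun i =>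
    iD (F := fun r θ => bary ρ r θ i * u.dx i r θ) ((continuousOn_mg h (continuous_apply i) (polyB_coord i)).mul (hu.contDx i))
      (polyT_mul (polyT_mg h (measurable_pi_apply i) (polyB_coord i)) (hu.polyDx i))
  have iX : Integrable (fun z => (∑ i, u.dxx i s (pth s z)) / 2) μ :=
    (integrable_finsetSum _ fun i _ => iD (hu.contDxx i) (hu.polyDxx i)).div_const 2
  have iB' : Integrable (fun z => ∑ i, bary ρ s (pth s z) i * u.dx i s (pth s z)) μ :=
    integrable_finsetSum _ fun i _ => iB i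
  calc ∫ z, (u.dt s (pth s z) + ∑ i, u.dx i s (pth s z) * (z.1 i + b * z.2 i)) ∂μ
      = ∫ z, (u.dt s (pth s z) + ∑ i, u.dx i s (pth s z) * z.1 i
          + b * ∑ i, u.dx i s (pth s z) * z.2 i) ∂μ := by
        refine integral_congr_ae (ae_of_all _ fun z => ?_)
        simp only [mul_add, Finset.sum_add_distrib, Finset.mul_sum, mul_left_comm b]
        ring
    _ = (∫ z, u.dt s (pth s z) ∂μ) + (∑ i, ∫ z, u.dx i s (pth s z) * z.1 i ∂μ)
          + b * ∑ i, ∫ z, u.dx i s (pth s z) * z.2 i ∂μ := by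
        rw [integral_add ((iD hu.contDt hu.polyDt).fun_add iT) iG,
          integral_add (iD hu.contDt hu.polyDt) iT, integral_const_mul,
          integral_finsetSum _ fun i _ => (iM (hu.contDx i) (hu.polyDx i) i).1,
          integral_finsetSum _ fun i _ => (iM (hu.contDx i) (hu.polyDx i) i).2]
    _ = (∫ z, u.dt s (pth s z) ∂μ)
          + (∫ z, ∑ i, bary ρ s (pth s z) i * u.dx i s (pth s z) ∂μ)
          + ∫ z, (∑ i, u.dxx i s (pth s z)) / 2 ∂μ := by
        rw [integral_div, integral_finsetSum _ (fun i _ => iB i),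
          integral_finsetSum _ fun i _ => iD (hu.contDxx i) (hu.polyDxx i)]
        simp only [eX, eG, ← Finset.mul_sum, mul_comm (bary ρ s _ _)]
        rw [show b * (Real.sqrt s * ∑ i, ∫ z, u.dxx i s (pth s z) ∂μ)
          = (∑ i, ∫ z, u.dxx i s (pth s z) ∂μ) / 2 by
            have := Real.sqrt_pos.2 hs
            rw [hb]; field_simp]
    _ = _ := by
        rw [← integral_add (iD hu.contDt hu.polyDt) iB',
          ← integral_add ((iD hu.contDt hu.polyDt).fun_add iB') iX]
        rfl

theorem contDiff_val {u : Field n} (hu : u.Reg) {s : ℝ} (hs : 0 < s) :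
    C1P (u.val s) ∧ ∀ i θ, pd i (u.val s) θ = u.dx i s θ := by
  set Q : Fin n → ((Fin n → ℝ) →L[ℝ] ℝ) := fun i => ContinuousLinearMap.proj i
  have hf : ∀ θ, HasFDerivAt (u.val s) (∑ i, u.dx i s θ • Q i) θ := fun θ => by
    refine ((hu.hasD s θ hs).comp θ (hasFDerivAt_prodMk_right s θ)).congr_fderiv ?_
    refine ContinuousLinearMap.ext fun v => ?_
    simp [dlin_apply, Q]
  have hpd : ∀ i θ, pd i (u.val s) θ = u.dx i s θ := fun i θ => by
    simp [pd, (hf θ).fderiv, Q, Pi.single_apply]
  refine ⟨⟨contDiff_one_iff_fderiv.2 ⟨fun θ => (hf θ).differentiableAt, ?_⟩,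
    polyB_slice hu.polyVal hs.le, fun i => ?_⟩, hpd⟩
  · rw [funext fun θ => (hf θ).fderiv]
    exact continuous_finsetSum _ fun i _ =>
      (continuous_slice (hu.contDx i) hs.le).smul continuous_const
  · rw [funext (hpd i)]
    exact polyB_slice (hu.polyDx i) hs.le

end

end Vale.Agent.P245.General
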