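import Vale.Agent.P245.General.Moments

/-!
# P245, general measures: consequences of Prékopa-Leindler
-/

open MeasureTheory
open scoped ENNReal

namespace Vale.Agent.P245.General

noncomputable section

variable {n : ℕ} {η : ℝ} {ρ : (Fin n → ℝ) → ℝ}

theorem measurable_sub_dotp (u c : Fin n → ℝ) : Measurable fun x => dotp u (x - c) :=
  ((continuous_dotp u).comp (continuous_id.sub continuous_const)).measurable

theorem dotp_sub (u x y : Fin n → ℝ) : dotp u (x - y) = dotp u x - dotp u y := by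
  simp only [dotp, Pi.sub_apply, mul_sub, Finset.sum_sub_distrib]

theorem integral_dotp_centred (h : Ulc η ρ) (u : Fin n → ℝ) :
    Integrable (fun x => dotp u (x - center ρ)) (law ρ) ∧
      ∫ x, dotp u (x - center ρ) ∂law ρ = 0 := by
  have := isProb h
  have hi := integrable_polyB h (continuous_dotp u).measurable (polyB_dotp u)
  simp only [dotp_sub]
  refine ⟨hi.sub (integrable_const _), ?_⟩
  rw [integral_sub hi (integrable_const _), integral_const, probReal_univ, one_smul, sub_eq_zero]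
  simp only [dotp, center]
  rw [integral_finsetSum _ fun i _ =>
    (integrable_polyB h (measurable_pi_apply i) (polyB_coord i)).const_mul (u i)]
  simp only [integral_const_mul]

theorem exp_integral_le (h : Ulc η ρ) {g : (Fin n → ℝ) → ℝ} (hg : Integrable g (law ρ))
    (he : Integrable (fun x => Real.exp (g x)) (law ρ)) :
    Real.exp (∫ x, g x ∂law ρ) ≤ ∫ x, Real.exp (g x) ∂law ρ := by
  have := isProb h
  set c := ∫ x, g x ∂law ρ with hc
  have hle : ∀ x, Real.exp c + Real.exp c * (g x - c) ≤ Real.exp (g x) := fun x => by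
    have h1 := mul_le_mul_of_nonneg_left (Real.add_one_le_exp (g x - c)) (Real.exp_pos c).le
    rw [← Real.exp_add, add_sub_cancel] at h1
    linarith
  have h1 := integral_mono (f := fun x => Real.exp c + Real.exp c * (g x - c))
    ((integrable_const _).add ((hg.sub (integrable_const c)).const_mul _)) he hle
  rw [integral_add (integrable_const _)
      (show Integrable (fun x => Real.exp c * (g x - c)) (law ρ) from
        (hg.sub (integrable_const c)).const_mul _),
    integral_const_mul, integral_sub hg (integrable_const _), integral_const, integral_const,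
    probReal_univ, one_smul, one_smul, ← hc, sub_self, mul_zero, add_zero] at h1
  exact h1

theorem integrable_linear_mgf (h : Ulc η ρ) (u : Fin n → ℝ) :
    Integrable (fun x => Real.exp (dotp u (x - center ρ))) (law ρ) := by
  have hi := (integrable_wgt h measurable_const (polyB_const (n := n) 1) le_rfl u).div_const
    (Real.exp (dotp u (center ρ)))
  refine hi.congr (Filter.Eventually.of_forall fun x => ?_)
  simp [wgt, dotp_sub, Real.exp_sub]

theorem linear_mgf (h : Ulc η ρ) (u : Fin n → ℝ) :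
    ∫ x, Real.exp (dotp u (x - center ρ)) ∂law ρ ≤ Real.exp (nsq u / η) := by
  have := isProb h
  set c := center ρ
  set A := fun v : Fin n → ℝ => ∫ x, Real.exp (dotp v (x - c)) ∂law ρ
  have hle : ∀ x y : Fin n → ℝ,
      dotp u (x - c) - (dotp u (y - c) + nsq u / η) ≤ η / 4 * nsq (x - y) := fun x y => by
    have h1 := dotp_le u (x - y) (show 0 < η / 4 by linarith [h.pos])
    rw [show nsq u / (4 * (η / 4)) = nsq u / η by ring, dotp_sub] at h1
    rw [dotp_sub, dotp_sub]
    linarith
  have key := maurey h (measurable_sub_dotp u c)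
    ((measurable_sub_dotp u c).add_const (nsq u / η)) hle
  have hneg : ∀ x, Real.exp (-(dotp u (x - c) + nsq u / η))
      = Real.exp (dotp (-u) (x - c)) * Real.exp (-(nsq u / η)) := fun x => by
    rw [← Real.exp_add]
    simp only [dotp, Pi.neg_apply, neg_mul, Finset.sum_neg_distrib, neg_add]
  simp only [hneg] at key
  rw [← ofReal_integral_eq_lintegral_ofReal (integrable_linear_mgf h u)
      (Filter.Eventually.of_forall fun x => (Real.exp_pos _).le),
    ← ofReal_integral_eq_lintegral_ofReal ((integrable_linear_mgf h (-u)).mul_const _)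
      (Filter.Eventually.of_forall fun x => by positivity), integral_mul_const,
    ← ENNReal.ofReal_mul (integral_nonneg fun x => (Real.exp_pos _).le), ENNReal.ofReal_le_one] at key
  have h1 : 1 ≤ A (-u) := by
    obtain ⟨hi, h0⟩ := integral_dotp_centred h (-u)
    have := exp_integral_le h hi (integrable_linear_mgf h (-u))
    rwa [h0, Real.exp_zero] at this
  have hA : 0 ≤ A u := integral_nonneg fun x => (Real.exp_pos _).le
  have h2 : A u * Real.exp (-(nsq u / η)) ≤ 1 := by
    refine le_trans ?_ key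
    rw [← mul_assoc]
    exact mul_le_mul_of_nonneg_right (le_mul_of_one_le_right hA h1) (Real.exp_pos _).le
  rwa [Real.exp_neg, mul_inv_le_iff₀ (Real.exp_pos _), one_mul] at h2

theorem fderiv_eq_sum_pd (f : (Fin n → ℝ) → ℝ) (x v : Fin n → ℝ) :
    fderiv ℝ f x v = ∑ i, pd i f x * v i := by
  conv_lhs => rw [show v = ∑ i, v i • (Pi.single i 1 : Fin n → ℝ) from funext fun j => by
    simp [Finset.sum_apply, Pi.single_apply], map_sum]
  exact Finset.sum_congr rfl fun i _ => by simp [pd, mul_comm]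

theorem mean_value {f : (Fin n → ℝ) → ℝ} (hf : Differentiable ℝ f) (x y : Fin n → ℝ) :
    ∃ z : Fin n → ℝ, dist z x ≤ dist y x ∧ f x - f y ≤ Real.sqrt (gradSq f z) * Real.sqrt (nsq (x - y)) := by
  have hd : ∀ t : ℝ, HasDerivAt (fun t : ℝ => f (y + t • (x - y)))
      (fderiv ℝ f (y + t • (x - y)) (x - y)) t := fun t => by
    have h1 : HasDerivAt (fun t : ℝ => y + t • (x - y)) (x - y) t := by
      simpa using ((hasDerivAt_id t).smul_const (x - y)).const_add y
    exact (hf _).hasFDerivAt.comp_hasDerivAt t h1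
  obtain ⟨t, ht, he⟩ := exists_hasDerivAt_eq_slope (fun t : ℝ => f (y + t • (x - y))) _ zero_lt_one
    (fun t _ => (hd t).continuousAt.continuousWithinAt) fun t _ => hd t
  refine ⟨y + t • (x - y), ?_, ?_⟩
  · rw [dist_eq_norm, dist_eq_norm, show y + t • (x - y) - x = (1 - t) • (y - x) by module,
      norm_smul, Real.norm_eq_abs, abs_of_nonneg (by linarith [ht.2])]
    exact mul_le_of_le_one_left (norm_nonneg _) (by linarith [ht.1])
  · simp only [one_smul, zero_smul, add_zero, add_sub_cancel, sub_zero, div_one] at he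
    rw [← he, fderiv_eq_sum_pd f, gradSq, nsq]
    exact Real.sum_mul_le_sqrt_mul_sqrt _ _ _

theorem exp_int_ge (h : Ulc η ρ) {u : (Fin n → ℝ) → ℝ} (hu : Measurable u) {t : ℝ}
    (ht : ∀ x, |u x| ≤ t) (ht1 : t ≤ 1) :
    1 + (∫ x, u x ∂law ρ) + (∫ x, u x ^ 2 ∂law ρ) / 2 - t ^ 3
      ≤ ∫ x, Real.exp (u x) ∂law ρ := by
  have := isProb h
  have hb : ∀ {g : (Fin n → ℝ) → ℝ} (C : ℝ), Measurable g → (∀ x, |g x| ≤ C) →
      Integrable g (law ρ) := fun C hg hC => integrable_polyB h hg (polyB_of_bounded hC)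
  have i1 : Integrable u (law ρ) := hb t hu ht
  have i2 : Integrable (fun x => u x ^ 2) (law ρ) := hb (t ^ 2) (hu.pow_const 2) fun x => by
    rw [abs_of_nonneg (sq_nonneg _), ← sq_abs]
    exact pow_le_pow_left₀ (abs_nonneg _) (ht x) 2
  have ie : Integrable (fun x => Real.exp (u x)) (law ρ) := hb (Real.exp t) hu.exp fun x => by
    rw [abs_of_pos (Real.exp_pos _)]
    exact Real.exp_le_exp.2 ((le_abs_self _).trans (ht x))
  have i3 : Integrable (fun x => u x + u x ^ 2 / 2) (law ρ) := i1.add (i2.div_const 2)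
  have h1 := integral_mono ((integrable_const (1 - t ^ 3)).add i3) ie fun x => by
    have h3 := pow_le_pow_left₀ (abs_nonneg _) (ht x) 3
    have h4 := (abs_le.1 (Real.exp_bound ((ht x).trans ht1) (n := 3) (by norm_num))).1
    norm_num [Finset.sum_range_succ, Nat.factorial] at h4
    simp only [Pi.add_apply]
    nlinarith [pow_nonneg (abs_nonneg (u x)) 3]
  rw [integral_add' (integrable_const _) i3, integral_add i1 (i2.div_const 2), integral_div,
    integral_const, probReal_univ, one_smul] at h1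
  linarith

theorem second_order {ε Q T C P N : ℝ} (he : 0 < ε) (he1 : ε ≤ 1) (hC : 0 ≤ C) (hεC : ε * C ≤ 1)
    (hQ : 0 ≤ Q) (hP : 1 + (ε ^ 2 * (Q / 2 - T) - ε ^ 3 * C) ≤ P)
    (hN : 1 + (ε ^ 2 * (Q / 2) - ε ^ 3 * C) ≤ N) (hP0 : 0 ≤ P) (hPN : P * N ≤ 1) :
    Q - T ≤ ε * (2 * C + (|Q / 2 - T| + C) * (|Q / 2| + C)) := by
  set X := ε ^ 2 * (Q / 2 - T) - ε ^ 3 * C with hX
  set Y := ε ^ 2 * (Q / 2) - ε ^ 3 * C with hY
  have h32 : ε ^ 3 ≤ ε ^ 2 := pow_le_pow_of_le_one he.le he1 (by norm_num)
  have h21 : ε ^ 2 ≤ ε := pow_le_of_le_one he.le he1 two_ne_zero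
  have hY1 : 0 ≤ 1 + Y := by
    have : ε ^ 3 * C ≤ ε * C := mul_le_mul_of_nonneg_right (h32.trans h21) hC
    have : 0 ≤ ε ^ 2 * (Q / 2) := by positivity
    rw [hY]; linarith
  have hprod : (1 + X) * (1 + Y) ≤ 1 := (mul_le_mul hP hN hY1 hP0).trans hPN
  have aX : |X| ≤ ε ^ 2 * (|Q / 2 - T| + C) := by
    rw [hX]
    refine (abs_sub _ _).trans ?_
    rw [abs_mul, abs_of_nonneg (sq_nonneg ε), abs_of_nonneg (by positivity : 0 ≤ ε ^ 3 * C)]
    linarith [mul_le_mul_of_nonneg_right h32 hC]
  have aY : |Y| ≤ ε * (|Q / 2| + C) := by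
    rw [hY]
    refine (abs_sub _ _).trans ?_
    rw [abs_mul, abs_of_nonneg (sq_nonneg ε), abs_of_nonneg (by positivity : 0 ≤ ε ^ 3 * C)]
    linarith [mul_le_mul_of_nonneg_right h21 (abs_nonneg (Q / 2)),
      mul_le_mul_of_nonneg_right (h32.trans h21) hC]
  have hXY := mul_le_mul aX aY (abs_nonneg _) (by positivity)
  rw [← abs_mul] at hXY
  have h1 := neg_abs_le (X * Y)
  refine le_of_mul_le_mul_left ?_ (pow_pos he 2)
  rw [hX, hY] at hprod hXY h1
  linarith

theorem continuous_pd {f : (Fin n → ℝ) → ℝ} (hf : ContDiff ℝ 1 f) (i : Fin n) :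
    Continuous (pd i f) :=
  (hf.continuous_fderiv one_ne_zero).clm_apply continuous_const

theorem continuous_gradSq {f : (Fin n → ℝ) → ℝ} (hf : ContDiff ℝ 1 f) : Continuous (gradSq f) :=
  continuous_finsetSum _ fun i _ => (continuous_pd hf i).pow 2

theorem gradSq_nonneg (f : (Fin n → ℝ) → ℝ) (x : Fin n → ℝ) : 0 ≤ gradSq f x :=
  Finset.sum_nonneg fun _ _ => sq_nonneg _

theorem small_eps {η δ θ B S C D : ℝ} (hη : 0 < η) (hδ : 0 < δ) (hθ : 0 < θ) (hB : 0 ≤ B)
    (hS : 0 ≤ S) (hC : 0 ≤ C) (hD : 0 ≤ D) :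
    ∃ ε : ℝ, 0 < ε ∧ ε ≤ 1 ∧ ε * (B + S) ≤ 1 ∧
      ε * (2 * B) ≤ η / 4 * δ ^ 2 ∧ ε * C ≤ 1 ∧ ε * D ≤ θ / 2 := by
  obtain ⟨b, hb, hb1, hb2, hb3⟩ : ∃ b : ℝ, 0 < b ∧ b ≤ 1 ∧ b ≤ η / 4 * δ ^ 2 ∧ b ≤ θ / 2 :=
    ⟨min 1 (min (η / 4 * δ ^ 2) (θ / 2)), lt_min one_pos (lt_min (by positivity) (by positivity)),
      min_le_left _ _, (min_le_right _ _).trans (min_le_left _ _),
      (min_le_right _ _).trans (min_le_right _ _)⟩
  obtain ⟨M, hM, hM1, hM2, hM3, hM4, hM5⟩ : ∃ M : ℝ, 0 < M ∧ 1 ≤ M ∧ B + S ≤ M ∧ 2 * B ≤ M ∧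
      C ≤ M ∧ D ≤ M :=
    ⟨1 + (B + S) + 2 * B + C + D, by positivity, by linarith, by linarith, by linarith,
      by linarith, by linarith⟩
  have hk : ∀ z, z ≤ M → b / M * z ≤ b := fun z hz => by
    rw [div_mul_eq_mul_div, div_le_iff₀ hM]
    exact mul_le_mul_of_nonneg_left hz hb.le
  exact ⟨b / M, div_pos hb hM, by simpa using (hk 1 hM1).trans hb1, (hk _ hM2).trans hb1,
    (hk _ hM3).trans hb2, (hk _ hM4).trans hb1, (hk _ hM5).trans hb3⟩

theorem local_cost {f : (Fin n → ℝ) → ℝ} (hd : Differentiable ℝ f) {η e δ ε B : ℝ} (hη : 0 < η)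
    (hepos : 0 < e) (hδ : 0 < δ) (he : 0 < ε)
    (hδ' : ∀ ⦃a b : Fin n → ℝ⦄, dist a b < δ → dist (gradSq f a) (gradSq f b) < e)
    (hB : ∀ x y, f x - f y ≤ 2 * B) (he3 : ε * (2 * B) ≤ η / 4 * δ ^ 2) (x y : Fin n → ℝ) :
    ε * (f x - f y) - ε ^ 2 * ((gradSq f x + e) / η) ≤ η / 4 * nsq (x - y) := by
  have hq : 0 ≤ ε ^ 2 * ((gradSq f x + e) / η) :=
    mul_nonneg (sq_nonneg ε) (div_nonneg (add_nonneg (gradSq_nonneg f x) hepos.le) hη.le)
  rcases lt_or_ge (dist y x) δ with hlt | hge
  · obtain ⟨z, hz, hfz⟩ := mean_value hd x y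
    have h3 := hδ' (hz.trans_lt hlt)
    rw [Real.dist_eq] at h3
    have h4 : gradSq f z ≤ gradSq f x + e := by linarith [le_abs_self (gradSq f z - gradSq f x)]
    set w := Real.sqrt (gradSq f x + e) with hwd
    set r := Real.sqrt (nsq (x - y)) with hrd
    have h5 : f x - f y ≤ w * r :=
      hfz.trans (mul_le_mul_of_nonneg_right (Real.sqrt_le_sqrt h4) (Real.sqrt_nonneg _))
    have hw : w ^ 2 = gradSq f x + e := Real.sq_sqrt (add_nonneg (gradSq_nonneg f x) hepos.le)
    have hr : r ^ 2 = nsq (x - y) := Real.sq_sqrt (nsq_nonneg _)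
    have h6 : 0 ≤ (η * r - 2 * ε * w) ^ 2 / (4 * η) := by positivity
    have h8 : (η * r - 2 * ε * w) ^ 2 / (4 * η)
        = η / 4 * r ^ 2 + ε ^ 2 * (w ^ 2 / η) - ε * (w * r) := by field_simp; ring
    have h7 := mul_le_mul_of_nonneg_left h5 he.le
    rw [h8, hw, hr] at h6
    linarith
  · have h1 : ε * (f x - f y) ≤ ε * (2 * B) := mul_le_mul_of_nonneg_left (hB x y) he.le
    have h2 : δ ^ 2 ≤ nsq (x - y) := by
      refine (pow_le_pow_left₀ hδ.le hge 2).trans ?_
      rw [dist_comm, dist_eq_norm, ← Real.sq_sqrt (nsq_nonneg (x - y))]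
      refine pow_le_pow_left₀ (norm_nonneg _) ((pi_norm_le_iff_of_nonneg (Real.sqrt_nonneg _)).2
        fun i => ?_) 2
      rw [Real.norm_eq_abs, ← Real.sqrt_sq_eq_abs]
      exact Real.sqrt_le_sqrt (Finset.single_le_sum (f := fun j => (x - y) j ^ 2)
        (fun j _ => sq_nonneg _) (Finset.mem_univ i))
    have h3 := mul_le_mul_of_nonneg_left h2 (show 0 ≤ η / 4 by linarith)
    linarith

theorem poincare_compact (h : Ulc η ρ) {f : (Fin n → ℝ) → ℝ} (hf : ContDiff ℝ 1 f)
    (hsupp : HasCompactSupport f) : covc ρ f f ≤ 1 / η * energy (law ρ) f := by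
  have := isProb h
  have hη := h.pos
  have hd : Differentiable ℝ f := hf.differentiable one_ne_zero
  have hgs : HasCompactSupport (gradSq f) :=
    (hsupp.fderiv ℝ).mono' fun x hx => subset_closure fun h0 => hx (by simp [gradSq, pd, h0])
  obtain ⟨B₀, hB₀⟩ := hsupp.exists_bound_of_continuous hf.continuous
  obtain ⟨G, hG⟩ := hgs.exists_bound_of_continuous (continuous_gradSq hf)
  have hG' : ∀ x, gradSq f x ≤ G := fun x => (Real.le_norm_self _).trans (hG x)
  have hG0 : 0 ≤ G := (gradSq_nonneg f 0).trans (hG' 0)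
  have huc := (continuous_gradSq hf).uniformContinuous_of_tendsto_cocompact hgs.is_zero_at_infty
  have hbd : ∀ {g : (Fin n → ℝ) → ℝ} (C : ℝ), Measurable g → (∀ x, |g x| ≤ C) →
      Integrable g (law ρ) := fun C hg hC => integrable_polyB h hg (polyB_of_bounded hC)
  set a := ∫ x, f x ∂law ρ with ha
  set φ := fun x => f x - a
  set B := B₀ + |a|
  have hB : ∀ x, |φ x| ≤ B := fun x =>
    (abs_sub _ _).trans (add_le_add ((Real.norm_eq_abs _).symm.le.trans (hB₀ x)) le_rfl)
  have hB0 : 0 ≤ B := (abs_nonneg _).trans (hB 0)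
  have hφm : Measurable φ := hf.continuous.measurable.sub_const a
  have h0 : ∫ x, φ x ∂law ρ = 0 := by
    rw [integral_sub (hbd B₀ hf.continuous.measurable fun x =>
        (Real.norm_eq_abs _).symm.le.trans (hB₀ x)) (integrable_const _), integral_const,
      probReal_univ, one_smul, sub_self]
  rw [covc, energy, show (fun x => (f x - ∫ y, f y ∂law ρ) * (f x - ∫ y, f y ∂law ρ))
    = fun x => φ x ^ 2 from funext fun x => (sq _).symm]
  refine le_of_forall_pos_le_add fun θ hθ => ?_
  obtain ⟨e, hepos, heθ⟩ : ∃ e, 0 < e ∧ e / η ≤ θ / 2 :=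
    ⟨θ / 2 * η, by positivity, by rw [mul_div_assoc, div_self hη.ne', mul_one]⟩
  obtain ⟨δ, hδ, hδ'⟩ := Metric.uniformContinuous_iff.1 huc e hepos
  set s := fun x => (gradSq f x + e) / η
  have hs0 : ∀ x, 0 ≤ s x := fun x => div_nonneg (add_nonneg (gradSq_nonneg f x) hepos.le) hη.le
  set S := (G + e) / η
  have hsS : ∀ x, s x ≤ S := fun x => div_le_div_of_nonneg_right (by linarith [hG' x]) hη.le
  have hS0 : 0 ≤ S := (hs0 0).trans (hsS 0)
  have hsm : Measurable s := ((continuous_gradSq hf).measurable.add_const e).div_const η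
  have iS : Integrable s (law ρ) :=
    hbd S hsm fun x => by rw [abs_of_nonneg (hs0 x)]; exact hsS x
  have if2 : Integrable (fun x => φ x ^ 2) (law ρ) := hbd (B ^ 2) (hφm.pow_const 2) fun x => by
    rw [abs_of_nonneg (sq_nonneg _), ← sq_abs]
    exact pow_le_pow_left₀ (abs_nonneg _) (hB x) 2
  set Q := ∫ x, φ x ^ 2 ∂law ρ with hQ
  set T := ∫ x, s x ∂law ρ with hT'
  have hQ0 : 0 ≤ Q := integral_nonneg fun x => sq_nonneg _
  have hT : T ≤ 1 / η * (∫ x, gradSq f x ∂law ρ) + θ / 2 := by
    have ig : Integrable (gradSq f) (law ρ) := hbd G (continuous_gradSq hf).measurable fun x => by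
      rw [abs_of_nonneg (gradSq_nonneg f x)]; exact hG' x
    have e1 : T = ((∫ x, gradSq f x ∂law ρ) + e) / η := by
      rw [hT', integral_div, integral_add ig (integrable_const _), integral_const, probReal_univ,
        one_smul]
    rw [e1, add_div, one_div_mul_eq_div]
    linarith
  set C := (B + S) ^ 3 + S * B with hC
  have hC0 : 0 ≤ C := by positivity
  set D := 2 * C + (|Q / 2 - T| + C) * (|Q / 2| + C) with hD
  have hD0 : 0 ≤ D := by positivity
  obtain ⟨ε, he, he1, he2, he3, heC, heD⟩ := small_eps hη hδ hθ hB0 hS0 hC0 hD0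
  set F := fun x => ε * φ x - ε ^ 2 * s x with hF
  have hFb : ∀ x, |F x| ≤ ε * (B + S) ∧ |ε * φ x| ≤ ε * (B + S) := by
    intro x
    have a1 : |ε * φ x| ≤ ε * B := by
      rw [abs_mul, abs_of_pos he]; exact mul_le_mul_of_nonneg_left (hB x) he.le
    have a2 : |ε ^ 2 * s x| ≤ ε * S := by
      rw [abs_of_nonneg (mul_nonneg (sq_nonneg ε) (hs0 x))]
      exact mul_le_mul (pow_le_of_le_one he.le he1 two_ne_zero) (hsS x) (hs0 x) he.le
    exact ⟨(abs_sub _ _).trans (by linarith), by linarith [mul_nonneg he.le hS0]⟩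
  have hle : ∀ x y, F x - ε * φ y ≤ η / 4 * nsq (x - y) := by
    intro x y
    have h1 := local_cost hd hη hepos hδ he hδ' (B := B) (fun x y => by
      have := abs_le.1 (hB x)
      have := abs_le.1 (hB y)
      simp only [φ] at *
      linarith) he3 x y
    simp only [F, φ, s]
    linarith
  have hFm : Measurable F := (hφm.const_mul ε).sub (hsm.const_mul _)
  have ie : ∀ {g : (Fin n → ℝ) → ℝ}, Measurable g → (∀ x, |g x| ≤ ε * (B + S)) →
      Integrable (fun x => Real.exp (g x)) (law ρ) := fun hg hgb =>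
    hbd (Real.exp (ε * (B + S))) hg.exp fun x => by
      rw [abs_of_pos (Real.exp_pos _)]
      exact Real.exp_le_exp.2 ((le_abs_self _).trans (hgb x))
  have hM := maurey h hFm (hφm.const_mul ε) hle
  rw [← ofReal_integral_eq_lintegral_ofReal (ie hFm fun x => (hFb x).1)
      (Filter.Eventually.of_forall fun x => (Real.exp_pos _).le),
    ← ofReal_integral_eq_lintegral_ofReal
      (ie (g := fun x => -(ε * φ x)) (hφm.const_mul ε).neg fun x => by
        rw [abs_neg]; exact (hFb x).2)
      (Filter.Eventually.of_forall fun x => (Real.exp_pos _).le),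
    ← ENNReal.ofReal_mul (integral_nonneg fun x => (Real.exp_pos _).le), ENNReal.ofReal_le_one] at hM
  have eP := exp_int_ge h hFm (fun x => (hFb x).1) he2
  have eN := exp_int_ge h (u := fun x => -(ε * φ x)) (hφm.const_mul ε).neg
    (fun x => by rw [abs_neg]; exact (hFb x).2) he2
  have if1 : Integrable φ (law ρ) := hbd B hφm hB
  have iF2 : Integrable (fun x => F x ^ 2) (law ρ) :=
    hbd ((ε * (B + S)) ^ 2) (hFm.pow_const 2) fun x => by
      rw [abs_of_nonneg (sq_nonneg _), ← sq_abs]
      exact pow_le_pow_left₀ (abs_nonneg _) (hFb x).1 2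
  have m1 : ∫ x, F x ∂law ρ = -(ε ^ 2 * T) := by
    rw [hF, integral_sub (if1.const_mul _) (iS.const_mul _), integral_const_mul, integral_const_mul,
      h0, ← hT', mul_zero, zero_sub]
  have m2 : ε ^ 2 * Q - 2 * ε ^ 3 * (S * B) ≤ ∫ x, F x ^ 2 ∂law ρ := by
    have h1 := integral_mono ((if2.const_mul (ε ^ 2)).sub (integrable_const (2 * ε ^ 3 * (S * B))))
      iF2 fun x => by
        have : φ x * s x ≤ S * B :=
          (le_abs_self _).trans (by
            rw [abs_mul, mul_comm S]
            exact mul_le_mul (hB x) (by rw [abs_of_nonneg (hs0 x)]; exact hsS x) (abs_nonneg _) hB0)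
        have h3 := mul_le_mul_of_nonneg_left this (show 0 ≤ 2 * ε ^ 3 by positivity)
        have h4 : 0 ≤ ε ^ 4 * s x ^ 2 := by positivity
        have e : (ε * φ x - ε ^ 2 * s x) ^ 2 =
            ε ^ 2 * φ x ^ 2 - 2 * ε ^ 3 * (φ x * s x) + ε ^ 4 * s x ^ 2 := by ring
        simp only [Pi.sub_apply, hF, e]
        linarith
    rwa [integral_sub' (if2.const_mul _) (integrable_const _), integral_const_mul, integral_const,
      probReal_univ, one_smul, ← hQ] at h1
  have m3 : ∫ x, -(ε * φ x) ∂law ρ = 0 := by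
    rw [integral_neg, integral_const_mul, h0, mul_zero, neg_zero]
  have m4 : ∫ x, (-(ε * φ x)) ^ 2 ∂law ρ = ε ^ 2 * Q := by
    simp only [neg_sq, mul_pow]
    rw [integral_const_mul, ← hQ]
  have e3 : (ε * (B + S)) ^ 3 = ε ^ 3 * (B + S) ^ 3 := mul_pow _ _ _
  have hSB : 0 ≤ ε ^ 3 * (S * B) := by positivity
  rw [m1, e3] at eP
  rw [m3, m4, e3] at eN
  have := second_order (T := T) (C := C) he he1 hC0 heC hQ0
    (by rw [hC]; linarith) (by rw [hC]; linarith) (integral_nonneg fun x => (Real.exp_pos _).le) hM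
  linarith

theorem polyB_gradSq {f : (Fin n → ℝ) → ℝ} (hf : C1P f) : PolyB (gradSq f) := by
  unfold gradSq
  simp only [sq]
  exact polyB_sum Finset.univ (f := fun i x => pd i f x * pd i f x) fun i _ =>
    polyB_mul (hf.2.2 i) (hf.2.2 i)

theorem poincare (h : Ulc η ρ) {f : (Fin n → ℝ) → ℝ} (hf : C1P f) :
    covc ρ f f ≤ 1 / η * energy (law ρ) f := by
  have := isProb h
  have hη := h.pos
  obtain ⟨M, hM1, hM⟩ := smoothTransition_deriv_bound
  have hfc := hf.1.continuous
  have hfd : Differentiable ℝ f := hf.1.differentiable one_ne_zero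
  set χ := fun (k : ℕ) => cutoff (n := n) ((k : ℝ) + 1)
  have hχ : ∀ k, ContDiff ℝ 1 (χ k) := fun k => (contDiff_cutoff _).of_le one_le_smooth
  set g := fun (k : ℕ) (x : Fin n → ℝ) => χ k x * f x
  have hgd : ∀ k, ContDiff ℝ 1 (g k) := fun k => (hχ k).mul hf.1
  have hpd : ∀ k i x, pd i (g k) x = χ k x * pd i f x + f x * pd i (χ k) x := fun k i x => by
    simp only [pd, g]
    rw [fderiv_fun_mul ((hχ k).differentiable one_ne_zero x) (hfd x)]
    simp
  have hineq : ∀ k, covc ρ (g k) (g k) ≤ 1 / η * energy (law ρ) (g k) := fun k =>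
    poincare_compact h (hgd k) (HasCompactSupport.mul_right (compact_cutoff (by positivity)))
  have hχ1 : ∀ k x, |χ k x| ≤ 1 := fun k x => by
    rw [abs_of_nonneg (cutoff_nonneg _ x)]; exact cutoff_le_one _ x
  have hpg : ∀ k x, gradSq (g k) x ≤ 2 * gradSq f x + 2 * (M ^ 2 * (f x * f x)) := fun k x => by
    have h1 : gradSq (χ k) x ≤ M ^ 2 := by
      refine (gradSq_cutoff_le (by positivity) hM x).trans ?_
      exact pow_le_pow_left₀ (by positivity) (div_le_self (by linarith)
        (by linarith [show (0 : ℝ) ≤ k from k.cast_nonneg])) 2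
    have h2 : ∀ i, pd i (g k) x ^ 2 ≤ 2 * pd i f x ^ 2 + 2 * (f x * f x) * pd i (χ k) x ^ 2 :=
      fun i => by
        rw [hpd]
        have h3 : (χ k x * pd i f x) ^ 2 ≤ pd i f x ^ 2 := by
          rw [mul_pow]
          exact mul_le_of_le_one_left (sq_nonneg _) ((sq_le_one_iff_abs_le_one _).2 (hχ1 k x))
        nlinarith [sq_nonneg (χ k x * pd i f x - f x * pd i (χ k) x)]
    calc gradSq (g k) x ≤ ∑ i, (2 * pd i f x ^ 2 + 2 * (f x * f x) * pd i (χ k) x ^ 2) :=
          Finset.sum_le_sum fun i _ => h2 i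
      _ = 2 * gradSq f x + 2 * (f x * f x) * gradSq (χ k) x := by
          rw [Finset.sum_add_distrib, ← Finset.mul_sum, ← Finset.mul_sum]; rfl
      _ ≤ _ := by nlinarith [mul_self_nonneg (f x)]
  have hev : ∀ x : Fin n → ℝ, ∀ᶠ k : ℕ in Filter.atTop,
      g k x = f x ∧ gradSq (g k) x = gradSq f x := by
    intro x
    filter_upwards [Filter.eventually_ge_atTop ⌈‖x‖⌉₊] with k hk
    have hnhds : ∀ᶠ y in nhds x, χ k y = 1 := by
      have h1 : ‖x‖ < (k : ℝ) + 1 :=
        ((Nat.le_ceil _).trans (by exact_mod_cast hk)).trans_lt (lt_add_one _)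
      filter_upwards [(continuous_norm.tendsto x).eventually_lt_const h1] with y hy
      refine cutoff_eq_one (by positivity) fun i => ?_
      exact (Real.norm_eq_abs _).symm.le.trans ((norm_le_pi_norm y i).trans hy.le)
    have e : (fun y => g k y) =ᶠ[nhds x] f := hnhds.mono fun y hy => by simp [g, hy]
    refine ⟨e.eq_of_nhds, ?_⟩
    simp only [gradSq, pd, e.fderiv_eq]
  have hE : PolyB fun x => 2 * gradSq f x + 2 * (M ^ 2 * (f x * f x)) :=
    polyB_add (polyB_mul (polyB_const _) (polyB_gradSq hf))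
      (polyB_mul (polyB_const _) (polyB_mul (polyB_const _) (polyB_mul hf.2.1 hf.2.1)))
  have l1 : Filter.Tendsto (fun k => ∫ x, g k x ∂law ρ) Filter.atTop (nhds (∫ x, f x ∂law ρ)) :=
    tendsto_integral_of_dominated_convergence (fun x => |f x|)
      (fun k => (hgd k).continuous.aestronglyMeasurable)
      (integrable_polyB h hfc.measurable hf.2.1).abs
      (fun k => Filter.Eventually.of_forall fun x => by
        rw [Real.norm_eq_abs, abs_mul]; exact mul_le_of_le_one_left (abs_nonneg _) (hχ1 k x))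
      (Filter.Eventually.of_forall fun x =>
        tendsto_const_nhds.congr' ((hev x).mono fun k hk => hk.1.symm))
  have l2 : Filter.Tendsto (fun k => ∫ x, g k x * g k x ∂law ρ) Filter.atTop
      (nhds (∫ x, f x * f x ∂law ρ)) :=
    tendsto_integral_of_dominated_convergence (fun x => f x * f x)
      (fun k => ((hgd k).continuous.mul (hgd k).continuous).aestronglyMeasurable)
      (integrable_polyB h (hfc.measurable.mul hfc.measurable) (polyB_mul hf.2.1 hf.2.1))
      (fun k => Filter.Eventually.of_forall fun x => by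
        rw [Real.norm_eq_abs, abs_mul, ← abs_mul_abs_self (f x)]
        have h1 : |g k x| ≤ |f x| := by
          rw [abs_mul]; exact mul_le_of_le_one_left (abs_nonneg _) (hχ1 k x)
        exact mul_le_mul h1 h1 (abs_nonneg _) (abs_nonneg _))
      (Filter.Eventually.of_forall fun x =>
        tendsto_const_nhds.congr' ((hev x).mono fun k hk => by simp only [hk.1]))
  have l3 : Filter.Tendsto (fun k => energy (law ρ) (g k)) Filter.atTop
      (nhds (energy (law ρ) f)) :=
    tendsto_integral_of_dominated_convergence _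
      (fun k => (continuous_gradSq (hgd k)).aestronglyMeasurable)
      (integrable_polyB h (((continuous_gradSq hf.1).measurable.const_mul _).add
        (((hfc.measurable.mul hfc.measurable).const_mul _).const_mul _)) hE)
      (fun k => Filter.Eventually.of_forall fun x => by
        rw [Real.norm_eq_abs, abs_of_nonneg (gradSq_nonneg _ x)]
        exact hpg k x)
      (Filter.Eventually.of_forall fun x =>
        tendsto_const_nhds.congr' ((hev x).mono fun k hk => hk.2.symm))
  rw [covc_eq h hfc.measurable hfc.measurable hf.2.1 hf.2.1]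
  refine le_of_tendsto_of_tendsto' (l2.sub (l1.mul l1)) (l3.const_mul _) fun k => ?_
  have hgp : PolyB (g k) := polyB_mul (polyB_of_bounded (hχ1 k)) hf.2.1
  have := hineq k
  rwa [covc_eq h (hgd k).continuous.measurable (hgd k).continuous.measurable hgp hgp] at this

theorem covLe_inv (h : Ulc η ρ) : CovLe ρ (1 / η) := fun u => by
  have := isProb h
  refine (poincare h (c1p_dotp u)).trans (le_of_eq ?_)
  congr 1
  simp [energy, gradSq, pd_dotp, nsq]

theorem integral_coord_sq_le (h : Ulc η ρ) {c : ℝ} (hc : CovLe ρ c) (i : Fin n) :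
    Integrable (fun x => (x i - center ρ i) ^ 2) (law ρ) ∧
      ∫ x, (x i - center ρ i) ^ 2 ∂law ρ ≤ c := by
  classical
  have hp : PolyB fun x : Fin n → ℝ => x i - center ρ i := by
    simp only [sub_eq_add_neg]; exact polyB_add (polyB_coord i) (polyB_const _)
  have e : ∀ x : Fin n → ℝ, dotp (Pi.single i 1) x = x i := fun x => by
    simp [dotp, Pi.single_apply]
  have h1 := hc (Pi.single i 1)
  simp only [covc, e, nsq, Pi.single_apply, ite_pow, one_pow, ne_eq, OfNat.ofNat_ne_zero,
    not_false_eq_true, zero_pow, Finset.sum_ite_eq', Finset.mem_univ, if_true, mul_one, ← sq] at h1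
  refine ⟨?_, h1⟩
  have := integrable_polyB h
    (g := fun x => (x i - center ρ i) * (x i - center ρ i))
    (((measurable_pi_apply i).sub_const _).mul ((measurable_pi_apply i).sub_const _)) (polyB_mul hp hp)
  simpa [sq] using this

theorem integral_nsq_le (h : Ulc η ρ) {c : ℝ} (hc : CovLe ρ c) :
    Integrable (fun x => nsq (x - center ρ)) (law ρ) ∧
      ∫ x, nsq (x - center ρ) ∂law ρ ≤ n * c := by
  have h1 := fun i => integral_coord_sq_le h hc i
  simp only [nsq, Pi.sub_apply]
  refine ⟨integrable_finsetSum _ fun i _ => (h1 i).1, ?_⟩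
  rw [integral_finsetSum _ fun i _ => (h1 i).1]
  refine (Finset.sum_le_sum fun i _ => (h1 i).2).trans (le_of_eq ?_)
  simp

theorem measurable_nsq_sub (c : Fin n → ℝ) : Measurable fun x => nsq (x - c) :=
  (continuous_nsq.comp (continuous_id.sub continuous_const)).measurable

theorem integrable_exp_centred (h : Ulc η ρ) :
    Integrable (fun x => Real.exp (η / 16 * nsq (x - center ρ))) (law ρ) ∧
      ∫ x, Real.exp (η / 16 * nsq (x - center ρ)) ∂law ρ ≤ 2 ^ n := by
  have := isProb h
  have hη := h.pos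
  set c := center ρ
  have hle : ∀ x y : Fin n → ℝ,
      η / 16 * nsq (x - c) - η / 4 * nsq (y - c) ≤ η / 4 * nsq (x - y) := fun x y => by
    have h1 : nsq (x - c) ≤ 2 * nsq (x - y) + 2 * nsq (y - c) := by
      simp only [nsq, Pi.sub_apply, Finset.mul_sum, ← Finset.sum_add_distrib]
      exact Finset.sum_le_sum fun i _ => by nlinarith [sq_nonneg (x i - 2 * y i + c i)]
    have h2 := mul_le_mul_of_nonneg_left h1 (show 0 ≤ η / 16 by linarith)
    nlinarith [mul_nonneg hη.le (nsq_nonneg (x - y)), mul_nonneg hη.le (nsq_nonneg (y - c))]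
  have hm := measurable_nsq_sub c
  have key := maurey h (hm.const_mul (η / 16)) (hm.const_mul (η / 4)) hle
  obtain ⟨i2, hi2⟩ := integral_nsq_le h (covLe_inv h)
  have ie : Integrable (fun x => Real.exp (-(η / 4 * nsq (x - c)))) (law ρ) :=
    integrable_polyB h (hm.const_mul (η / 4)).neg.exp (polyB_of_bounded (C := 1) fun x => by
      rw [abs_of_pos (Real.exp_pos _), Real.exp_le_one_iff]
      nlinarith [nsq_nonneg (x - c)])
  have hlow : Real.exp (-(n / 4 : ℝ)) ≤ ∫ x, Real.exp (-(η / 4 * nsq (x - c))) ∂law ρ := by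
    refine le_trans (Real.exp_le_exp.2 ?_) (exp_integral_le h (i2.const_mul (η / 4)).neg ie)
    rw [integral_neg, integral_const_mul, neg_le_neg_iff]
    refine (mul_le_mul_of_nonneg_left hi2 (by linarith)).trans (le_of_eq ?_)
    field_simp
  rw [← ofReal_integral_eq_lintegral_ofReal ie
    (Filter.Eventually.of_forall fun x => (Real.exp_pos _).le)] at key
  have hfin : ∫⁻ x, ENNReal.ofReal (Real.exp (η / 16 * nsq (x - c))) ∂law ρ ≠ ⊤ := fun htop => by
    rw [htop, ENNReal.top_mul (by
      rw [ne_eq, ENNReal.ofReal_eq_zero, not_le]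
      exact (Real.exp_pos _).trans_le hlow)] at key
    simp at key
  have iF := (lintegral_ofReal_ne_top_iff_integrable (hm.const_mul (η / 16)).exp.aestronglyMeasurable
    (Filter.Eventually.of_forall fun x => (Real.exp_pos _).le)).1 hfin
  refine ⟨iF, ?_⟩
  rw [← ofReal_integral_eq_lintegral_ofReal iF
      (Filter.Eventually.of_forall fun x => (Real.exp_pos _).le),
    ← ENNReal.ofReal_mul (integral_nonneg fun x => (Real.exp_pos _).le),
    ENNReal.ofReal_le_one] at key
  have h3 := (mul_le_mul_of_nonneg_left hlow (integral_nonneg fun x => (Real.exp_pos _).le)).trans key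
  rw [Real.exp_neg, mul_inv_le_iff₀ (Real.exp_pos _), one_mul] at h3
  refine h3.trans ?_
  rw [show (2 : ℝ) ^ n = Real.exp (n * Real.log 2) by
    rw [Real.exp_nat_mul, Real.exp_log two_pos]]
  exact Real.exp_le_exp.2 (by nlinarith [Real.log_two_gt_d9, (Nat.cast_nonneg n : (0 : ℝ) ≤ n)])

theorem integrable_exp_moment_centred (h : Ulc η ρ) :
    Integrable (fun x => Real.exp (η / 16 * nsq (x - center ρ))) (law ρ) :=
  (integrable_exp_centred h).1

theorem exp_moment_centred (h : Ulc η ρ) :
    ∫ x, Real.exp (η / 16 * nsq (x - center ρ)) ∂law ρ ≤ 2 ^ n := (integrable_exp_centred h).2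

/-- A shift of the barycentre is paid by entropy. -/
theorem center_shift (h : Ulc η ρ) {g : (Fin n → ℝ) → ℝ} (hg : Measurable g) {B : ℝ}
    (h0 : ∀ x, 0 ≤ g x) (hB : ∀ x, g x ≤ B) :
    nsq (fun i => ∫ x, g x * (x i - center ρ i) ∂law ρ) ≤
      4 / η * (∫ x, g x ∂law ρ) * ent (law ρ) g := by
  have := isProb h
  have hη := h.pos
  set c := center ρ
  have hgb : PolyB g := polyB_of_bounded fun x => by rw [abs_of_nonneg (h0 x)]; exact hB x
  have ig := integrable_polyB h hg hgb
  have hy : ∀ i, PolyB fun x : Fin n → ℝ => x i - c i := fun i => by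
    simp only [sub_eq_add_neg]; exact polyB_add (polyB_coord i) (polyB_const _)
  have igy : ∀ i, Integrable (fun x => g x * (x i - c i)) (law ρ) := fun i =>
    integrable_polyB h (hg.mul ((measurable_pi_apply i).sub_const _)) (polyB_mul hgb (hy i))
  have igl : Integrable (fun x => g x * Real.log (g x)) (law ρ) := by
    obtain ⟨K, hK⟩ := (isCompact_Icc (a := (0 : ℝ)) (b := B)).exists_bound_of_continuousOn
      Real.continuous_mul_log.continuousOn
    exact integrable_polyB h (hg.mul hg.log) (polyB_of_bounded fun x => by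
      simpa using hK (g x) ⟨h0 x, hB x⟩)
  set m := ∫ x, g x ∂law ρ with hm
  set d : Fin n → ℝ := fun i => ∫ x, g x * (x i - c i) ∂law ρ
  rcases (show 0 ≤ m from integral_nonneg h0).eq_or_lt with hm0 | hm0
  · have hz : g =ᵐ[law ρ] 0 := (integral_eq_zero_iff_of_nonneg h0 ig).1 hm0.symm
    have hd : d = 0 := funext fun i => integral_eq_zero_of_ae (hz.mono fun x hx => by
      simp only [Pi.zero_apply] at hx ⊢
      rw [hx, zero_mul])
    simp [hd, nsq, ← hm0]
  set lam := η / (2 * m)
  set u : Fin n → ℝ := lam • d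
  set Z := ∫ x, Real.exp (dotp u (x - c)) ∂law ρ with hZdef
  have iu := integrable_linear_mgf h u
  have hZ0 : 0 < Z := integral_exp_pos (f := fun x => dotp u (x - c)) iu
  have hpt : ∀ x, g x * dotp u (x - c) ≤
      (g x * Real.log (g x) - g x * Real.log m + g x * Real.log Z)
        + (m / Z * Real.exp (dotp u (x - c)) - g x) := fun x => by
    rcases (h0 x).eq_or_lt with h1 | h1
    · rw [← h1]
      simp only [zero_mul, sub_zero, add_zero, zero_add]
      positivity
    · have h2 := Real.log_le_sub_one_of_pos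
        (show 0 < m / Z * Real.exp (dotp u (x - c)) / g x by positivity)
      rw [Real.log_div (by positivity) h1.ne', Real.log_mul (by positivity) (Real.exp_pos _).ne',
        Real.log_exp, Real.log_div hm0.ne' hZ0.ne'] at h2
      have h3 := mul_le_mul_of_nonneg_left h2 h1.le
      rw [mul_sub_one, mul_div_cancel₀ _ h1.ne'] at h3
      linarith
  have i1 : Integrable (fun x => g x * dotp u (x - c)) (law ρ) :=
    integrable_polyB h (hg.mul (measurable_sub_dotp u c)) (polyB_mul hgb
      (polyB_sum Finset.univ (f := fun i (x : Fin n → ℝ) => u i * (x - c) i)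
        fun i _ => polyB_mul (polyB_const (u i)) (hy i)))
  have ia : Integrable (fun x => g x * Real.log (g x) - g x * Real.log m + g x * Real.log Z)
      (law ρ) := (igl.sub (ig.mul_const _)).add (ig.mul_const _)
  have ib : Integrable (fun x => m / Z * Real.exp (dotp u (x - c)) - g x) (law ρ) :=
    (iu.const_mul _).sub ig
  have h1 := integral_mono i1 (ia.add ib) hpt
  rw [integral_add' ia ib, integral_add (f := fun x => g x * Real.log (g x) - g x * Real.log m)
      (g := fun x => g x * Real.log Z) (igl.sub (ig.mul_const _)) (ig.mul_const _),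
    integral_sub igl (ig.mul_const _), integral_sub (iu.const_mul _) ig, integral_const_mul,
    integral_mul_const, integral_mul_const, ← hm, ← hZdef, div_mul_cancel₀ _ hZ0.ne', sub_self,
    add_zero] at h1
  have hlhs : ∫ x, g x * dotp u (x - c) ∂law ρ = lam * nsq d := by
    simp only [dotp, Finset.mul_sum, nsq]
    rw [integral_finsetSum _ fun i _ => ((igy i).const_mul (u i)).congr
      (Filter.Eventually.of_forall fun x => by simp only [Pi.sub_apply]; ring)]
    refine Finset.sum_congr rfl fun i _ => ?_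
    rw [show (fun x : Fin n → ℝ => g x * (u i * (x - c) i)) = fun x => u i * (g x * (x i - c i)) from
      funext fun x => by simp only [Pi.sub_apply]; ring, integral_const_mul]
    simp only [u, d, Pi.smul_apply, smul_eq_mul]
    ring
  rw [hlhs] at h1
  have hlogZ : Real.log Z ≤ nsq u / η := (Real.log_le_iff_le_exp hZ0).2 (linear_mgf h u)
  have hnu : nsq u = lam ^ 2 * nsq d := by
    simp only [nsq, u, Pi.smul_apply, smul_eq_mul, mul_pow, Finset.mul_sum]
  rw [hnu] at hlogZ
  have h4 : lam * nsq d ≤ ent (law ρ) g + m * (lam ^ 2 * nsq d / η) := by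
    have := mul_le_mul_of_nonneg_left hlogZ hm0.le
    simp only [ent, ← hm]
    linarith
  have e1 : lam * nsq d - m * (lam ^ 2 * nsq d / η) = η * nsq d / (4 * m) := by
    simp only [lam]; field_simp; ring
  have h5 : η * nsq d / (4 * m) ≤ ent (law ρ) g := by linarith
  rw [div_le_iff₀ (by positivity)] at h5
  rw [div_mul_eq_mul_div, div_mul_eq_mul_div, le_div_iff₀ hη]
  linarith

theorem sqrt_nsq_combo (x y : Fin n → ℝ) {a b : ℝ} (ha : 0 ≤ a) (hb : 0 ≤ b) :
    Real.sqrt (nsq (a • x + b • y)) ≤ a * Real.sqrt (nsq x) + b * Real.sqrt (nsq y) := by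
  refine Real.sqrt_le_iff.2 ⟨by positivity, ?_⟩
  have e : nsq (a • x + b • y) = a ^ 2 * nsq x + b ^ 2 * nsq y + 2 * a * b * ∑ i, x i * y i := by
    simp only [nsq, Pi.add_apply, Pi.smul_apply, smul_eq_mul, Finset.mul_sum,
      ← Finset.sum_add_distrib]
    exact Finset.sum_congr rfl fun i _ => by ring
  have h1 : ∑ i, x i * y i ≤ Real.sqrt (nsq x) * Real.sqrt (nsq y) :=
    Real.sum_mul_le_sqrt_mul_sqrt _ _ _
  have h2 := mul_le_mul_of_nonneg_left h1 (show 0 ≤ 2 * a * b by positivity)
  have h3 := Real.sq_sqrt (nsq_nonneg x)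
  have h4 := Real.sq_sqrt (nsq_nonneg y)
  rw [e]
  linear_combination h2 + (-a ^ 2) * h3 + (-b ^ 2) * h4

/-- Borell's tail bound, outside the ball with three quarters of the mass. -/
theorem borell_tail (h : Ulc η ρ) {c : ℝ} (hc0 : 0 < c) (hc : CovLe ρ c) (hn : 0 < n) (t : ℕ)
    (ht : 2 ≤ t) :
    (law ρ).real {x | 4 * n * c * (t : ℝ) ^ 2 < nsq (x - center ρ)}
      ≤ (1 / 2 : ℝ) ^ (t / 2 : ℕ) := by
  have := isProb h
  set cc := center ρ
  set R := Real.sqrt (4 * n * c)
  have hR2 : R ^ 2 = 4 * n * c := Real.sq_sqrt (by positivity)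
  set N := fun x : Fin n → ℝ => nsq (x - cc)
  have hNm : Measurable N := measurable_nsq_sub cc
  have hmarkov : (law ρ).real {x | 4 * n * c ≤ N x} ≤ 1 / 4 := by
    obtain ⟨i2, hi2⟩ := integral_nsq_le h hc
    have h1 := mul_meas_ge_le_integral_of_nonneg (μ := law ρ) (f := N)
      (Filter.Eventually.of_forall fun x => nsq_nonneg _) i2 (4 * n * c)
    have h2 : (4 * n * c) * (law ρ).real {x | 4 * n * c ≤ N x} ≤ n * c := h1.trans hi2
    have h3 : 0 < (n : ℝ) * c := by positivity
    nlinarith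
  set Bs := {x | N x ≤ 4 * n * c}
  have hBm : MeasurableSet Bs := measurableSet_le hNm measurable_const
  set As := {x | 4 * n * c * (t : ℝ) ^ 2 < N x}
  have hAm : MeasurableSet As := measurableSet_lt measurable_const hNm
  have ht1 : (2 : ℝ) ≤ t := by exact_mod_cast ht
  set a : ℝ := 2 / ((t : ℝ) + 1)
  set b : ℝ := ((t : ℝ) - 1) / ((t : ℝ) + 1)
  have ha : 0 < a := by positivity
  have hb : 0 < b := div_pos (by linarith) (by linarith)
  have hab : a + b = 1 := by simp only [a, b]; field_simp; ring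
  have key := pl_law h ha hb hab (u := As.indicator fun _ => 1) (v := Bs.indicator fun _ => 1)
    (w := Bsᶜ.indicator fun _ => 1) (measurable_const.indicator hAm)
    (measurable_const.indicator hBm) (measurable_const.indicator hBm.compl) (fun x y => ?_)
  · simp only [lintegral_indicator_const hAm, lintegral_indicator_const hBm,
      lintegral_indicator_const hBm.compl, one_mul] at key
    rw [← ofReal_measureReal (μ := law ρ) (s := As), ← ofReal_measureReal (μ := law ρ) (s := Bs),
      ← ofReal_measureReal (μ := law ρ) (s := Bsᶜ)] at key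
    rw [ENNReal.ofReal_rpow_of_nonneg measureReal_nonneg ha.le,
      ENNReal.ofReal_rpow_of_nonneg measureReal_nonneg hb.le,
      ← ENNReal.ofReal_mul (Real.rpow_nonneg measureReal_nonneg _),
      ENNReal.ofReal_le_ofReal_iff measureReal_nonneg] at key
    set P := (law ρ).real As
    have hq : (law ρ).real Bsᶜ ≤ 1 / 4 := by
      refine le_trans (measureReal_mono fun x hx => ?_) hmarkov
      simp only [Bs, Set.mem_compl_iff, Set.mem_ofPred_eq, not_le] at hx
      exact hx.le
    have hB34 : (3 / 4 : ℝ) ≤ (law ρ).real Bs := by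
      have := measureReal_add_measureReal_compl (μ := law ρ) hBm
      rw [probReal_univ] at this
      linarith
    have h1 : P ^ a * (3 / 4 : ℝ) ≤ 1 / 4 := by
      refine le_trans ?_ (key.trans hq)
      refine mul_le_mul_of_nonneg_left (le_trans ?_ (Real.rpow_le_rpow (by norm_num) hB34 hb.le))
        (Real.rpow_nonneg measureReal_nonneg _)
      exact Real.self_le_rpow_of_le_one (by norm_num) (by norm_num) (by linarith)
    have h2 : P ^ a ≤ 1 / 3 := by linarith
    have h3 : P ≤ (1 / 3 : ℝ) ^ (1 / a) := by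
      have h4 := Real.rpow_le_rpow (Real.rpow_nonneg measureReal_nonneg _) h2
        (show 0 ≤ 1 / a by positivity)
      rwa [← Real.rpow_mul measureReal_nonneg, mul_one_div_cancel ha.ne', Real.rpow_one] at h4
    refine h3.trans ?_
    rw [← Real.rpow_natCast (1 / 2 : ℝ)]
    refine (Real.rpow_le_rpow (by norm_num) (show (1 / 3 : ℝ) ≤ 1 / 2 by norm_num)
      (by positivity)).trans (Real.rpow_le_rpow_of_exponent_ge (by norm_num) (by norm_num) ?_)
    simp only [a, one_div_div]
    have : 2 * ((t / 2 : ℕ) : ℝ) ≤ t := by exact_mod_cast Nat.mul_div_le t 2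
    rw [le_div_iff₀ two_pos]
    linarith
  · by_cases hx : x ∈ As
    swap
    · simp [Set.indicator_of_notMem hx, ENNReal.zero_rpow_of_pos ha]
    by_cases hy : y ∈ Bs
    swap
    · simp [Set.indicator_of_notMem hy, ENNReal.zero_rpow_of_pos hb]
    have hz : a • x + b • y ∈ Bsᶜ := by
      intro hz
      simp only [Bs, As, N, Set.mem_ofPred_eq] at hx hy hz
      set z := a • x + b • y
      have e : x - cc = (((t : ℝ) + 1) / 2) • (z - cc) + (((t : ℝ) - 1) / 2) • (cc - y) := by
        funext i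
        simp only [z, a, b, Pi.add_apply, Pi.sub_apply, Pi.smul_apply, smul_eq_mul]
        field_simp
        ring
      have h1 := sqrt_nsq_combo (z - cc) (cc - y) (show 0 ≤ ((t : ℝ) + 1) / 2 by positivity)
        (show 0 ≤ ((t : ℝ) - 1) / 2 by linarith)
      rw [← e, show nsq (cc - y) = nsq (y - cc) by simp [nsq, sub_sq_comm]] at h1
      have h2 : Real.sqrt (nsq (x - cc)) ≤ (t : ℝ) * R := by
        refine h1.trans ?_
        have h5 := mul_le_mul_of_nonneg_left (Real.sqrt_le_sqrt hz)
          (show 0 ≤ ((t : ℝ) + 1) / 2 by positivity)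
        have h6 := mul_le_mul_of_nonneg_left (Real.sqrt_le_sqrt hy)
          (show 0 ≤ ((t : ℝ) - 1) / 2 by linarith)
        linarith
      have h3 := pow_le_pow_left₀ (Real.sqrt_nonneg _) h2 2
      rw [Real.sq_sqrt (nsq_nonneg _), mul_pow, hR2] at h3
      linarith
    simp only [Set.indicator_of_mem hx, Set.indicator_of_mem hy, Set.indicator_of_mem hz,
      ENNReal.one_rpow, mul_one]
    exact ENNReal.one_le_ofReal.2 (Real.one_le_exp (mul_nonneg
      (div_nonneg (mul_nonneg (mul_nonneg h.pos.le ha.le) hb.le) two_pos.le) (nsq_nonneg _)))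

theorem summable_tail :
    Summable fun j : ℕ => ((j : ℝ) + 1) ^ 8 * (1 / 2 : ℝ) ^ (j / 2) := by
  refine Summable.of_nonneg_of_le (fun j => by positivity) (fun j => ?_)
    (((summable_nat_add_iff (f := fun j : ℕ => (j : ℝ) ^ 8 * (3 / 4 : ℝ) ^ j) 1).2
      (summable_pow_mul_geometric_of_norm_lt_one 8
        (show ‖(3 / 4 : ℝ)‖ < 1 by norm_num))).mul_left 4)
  have h2 : (1 / 2 : ℝ) ^ (j / 2) ≤ 4 * (3 / 4 : ℝ) ^ (j + 1) := by
    calc (1 / 2 : ℝ) ^ (j / 2) ≤ ((3 / 4 : ℝ) ^ 2) ^ (j / 2) :=
          pow_le_pow_left₀ (by norm_num) (by norm_num) _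
      _ = (3 / 4 : ℝ) ^ (2 * (j / 2)) := (pow_mul _ _ _).symm
      _ ≤ 4 * (3 / 4 : ℝ) ^ (j + 1) := by
          have hj : 2 * (j / 2) + 2 ≥ j + 1 := by omega
          have := pow_le_pow_of_le_one (show (0 : ℝ) ≤ 3 / 4 by norm_num) (by norm_num) hj
          rw [pow_add] at this
          norm_num at this ⊢
          linarith [pow_nonneg (show (0 : ℝ) ≤ 3 / 4 by norm_num) (2 * (j / 2))]
  push_cast
  have := mul_le_mul_of_nonneg_left h2 (show 0 ≤ ((j : ℝ) + 1) ^ 8 by positivity)
  linarith

/-- Borell: moments of the distance to the barycentre. -/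
theorem moment_le : ∃ C : ℝ, 0 < C ∧ ∀ (n : ℕ) (η : ℝ) (ρ : (Fin n → ℝ) → ℝ), Ulc η ρ →
    ∀ c : ℝ, 0 < c → CovLe ρ c → ∀ k : ℕ, k ≤ 4 →
      ∫ x, nsq (x - center ρ) ^ k ∂law ρ ≤ C * (n * c) ^ k := by
  have hsum := summable_tail
  set S := ∑' j : ℕ, ((j : ℝ) + 1) ^ 8 * (1 / 2 : ℝ) ^ (j / 2)
  refine ⟨4 ^ 4 * (S + 1), by positivity, fun n η ρ h c hc0 hc k hk => ?_⟩
  have := isProb h
  rcases Nat.eq_zero_or_pos n with rfl | hn
  · rcases Nat.eq_zero_or_pos k with rfl | hk0
    · simp only [pow_zero, integral_const, probReal_univ, one_smul, mul_one]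
      have : 0 ≤ S := tsum_nonneg fun j => by positivity
      linarith [show (1 : ℝ) ≤ 4 ^ 4 * 1 by norm_num]
    · simp [nsq, hk0.ne']
  set cc := center ρ
  set L : ℝ := 4 * n * c
  have hL : 0 < L := by positivity
  set As := fun j : ℕ => {x | L * (j : ℝ) ^ 2 < nsq (x - cc) ∨ j = 0}
  have hAm : ∀ j, MeasurableSet (As j) := fun j =>
    (measurableSet_lt measurable_const (measurable_nsq_sub cc)).union (MeasurableSet.const _)
  have hP : ∀ j, (law ρ).real (As j) ≤ (1 / 2 : ℝ) ^ (j / 2) := fun j => by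
    by_cases hj : 2 ≤ j
    · have e : As j = {x | 4 * n * c * (j : ℝ) ^ 2 < nsq (x - cc)} := by
        simp [As, L, show j ≠ 0 by omega]
      rw [e]
      exact borell_tail h hc0 hc hn j hj
    · rw [show j / 2 = 0 by omega, pow_zero]
      exact measureReal_le_one
  set φ := fun (j : ℕ) (x : Fin n → ℝ) =>
    (As j).indicator (fun _ => ENNReal.ofReal (((j : ℝ) + 1) ^ 8)) x
  have hpt : ∀ x, ENNReal.ofReal ((nsq (x - cc) / L) ^ k) ≤ ∑' j, φ j x := by
    intro x
    set v := Real.sqrt (nsq (x - cc) / L)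
    have hv : v ^ 2 = nsq (x - cc) / L := Real.sq_sqrt (div_nonneg (nsq_nonneg _) hL.le)
    set j := ⌈v⌉₊ - 1
    have hv1 : v ≤ (j : ℝ) + 1 :=
      (Nat.le_ceil v).trans (by exact_mod_cast (show ⌈v⌉₊ ≤ j + 1 by omega))
    have hj : x ∈ As j := by
      by_cases h0 : j = 0
      · exact Or.inr h0
      · refine Or.inl ?_
        have h1 : (j : ℝ) < v := Nat.lt_ceil.1 (by omega)
        have h2 := pow_lt_pow_left₀ h1 j.cast_nonneg two_ne_zero
        rw [hv, lt_div_iff₀ hL] at h2
        linarith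
    refine le_trans ?_ (ENNReal.le_tsum j)
    simp only [φ, Set.indicator_of_mem hj]
    refine ENNReal.ofReal_le_ofReal ?_
    rw [← hv, ← pow_mul]
    refine (pow_le_pow_left₀ (Real.sqrt_nonneg _) hv1 _).trans ?_
    exact pow_le_pow_right₀ (by linarith [(j.cast_nonneg : (0 : ℝ) ≤ j)]) (by omega)
  have hI : ∫⁻ x, ENNReal.ofReal ((nsq (x - cc) / L) ^ k) ∂law ρ ≤ ENNReal.ofReal S := by
    refine (lintegral_mono hpt).trans ?_
    rw [lintegral_tsum fun j => (measurable_const.indicator (hAm j)).aemeasurable,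
      ENNReal.ofReal_tsum_of_nonneg (fun j => by positivity) hsum]
    refine ENNReal.tsum_le_tsum fun j => ?_
    simp only [lintegral_indicator_const (hAm j)]
    rw [← ofReal_measureReal (μ := law ρ) (s := As j)]
    rw [← ENNReal.ofReal_mul (by positivity)]
    exact ENNReal.ofReal_le_ofReal (mul_le_mul_of_nonneg_left (hP j) (by positivity))
  have hi : ∫ x, (nsq (x - cc) / L) ^ k ∂law ρ ≤ S := by
    rw [integral_eq_lintegral_of_nonneg_ae
      (Filter.Eventually.of_forall fun x => pow_nonneg (div_nonneg (nsq_nonneg _) hL.le) _)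
      (((measurable_nsq_sub cc).div_const L).pow_const k).aestronglyMeasurable]
    exact ENNReal.toReal_le_of_le_ofReal (tsum_nonneg fun j => by positivity) hI
  calc ∫ x, nsq (x - cc) ^ k ∂law ρ = L ^ k * ∫ x, (nsq (x - cc) / L) ^ k ∂law ρ := by
        rw [← integral_const_mul]
        exact integral_congr_ae (Filter.Eventually.of_forall fun x => by
          simp only [div_pow]; field_simp)
    _ ≤ L ^ k * S := mul_le_mul_of_nonneg_left hi (pow_nonneg hL.le _)
    _ ≤ _ := by
        rw [show L ^ k = 4 ^ k * ((n : ℝ) * c) ^ k by simp only [L, ← mul_pow, mul_assoc]]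
        have h4 : (4 : ℝ) ^ k ≤ 4 ^ 4 := pow_le_pow_right₀ (by norm_num) hk
        have hS : 0 ≤ S := tsum_nonneg fun j => by positivity
        rw [mul_right_comm]
        exact mul_le_mul_of_nonneg_right (mul_le_mul h4 (by linarith) hS (by norm_num)) (by positivity)

theorem nsq_le_two (x a : Fin n → ℝ) : nsq x ≤ 2 * nsq (x - a) + 2 * nsq a := by
  simp only [nsq, Pi.sub_apply, Finset.mul_sum, ← Finset.sum_add_distrib]
  exact Finset.sum_le_sum fun i _ => by nlinarith [sq_nonneg (x i - 2 * a i)]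

/-- The posterior barycentre grows linearly in the state, locally uniformly in time. -/
theorem nsq_bary_le (h : Ulc η ρ) (S : ℝ) : ∃ A₁ A₀ : ℝ, 0 ≤ A₁ ∧ 0 ≤ A₀ ∧
    ∀ s ∈ Set.Icc 0 S, ∀ θ : Fin n → ℝ, nsq (bary ρ s θ) ≤ A₁ * nsq θ + A₀ := by
  have := isProb h
  have hη := h.pos
  obtain ⟨κ, hκ, hκη⟩ : ∃ κ : ℝ, 0 < κ ∧ κ + κ = η / 16 := ⟨η / 32, by positivity, by ring⟩
  have ie : Integrable (fun x => Real.exp (η / 16 * nsq x)) (law ρ) := integrable_exp_nsq h
  set E := ∫ x, Real.exp (η / 16 * nsq x) ∂law ρ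
  set c := center ρ
  have i1 := fun i => integrable_polyB h (measurable_pi_apply i) (polyB_coord (n := n) i)
  have i2 := integrable_polyB h continuous_nsq.measurable (polyB_nsq (n := n))
  set m2 := ∫ x, nsq x ∂law ρ
  have hm2 : 0 ≤ m2 := integral_nonneg nsq_nonneg
  have hc := nsq_nonneg c
  refine ⟨1 / (2 * κ ^ 2), (|Real.log E| + κ * nsq c + |S| / 2 * m2) / κ, by positivity,
    by positivity, fun s hs θ => ?_⟩
  have hu := post_ulc h hs.1 θ
  have := isProb hu
  have hp := part_pos h hs.1 θ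
  have iw : Integrable (fun x => wgt s θ x) (law ρ) := by
    simpa using integrable_wgt h measurable_const (polyB_const (n := n) 1) hs.1 θ
  -- the normalisation from below
  have id := integrable_polyB h (continuous_dotp θ).measurable (polyB_dotp θ)
  have hlog : dotp θ c - s / 2 * m2 ≤ Real.log (part ρ s θ) := by
    rw [Real.le_log_iff_exp_le hp]
    have h1 := exp_integral_le h (id.sub (i2.const_mul (s / 2))) iw
    rw [integral_sub' id (i2.const_mul _), integral_const_mul] at h1
    refine le_trans (le_of_eq ?_) (h1.trans (le_of_eq (by simp [part, num, wgt])))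
    congr 2
    simp only [dotp, c, center]
    rw [integral_finsetSum _ fun i _ => (i1 i).const_mul (θ i)]
    simp only [integral_const_mul]
  -- the exponential moment from above
  have hpt : ∀ x, Real.exp (κ * nsq x) * wgt s θ x
      ≤ Real.exp (η / 16 * nsq x) * Real.exp (nsq θ / (4 * κ)) := fun x => by
    rw [wgt, ← Real.exp_add, ← Real.exp_add, Real.exp_le_exp, ← hκη, add_mul]
    linarith [dotp_le θ x hκ, mul_nonneg (div_nonneg hs.1 zero_le_two) (nsq_nonneg x)]
  have hm : Measurable fun x : Fin n → ℝ => Real.exp (κ * nsq x) :=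
    (continuous_nsq.measurable.const_mul κ).exp
  have iv : Integrable (fun x => Real.exp (κ * nsq x) * wgt s θ x) (law ρ) :=
    (ie.mul_const _).mono' (hm.mul (continuous_wgt s θ).measurable).aestronglyMeasurable
      (Filter.Eventually.of_forall fun x => by
        rw [Real.norm_eq_abs,
          abs_of_pos (show 0 < Real.exp (κ * nsq x) * wgt s θ x from
            mul_pos (Real.exp_pos _) (Real.exp_pos _))]
        exact hpt x)
  have hnum : num ρ (fun x => Real.exp (κ * nsq x)) s θ ≤ E * Real.exp (nsq θ / (4 * κ)) := by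
    rw [← integral_mul_const]
    exact integral_mono iv (ie.mul_const _) hpt
  have ipe : Integrable (fun x => Real.exp (κ * nsq x)) (law (post ρ s θ)) :=
    integrable_growth hu hm (A := 1) (k := 0) fun x => by
      rw [abs_of_pos (Real.exp_pos _), pow_zero, one_mul, one_mul, Real.exp_le_exp]
      exact mul_le_mul_of_nonneg_right (by linarith [hs.1]) (nsq_nonneg x)
  have i2p := integrable_polyB hu continuous_nsq.measurable (polyB_nsq (n := n))
  have h2 := exp_integral_le hu (i2p.const_mul κ) ipe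
  rw [integral_const_mul, integral_post h hs.1 θ (fun x => Real.exp (κ * nsq x)), mg,
    le_div_iff₀ hp] at h2
  have hE : 0 < E := integral_exp_pos ie
  have h3 := Real.log_le_log (mul_pos (Real.exp_pos _) hp) (h2.trans hnum)
  rw [Real.log_mul (Real.exp_pos _).ne' hp.ne', Real.log_exp,
    Real.log_mul hE.ne' (Real.exp_pos _).ne', Real.log_exp] at h3
  -- the barycentre is below the mean square
  have hsq : nsq (bary ρ s θ) ≤ ∫ x, nsq x ∂law (post ρ s θ) := by
    rw [← center_post h hs.1 θ]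
    simp only [nsq, center]
    rw [integral_finsetSum _ fun i _ => ((integrable_polyB hu
      ((measurable_pi_apply i).pow_const 2) (by
        simpa only [sq] using polyB_mul (polyB_coord i) (polyB_coord i))))]
    refine Finset.sum_le_sum fun i _ => ?_
    have h4 := covc_self_nonneg (ρ := post ρ s θ) fun x => x i
    rw [covc_eq hu (measurable_pi_apply i) (measurable_pi_apply i) (polyB_coord i)
      (polyB_coord i)] at h4
    simp only [← sq] at h4
    linarith
  refine hsq.trans ?_
  have h5 : -(dotp θ c) ≤ κ * nsq c + nsq θ / (4 * κ) := by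
    have h6 := dotp_le (-θ) c hκ
    simpa [dotp, nsq] using h6
  have h7 : s / 2 * m2 ≤ |S| / 2 * m2 :=
    mul_le_mul_of_nonneg_right (by linarith [hs.2, le_abs_self S]) hm2
  have h8 := le_abs_self (Real.log E)
  rw [← mul_le_mul_iff_right₀ hκ, mul_add, ← mul_assoc, mul_div_cancel₀ _ hκ.ne',
    show κ * (1 / (2 * κ ^ 2)) * nsq θ = nsq θ / (4 * κ) + nsq θ / (4 * κ) by field_simp; ring]
  linarith

theorem polyT_mg (h : Ulc η ρ) {g : (Fin n → ℝ) → ℝ} (_hm : Measurable g) (hg : PolyB g) :
    PolyT (mg ρ g) := by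
  have := isProb h
  have hη := h.pos
  obtain ⟨A, k, hA⟩ := hg
  intro S
  obtain ⟨A₁, A₀, hA₁, hA₀, hb⟩ := nsq_bary_le h S
  set Ck := (k.factorial : ℝ) * Real.exp (η / 16) / (η / 16) ^ k
  refine ⟨|A| * 2 ^ k * Ck * 2 ^ n * (1 + A₁ + A₀) ^ k, k, fun s hs θ => ?_⟩
  have hu := post_ulc h hs.1 θ
  have := isProb hu
  have ib := (integrable_exp_centred hu)
  rw [← integral_post h hs.1 θ g]
  set a := bary ρ s θ
  have hca : center (post ρ s θ) = a := center_post h hs.1 θ
  have hpt : ∀ x, |g x| ≤ |A| * 2 ^ k * Ck * (1 + nsq a) ^ k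
      * Real.exp ((η + s) / 16 * nsq (x - center (post ρ s θ))) := fun x => by
    rw [hca]
    have h0 := nsq_nonneg x
    have ha := nsq_nonneg a
    have hy := nsq_nonneg (x - a)
    have h2 : 1 + nsq x ≤ 2 * ((1 + nsq a) * (1 + nsq (x - a))) := by
      nlinarith [nsq_le_two x a, mul_nonneg ha hy]
    have h3 : (1 + nsq (x - a)) ^ k ≤ Ck * Real.exp ((η + s) / 16 * nsq (x - a)) :=
      (pow_le_exp (show 0 < η / 16 by positivity) hy k).trans (mul_le_mul_of_nonneg_left
        (Real.exp_le_exp.2 (mul_le_mul_of_nonneg_right (by linarith [hs.1]) hy)) (by positivity))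
    calc |g x| ≤ |A| * (1 + nsq x) ^ k :=
          (hA x).trans (mul_le_mul_of_nonneg_right (le_abs_self A) (by positivity))
      _ ≤ |A| * (2 * ((1 + nsq a) * (1 + nsq (x - a)))) ^ k := by gcongr
      _ = |A| * 2 ^ k * (1 + nsq a) ^ k * (1 + nsq (x - a)) ^ k := by rw [mul_pow, mul_pow]; ring
      _ ≤ |A| * 2 ^ k * (1 + nsq a) ^ k * (Ck * Real.exp ((η + s) / 16 * nsq (x - a))) :=
          mul_le_mul_of_nonneg_left h3 (by positivity)
      _ = _ := by ring
  have h1 := (norm_integral_le_of_norm_le (ib.1.const_mul _)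
    (Filter.Eventually.of_forall fun x => (Real.norm_eq_abs (g x)).le.trans (hpt x))).trans
    (le_of_eq (integral_const_mul _ _))
  rw [Real.norm_eq_abs] at h1
  refine h1.trans ((mul_le_mul_of_nonneg_left ib.2 ?_).trans ?_)
  · have := nsq_nonneg a; positivity
  · have h4 : (1 + nsq a) ^ k ≤ (1 + A₁ + A₀) ^ k * (1 + nsq θ) ^ k := by
      rw [← mul_pow]
      refine pow_le_pow_left₀ (by linarith [nsq_nonneg a]) ?_ k
      nlinarith [hb s hs θ, nsq_nonneg θ, mul_nonneg hA₀ (nsq_nonneg θ)]
    have := mul_le_mul_of_nonneg_left h4 (show 0 ≤ |A| * 2 ^ k * Ck * 2 ^ n by positivity)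
    linarith

end

end Vale.Agent.P245.General
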