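import Vale.Agent.P245.General.Ineq

/-!
# P245, general measures: logarithmic Sobolev inequality of a uniformly log-concave measure
-/

open MeasureTheory Filter Topology
open scoped ENNReal

namespace Vale.Agent.P245.General

noncomputable section

variable {n : ℕ} {η : ℝ} {ρ : (Fin n → ℝ) → ℝ}

private theorem dotp_le_sq {A : ℝ} (hA : 0 < A) (u v : Fin n → ℝ) :
    dotp u v - A * nsq v ≤ 1 / (4 * A) * nsq u := by
  simp only [dotp, nsq, Finset.mul_sum, ← Finset.sum_sub_distrib]
  refine Finset.sum_le_sum fun i _ => ?_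
  have e : 1 / (4 * A) * u i ^ 2 - (u i * v i - A * v i ^ 2)
      = 1 / (4 * A) * (u i - 2 * A * v i) ^ 2 := by
    field_simp
    ring
  have : 0 ≤ 1 / (4 * A) * (u i - 2 * A * v i) ^ 2 := by positivity
  linarith

private theorem lsi_pointwise (h : Ulc η ρ) {G : (Fin n → ℝ) → ℝ}
    {DG : (Fin n → ℝ) → Fin n → ℝ} {K θ s c : ℝ} (hθ : 0 < θ) (hs : 0 < s) (hθs : θ + s = 1)
    (hA : 0 < η * θ - 2 * K * s) (hc : c = 1 / (2 * (η * θ - 2 * K * s)))
    (htay : ∀ x z, G x ≤ G z + dotp (DG z) (x - z) + K * nsq (x - z)) (x y : Fin n → ℝ) :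
    (ρ x * Real.exp (G x / θ)) ^ θ * ρ y ^ s ≤
      ρ (θ • x + s • y) *
        Real.exp (G (θ • x + s • y) + s * c * nsq (DG (θ • x + s • y))) := by
  set z := θ • x + s • y with hz
  have hxz : x - z = s • (x - y) := by
    have : θ = 1 - s := by linarith
    funext i
    simp [hz, this]
    ring
  have hd : dotp (DG z) (x - z) = s * dotp (DG z) (x - y) := by
    rw [hxz]
    simp only [dotp, Pi.smul_apply, smul_eq_mul, Finset.mul_sum]
    exact Finset.sum_congr rfl fun i _ => by ring
  have hq : nsq (x - z) = s ^ 2 * nsq (x - y) := by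
    rw [hxz]
    simp only [nsq, Pi.smul_apply, smul_eq_mul, Finset.mul_sum]
    exact Finset.sum_congr rfl fun i _ => by ring
  have h1 := htay x z
  rw [hd, hq] at h1
  have h2 := mul_le_mul_of_nonneg_left
    (dotp_le_sq (A := η * θ / 2 - K * s) (by linarith) (DG z) (x - y)) hs.le
  have hc' : 1 / (4 * (η * θ / 2 - K * s)) = c := by
    rw [hc]; congr 1; ring
  rw [hc'] at h2
  have h3 : G x ≤ η * θ * s / 2 * nsq (x - y) + (G z + s * c * nsq (DG z)) := by linarith
  rw [Real.mul_rpow (h.nonneg x) (Real.exp_pos _).le, ← Real.exp_mul, div_mul_cancel₀ _ hθ.ne']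
  calc ρ x ^ θ * Real.exp (G x) * ρ y ^ s
      ≤ ρ x ^ θ * (Real.exp (η * θ * s / 2 * nsq (x - y))
          * Real.exp (G z + s * c * nsq (DG z))) * ρ y ^ s := by
        have := h.nonneg x
        have := h.nonneg y
        gcongr
        rw [← Real.exp_add]
        exact Real.exp_le_exp.2 h3
    _ = (ρ x ^ θ * ρ y ^ s * Real.exp (η * θ * s / 2 * nsq (x - y)))
          * Real.exp (G z + s * c * nsq (DG z)) := by ring
    _ ≤ _ := mul_le_mul_of_nonneg_right (h.conc x y θ s hθ hs hθs) (Real.exp_pos _).le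

private theorem measurable_nsq_comp {DG : (Fin n → ℝ) → Fin n → ℝ} (hD : Measurable DG) :
    Measurable fun x => nsq (DG x) :=
  Finset.measurable_sum _ fun i _ => (hD.eval (a := i)).pow_const 2

private theorem lsi_pl (h : Ulc η ρ) {G : (Fin n → ℝ) → ℝ} {DG : (Fin n → ℝ) → Fin n → ℝ}
    (hG : Measurable G) (hD : Measurable DG) {K θ s c : ℝ} (hθ : 0 < θ) (hs : 0 < s)
    (hθs : θ + s = 1) (hA : 0 < η * θ - 2 * K * s) (hc : c = 1 / (2 * (η * θ - 2 * K * s)))
    (htay : ∀ x z, G x ≤ G z + dotp (DG z) (x - z) + K * nsq (x - z)) :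
    (∫⁻ x, ENNReal.ofReal (Real.exp (G x / θ)) ∂law ρ) ^ θ ≤
      ∫⁻ x, ENNReal.ofReal (Real.exp (G x + s * c * nsq (DG x))) ∂law ρ := by
  have hρm := h.meas.ennreal_ofReal
  have hm1 : Measurable fun x => ENNReal.ofReal (Real.exp (G x / θ)) :=
    (hG.div_const θ).exp.ennreal_ofReal
  have hm3 : Measurable fun x => ENNReal.ofReal (Real.exp (G x + s * c * nsq (DG x))) :=
    (hG.add ((measurable_nsq_comp hD).const_mul _)).exp.ennreal_ofReal
  have key := Vale.Agent.P254.Sym.pl_vol hθ hs hθs n (hρm.mul hm1) hρm (hρm.mul hm3) fun x y => by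
    simp only [Pi.mul_apply]
    rw [← ENNReal.ofReal_mul (h.nonneg _), ← ENNReal.ofReal_mul (h.nonneg _),
      ENNReal.ofReal_rpow_of_nonneg (mul_nonneg (h.nonneg _) (Real.exp_pos _).le) hθ.le,
      ENNReal.ofReal_rpow_of_nonneg (h.nonneg _) hs.le,
      ← ENNReal.ofReal_mul (Real.rpow_nonneg (mul_nonneg (h.nonneg _) (Real.exp_pos _).le) _)]
    exact ENNReal.ofReal_le_ofReal (lsi_pointwise h hθ hs hθs hA hc htay x y)
  rw [h.mass, ENNReal.one_rpow, mul_one] at key
  rw [law, lintegral_withDensity_eq_lintegral_mul _ hρm hm1,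
    lintegral_withDensity_eq_lintegral_mul _ hρm hm3]
  exact key

/-- The functional inequality at a fixed weight. -/
private theorem lsi_at (h : Ulc η ρ) {G : (Fin n → ℝ) → ℝ} {DG : (Fin n → ℝ) → Fin n → ℝ}
    (hG : Measurable G) (hD : Measurable DG) {K δ θ s c : ℝ}
    (htay : ∀ x z, G x ≤ G z + dotp (DG z) (x - z) + K * nsq (x - z))
    (i1 : Integrable (fun x => Real.exp (G x)) (law ρ))
    (i2 : Integrable (fun x => Real.exp ((1 + δ) * G x)) (law ρ))
    (i3 : Integrable (fun x => G x * Real.exp (G x)) (law ρ))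
    (i4 : Integrable (fun x => nsq (DG x) * Real.exp (G x + δ * nsq (DG x))) (law ρ))
    (hθ : 0 < θ) (hs : 0 < s) (hθs : θ + s = 1) (hA : 0 < η * θ - 2 * K * s)
    (hc : c = 1 / (2 * (η * θ - 2 * K * s))) (hsc : s * c ≤ δ) (hδθ : 1 ≤ (1 + δ) * θ) :
    ent (law ρ) (fun x => Real.exp (G x)) ≤
      c * ∫ x, nsq (DG x) * Real.exp (G x + s * c * nsq (DG x)) ∂law ρ := by
  haveI := isProb h
  have hS := measurable_nsq_comp hD
  have hS0 : ∀ x, 0 ≤ nsq (DG x) := fun x => Finset.sum_nonneg fun i _ => sq_nonneg _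
  have hc0 : 0 < c := by rw [hc]; positivity
  set P := ∫ x, Real.exp (G x) ∂law ρ with hP
  have hPpos : 0 < P := integral_exp_pos i1
  set u : (Fin n → ℝ) → ℝ := fun x => s / θ * G x with hu
  have hu_eq : ∀ x, G x / θ = G x + u x := fun x => by
    have : θ = 1 - s := by linarith
    simp only [hu]
    field_simp
    rw [this]
    ring
  have hvu : Integrable (fun x => Real.exp (G x) * u x) (law ρ) :=
    (i3.const_mul (s / θ)).congr (Eventually.of_forall fun x => by simp only [hu]; ring)
  have hve : Integrable (fun x => Real.exp (G x) * Real.exp (u x)) (law ρ) := by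
    refine (i1.add i2).mono' (hG.exp.mul ((hG.const_mul _).exp)).aestronglyMeasurable
      (Eventually.of_forall fun x => ?_)
    rw [Real.norm_eq_abs, ← Real.exp_add, abs_of_pos (Real.exp_pos _), ← hu_eq x, Pi.add_apply]
    have h1θ : θ ≤ 1 := by linarith
    rcases le_total 0 (G x) with hx | hx
    · refine le_add_of_nonneg_of_le (Real.exp_pos _).le (Real.exp_le_exp.2 ?_)
      rw [div_le_iff₀ hθ]
      have := mul_le_mul_of_nonneg_right hδθ hx
      linarith
    · refine le_add_of_le_of_nonneg (Real.exp_le_exp.2 ?_) (Real.exp_pos _).le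
      rw [div_le_iff₀ hθ]
      have := mul_le_mul_of_nonpos_left h1θ hx
      linarith
  have hA1 := exp_mean_le i1 hvu hve (fun x => (Real.exp_pos _).le) hPpos
  set N := ∫ x, G x * Real.exp (G x) ∂law ρ with hN
  have hNu : ∫ x, Real.exp (G x) * u x ∂law ρ = s / θ * N := by
    rw [hN, ← integral_const_mul]
    congr 1
    funext x
    simp only [hu]
    ring
  rw [hNu, ← hP] at hA1
  have hE_int : Integrable (fun x => nsq (DG x) * Real.exp (G x + s * c * nsq (DG x))) (law ρ) := by
    refine i4.mono' (hS.mul (hG.add (hS.const_mul _)).exp).aestronglyMeasurable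
      (Eventually.of_forall fun x => ?_)
    rw [Real.norm_eq_abs, abs_of_nonneg (mul_nonneg (hS0 x) (Real.exp_pos _).le)]
    gcongr
    · exact hS0 x
    · exact hS0 x
  set E := ∫ x, nsq (DG x) * Real.exp (G x + s * c * nsq (DG x)) ∂law ρ with hE
  have hC0 : ∀ x, Real.exp (G x + s * c * nsq (DG x))
      ≤ Real.exp (G x) + s * c * (nsq (DG x) * Real.exp (G x + s * c * nsq (DG x))) := fun x => by
    set v := s * c * nsq (DG x) with hv
    have h' := mul_le_mul_of_nonneg_left (Real.one_sub_le_exp_neg v) (Real.exp_pos (G x + v)).le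
    rw [← Real.exp_add, add_neg_cancel_right] at h'
    rw [show s * c * (nsq (DG x) * Real.exp (G x + v)) = v * Real.exp (G x + v) by rw [hv]; ring]
    linarith
  have hC_int : Integrable (fun x => Real.exp (G x + s * c * nsq (DG x))) (law ρ) :=
    (i1.add (hE_int.const_mul (s * c))).mono' (hG.add (hS.const_mul _)).exp.aestronglyMeasurable
      (Eventually.of_forall fun x => by
        rw [Real.norm_eq_abs, abs_of_pos (Real.exp_pos _)]; exact hC0 x)
  have hCle : ∫ x, Real.exp (G x + s * c * nsq (DG x)) ∂law ρ ≤ P + s * c * E := by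
    calc ∫ x, Real.exp (G x + s * c * nsq (DG x)) ∂law ρ
        ≤ ∫ x, (Real.exp (G x) + s * c * (nsq (DG x) * Real.exp (G x + s * c * nsq (DG x))))
            ∂law ρ := integral_mono hC_int (i1.add (hE_int.const_mul _)) hC0
      _ = _ := by rw [integral_add i1 (hE_int.const_mul _), integral_const_mul]
  have key := lsi_pl h hG hD hθ hs hθs hA hc htay
  simp only [hu_eq, Real.exp_add (G _) (u _)] at key
  rw [← ofReal_integral_eq_lintegral_ofReal hve
      (Eventually.of_forall fun x => mul_nonneg (Real.exp_pos _).le (Real.exp_pos _).le),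
    ← ofReal_integral_eq_lintegral_ofReal hC_int
      (Eventually.of_forall fun x => (Real.exp_pos _).le)] at key
  have hA0 : 0 < ∫ x, Real.exp (G x) * Real.exp (u x) ∂law ρ :=
    lt_of_lt_of_le (by positivity) hA1
  rw [ENNReal.ofReal_rpow_of_pos hA0,
    ENNReal.ofReal_le_ofReal_iff (integral_nonneg fun x => (Real.exp_pos _).le)] at key
  have hE0 : 0 ≤ E := integral_nonneg fun x => mul_nonneg (hS0 x) (Real.exp_pos _).le
  have hQ0 : 0 ≤ s * c * E := by positivity
  have hlow : (P * Real.exp (s / θ * N / P)) ^ θ ≤ P + s * c * E :=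
    ((Real.rpow_le_rpow (by positivity) hA1 hθ.le).trans key).trans hCle
  have hlog := Real.log_le_log (by positivity) hlow
  rw [Real.log_rpow (by positivity), Real.log_mul hPpos.ne' (Real.exp_pos _).ne',
    Real.log_exp] at hlog
  have hup : Real.log (P + s * c * E) ≤ Real.log P + s * c * E / P := by
    have h := Real.log_le_sub_one_of_pos (div_pos (by linarith : 0 < P + s * c * E) hPpos)
    rw [Real.log_div (by linarith) hPpos.ne', add_div, div_self hPpos.ne'] at h
    linarith
  have hmain : s * (N - P * Real.log P) ≤ s * (c * E) := by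
    have h2 := mul_le_mul_of_nonneg_left (hlog.trans hup) hPpos.le
    have e1 : P * (θ * (Real.log P + s / θ * N / P)) = θ * (P * Real.log P) + s * N := by
      field_simp
    have e2 : P * (Real.log P + s * c * E / P) = P * Real.log P + s * (c * E) := by
      field_simp
    rw [e1, e2] at h2
    have hθ' : θ = 1 - s := by linarith
    rw [hθ'] at h2
    linarith
  have hNeq : ∫ x, Real.exp (G x) * G x ∂law ρ = N := by simp only [hN, mul_comm]
  simp only [ent, Real.log_exp, ← hP, hNeq]
  exact le_of_mul_le_mul_left hmain hs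

theorem lsi_general (h : Ulc η ρ) {G : (Fin n → ℝ) → ℝ} {DG : (Fin n → ℝ) → Fin n → ℝ}
    (hG : Measurable G) (hD : Measurable DG) {K δ : ℝ} (_hK : 0 ≤ K) (hδ : 0 < δ)
    (htay : ∀ x z, G x ≤ G z + dotp (DG z) (x - z) + K * nsq (x - z))
    (i1 : Integrable (fun x => Real.exp (G x)) (law ρ))
    (i2 : Integrable (fun x => Real.exp ((1 + δ) * G x)) (law ρ))
    (i3 : Integrable (fun x => G x * Real.exp (G x)) (law ρ))
    (i4 : Integrable (fun x => nsq (DG x) * Real.exp (G x + δ * nsq (DG x))) (law ρ)) :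
    ent (law ρ) (fun x => Real.exp (G x)) ≤
      1 / (2 * η) * ∫ x, nsq (DG x) * Real.exp (G x) ∂law ρ := by
  have hη := h.pos
  set c : ℝ → ℝ := fun s => 1 / (2 * (η * (1 - s) - 2 * K * s)) with hc
  have hc0 : Tendsto c (𝓝 0) (𝓝 (1 / (2 * η))) := by
    have hd : Tendsto (fun s : ℝ => 2 * (η * (1 - s) - 2 * K * s)) (𝓝 0) (𝓝 (2 * η)) :=
      Continuous.tendsto' (by fun_prop) _ _ (by ring)
    exact tendsto_const_nhds.div hd (by positivity)
  have hsc : Tendsto (fun s => s * c s) (𝓝 0) (𝓝 0) := by simpa using tendsto_id.mul hc0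
  have hev1 : ∀ᶠ s in 𝓝 (0 : ℝ), 0 < η * (1 - s) - 2 * K * s ∧ 1 < (1 + δ) * (1 - s) ∧ s < 1 :=
    ((Continuous.tendsto' (f := fun s : ℝ => η * (1 - s) - 2 * K * s) (by fun_prop) 0 η
        (by ring)).eventually_const_lt hη).and
      (((Continuous.tendsto' (f := fun s : ℝ => (1 + δ) * (1 - s)) (by fun_prop) 0 (1 + δ)
        (by ring)).eventually_const_lt (by linarith)).and (eventually_lt_nhds zero_lt_one))
  have hev2 : ∀ᶠ s in 𝓝 (0 : ℝ), s * c s ≤ δ := hsc.eventually_le_const hδ
  have hS := measurable_nsq_comp hD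
  have hS0 : ∀ x, 0 ≤ nsq (DG x) := fun x => Finset.sum_nonneg fun i _ => sq_nonneg _
  have hlimE : Tendsto (fun s => ∫ x, nsq (DG x) * Real.exp (G x + s * c s * nsq (DG x)) ∂law ρ)
      (𝓝 0) (𝓝 (∫ x, nsq (DG x) * Real.exp (G x) ∂law ρ)) := by
    refine tendsto_integral_filter_of_dominated_convergence _
      (Eventually.of_forall fun s => (hS.mul (hG.add (hS.const_mul _)).exp).aestronglyMeasurable)
      ?_ i4 (Eventually.of_forall fun x => ?_)
    · filter_upwards [hev2] with s hs
      refine Eventually.of_forall fun x => ?_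
      rw [Real.norm_eq_abs, abs_of_nonneg (mul_nonneg (hS0 x) (Real.exp_pos _).le)]
      gcongr
      · exact hS0 x
      · exact hS0 x
    · have h1 : Tendsto (fun s => G x + s * c s * nsq (DG x)) (𝓝 0) (𝓝 (G x)) := by
        simpa using (hsc.mul_const (nsq (DG x))).const_add (G x)
      exact ((Real.continuous_exp.tendsto _).comp h1).const_mul _
  refine ge_of_tendsto ((hc0.mul hlimE).mono_left
    (nhdsWithin_le_nhds (s := Set.Ioi 0))) ?_
  filter_upwards [self_mem_nhdsWithin, hev1.filter_mono nhdsWithin_le_nhds,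
    hev2.filter_mono nhdsWithin_le_nhds] with s hs h1 h2
  exact lsi_at h hG hD htay i1 i2 i3 i4 (by linarith [h1.2.2]) hs (by ring) h1.1 rfl h2 h1.2.1.le

private theorem lsi_tame_add (h : Ulc η ρ) {f : (Fin n → ℝ) → ℝ} (hf : Tame f) {e : ℝ}
    (he : 0 < e) :
    ent (law ρ) (fun x => f x ^ 2 + e) ≤ 2 / η * energy (law ρ) f := by
  haveI := isProb h
  have hη := h.pos
  have hpos : ∀ x, 0 < f x ^ 2 + e := fun x => by positivity
  set G : (Fin n → ℝ) → ℝ := fun x => Real.log (f x ^ 2 + e) with hG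
  have hφ : ContDiffOn ℝ (⊤ : ℕ∞) (fun t : ℝ => Real.log (t ^ 2 + e)) Set.univ :=
    (((contDiff_id.pow 2).add contDiff_const).log fun t => by
      show id t ^ 2 + e ≠ 0
      positivity).contDiffOn
  have hGT : Tame G := hf.comp_smooth hφ fun x => Set.mem_univ _
  set DG : (Fin n → ℝ) → Fin n → ℝ := fun x i => pd i G x with hDG
  obtain ⟨B, hB⟩ := hGT.bounded
  obtain ⟨M, hM⟩ := hGT.bounded_gradSq
  obtain ⟨K, hK0, hK⟩ := hGT.taylor
  have hN : ∀ x, nsq (DG x) = gradSq G x := fun x => rfl
  have hS0 : ∀ x, 0 ≤ gradSq G x := fun x => Finset.sum_nonneg fun i _ => sq_nonneg _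
  have hbd : ∀ {F : (Fin n → ℝ) → ℝ} {c : ℝ}, Continuous F → (∀ x, |F x| ≤ c) →
      Integrable F (law ρ) := fun {F c} hF hc =>
    Integrable.of_bound hF.aestronglyMeasurable c
      (Eventually.of_forall fun x => by rw [Real.norm_eq_abs]; exact hc x)
  have i1 : Integrable (fun x => Real.exp (G x)) (law ρ) := hGT.integrable_comp Real.continuous_exp
  have i2 : Integrable (fun x => Real.exp ((1 + 1) * G x)) (law ρ) :=
    hGT.integrable_comp (Real.continuous_exp.comp (continuous_const.mul continuous_id))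
  have i3 : Integrable (fun x => G x * Real.exp (G x)) (law ρ) :=
    hGT.integrable_comp (continuous_id.mul Real.continuous_exp)
  have i4 : Integrable (fun x => nsq (DG x) * Real.exp (G x + 1 * nsq (DG x))) (law ρ) := by
    simp only [hN, one_mul]
    refine hbd (c := M * Real.exp (B + M))
      (hGT.continuous_gradSq.mul (Real.continuous_exp.comp
        (hGT.continuous.add hGT.continuous_gradSq))) fun x => ?_
    rw [abs_mul, abs_of_pos (Real.exp_pos _), abs_of_nonneg (hS0 x)]
    exact mul_le_mul (hM x) (Real.exp_le_exp.2 (add_le_add (le_of_abs_le (hB x)) (hM x)))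
      (Real.exp_pos _).le ((hS0 x).trans (hM x))
  have hmain := lsi_general h (DG := DG) hGT.continuous.measurable
    (measurable_pi_lambda _ fun i => (hGT.continuous_pd i).measurable) hK0 zero_lt_one hK
    i1 i2 i3 i4
  have hexp : ∀ x, Real.exp (G x) = f x ^ 2 + e := fun x => Real.exp_log (hpos x)
  simp only [hexp, hN] at hmain
  have hpdG : ∀ i x, pd i G x = 2 * f x * pd i f x / (f x ^ 2 + e) := fun i x => by
    have hd : HasFDerivAt G _ x := (((hasDerivAt_pow 2 (f x)).add_const e).log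
      (hpos x).ne').comp_hasFDerivAt x (hf.differentiable x).hasFDerivAt
    simp only [pd, hd.fderiv]
    simp [div_mul_eq_mul_div]
  have hS : ∀ x, gradSq G x * (f x ^ 2 + e) ≤ 4 * gradSq f x := fun x => by
    have hp := hpos x
    have e1 : gradSq G x * (f x ^ 2 + e) = f x ^ 2 / (f x ^ 2 + e) * (4 * gradSq f x) := by
      simp only [gradSq, hpdG, Finset.mul_sum, Finset.sum_mul]
      refine Finset.sum_congr rfl fun i _ => ?_
      field_simp
      ring
    rw [e1]
    refine mul_le_of_le_one_left (mul_nonneg (by norm_num)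
      (Finset.sum_nonneg fun i _ => sq_nonneg _)) ?_
    rw [div_le_one hp]
    linarith
  refine hmain.trans ?_
  have h1 : ∫ x, gradSq G x * (f x ^ 2 + e) ∂law ρ ≤ 4 * energy (law ρ) f := by
    rw [energy, ← integral_const_mul]
    exact integral_mono_of_nonneg
      (Eventually.of_forall fun x => mul_nonneg (hS0 x) (hpos x).le)
      (hf.integrable_gradSq.const_mul 4) (Eventually.of_forall hS)
  refine (mul_le_mul_of_nonneg_left h1 (by positivity)).trans_eq ?_
  field_simp
  ring

theorem lsi_tame (h : Ulc η ρ) {f : (Fin n → ℝ) → ℝ} (hf : Tame f) :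
    ent (law ρ) (fun x => f x ^ 2) ≤ 2 / η * energy (law ρ) f := by
  haveI := isProb h
  exact le_of_tendsto (tendsto_ent_add_const hf.sq)
    (eventually_nhdsWithin_of_forall fun e he => lsi_tame_add h hf he)

end

end Vale.Agent.P245.General
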