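import Vale.Agent.P245.General.EpBasic

/-!
# P245, general measures: the improved Lichnerowicz inequality

The spectral gap constant `K` of a `t`-uniformly log-concave measure with covariance at most `c`
satisfies `t K² ≤ c`.  The proof runs along the Gaussian channel with a nearly extremal function.
-/

open MeasureTheory Filter Topology

namespace Vale.Agent.P245.General

noncomputable section

variable {n : ℕ} {t c K s : ℝ} {ρ : (Fin n → ℝ) → ℝ} {f : (Fin n → ℝ) → ℝ}

theorem polyB2_point {g : (Fin n → ℝ) → ℝ} (hg : PolyB g) : PolyB2 fun x _ => g x := by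
  obtain ⟨A, k, h⟩ := hg
  refine ⟨|A|, k, fun x θ => (h x).trans ?_⟩
  have hx := nsq_nonneg x
  have h1 : 1 + nsq x ≤ 1 + nsq x + nsq θ := le_add_of_nonneg_right (nsq_nonneg θ)
  calc A * (1 + nsq x) ^ k ≤ |A| * (1 + nsq x) ^ k :=
        mul_le_mul_of_nonneg_right (le_abs_self A) (by positivity)
    _ ≤ _ := by gcongr

theorem polyB2_mul {Φ Ψ : (Fin n → ℝ) → (Fin n → ℝ) → ℝ} (hΦ : PolyB2 Φ) (hΨ : PolyB2 Ψ) :
    PolyB2 fun x θ => Φ x θ * Ψ x θ := by
  obtain ⟨A, k, hA⟩ := hΦ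
  obtain ⟨B, l, hB⟩ := hΨ
  refine ⟨A * B, k + l, fun x θ => ?_⟩
  rw [abs_mul, pow_add]
  calc |Φ x θ| * |Ψ x θ| ≤ (A * (1 + nsq x + nsq θ) ^ k) * (B * (1 + nsq x + nsq θ) ^ l) :=
        mul_le_mul (hA x θ) (hB x θ) (abs_nonneg _) ((abs_nonneg _).trans (hA x θ))
    _ = _ := by ring

theorem Ep_mg (h : Ulc t ρ) {g : (Fin n → ℝ) → ℝ} (hg : CP g) (hs : 0 < s) :
    Ep ρ s (mg ρ g s) = ∫ x, g x ∂law ρ := by
  rw [← joint_mg h hs (Φ := fun x _ => g x) (hg.1.measurable.comp measurable_fst)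
    (polyB2_point hg.2)]
  have := isProb h
  simp only [joint]
  rw [integral_fun_fst]
  simp

theorem Ep_prod (h : Ulc t ρ) {F : (Fin n → ℝ) → ℝ} (hF : CP F) (hs : 0 ≤ s) :
    Ep ρ s F = ∫ x, ∫ g, F (s • x + Real.sqrt s • g) ∂P166W.gauss (Fin n) ∂law ρ := by
  have := isProb h
  exact integral_prod _ (integrable_joint h (Φ := fun _ θ => F θ)
    (hF.1.measurable.comp measurable_snd) (polyB2_state hF.2) hs)

/-- Averages of a product of a function of the point and one of the state. -/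
theorem Ep_mul_mg (h : Ulc t ρ) {g F : (Fin n → ℝ) → ℝ} (hg : CP g) (hF : CP F) (hs : 0 < s) :
    Ep ρ s (fun θ => mg ρ g s θ * F θ)
      = ∫ x, g x * ∫ z, F (s • x + Real.sqrt s • z) ∂P166W.gauss (Fin n) ∂law ρ := by
  have hm : Measurable (Function.uncurry fun x θ => g x * F θ) :=
    (hg.1.measurable.comp measurable_fst).mul (hF.1.measurable.comp measurable_snd)
  have hp := polyB2_mul (polyB2_point hg.2) (polyB2_state hF.2)
  have e : (fun θ => mg ρ g s θ * F θ) = fun θ => mg ρ (fun x => g x * F θ) s θ := by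
    funext θ
    simp only [mg, num]
    rw [show (fun x => g x * F θ * wgt s θ x) = fun x => (g x * wgt s θ x) * F θ
      from funext fun x => by ring, integral_mul_const]
    ring
  have := isProb h
  rw [e, ← joint_mg h hs hm hp, joint, integral_prod _ (integrable_joint h hm hp hs.le)]
  simp only [integral_const_mul]

theorem Ep_var_nonneg (h : Ulc t ρ) (hs : 0 ≤ s) {F : (Fin n → ℝ) → ℝ} (hF : CP F) :
    Ep ρ s F ^ 2 ≤ Ep ρ s fun θ => F θ ^ 2 := by
  set m := Ep ρ s F with hm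
  have h0 : 0 ≤ Ep ρ s (fun θ => (F θ ^ 2 + (-2 * m) * F θ) + m ^ 2) :=
    Ep_nonneg ρ s fun θ => by nlinarith [sq_nonneg (F θ - m)]
  rw [Ep_add' h hs (hF.sq.add (hF.smul _)) (CP.const _), Ep_add' h hs hF.sq (hF.smul _), Ep_smul,
    Ep_const h, ← hm] at h0
  nlinarith

/-- A component of the gradient of the posterior average, as a field. -/
def vF (ρ f : (Fin n → ℝ) → ℝ) (i : Fin n) : Field n :=
  (mfield ρ fun x => f x * x i).add
    ((Field.const (-1)).mul ((mfield ρ f).mul (mfield ρ fun x => x i)))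

theorem vF_val (i : Fin n) (s : ℝ) (θ : Fin n → ℝ) :
    (vF ρ f i).val s θ = pcov ρ f (fun x => x i) s θ := by
  simp [vF, Field.add, Field.mul, Field.const, mfield, pcov]
  ring

theorem reg_vF (h : Ulc t ρ) (hf : CP f) (i : Fin n) : (vF ρ f i).Reg :=
  reg_add (reg_mfield h (hf.1.mul (continuous_apply i)) (polyB_mul hf.2 (polyB_coord i)))
    (reg_mul (reg_const _) (reg_mul (reg_mfield h hf.1 hf.2)
      (reg_mfield h (continuous_apply i) (polyB_coord i))))

theorem gen_vF (h : Ulc t ρ) (hf : CP f) (i : Fin n) (hs : 0 ≤ s) (θ : Fin n → ℝ) :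
    (vF ρ f i).gen ρ s θ = -∑ k, (vF ρ f k).val s θ * covMat ρ s θ i k := by
  have g1 := gen_mfield h (g := fun x => f x * x i) (hf.1.mul (continuous_apply i))
    (polyB_mul hf.2 (polyB_coord i)) hs θ
  have g2 := gen_mfield h hf.1 hf.2 hs θ
  have g3 := gen_mfield h (continuous_apply i) (polyB_coord i) hs θ
  rw [vF, gen_add, gen_mul, gen_mul, gen_const, g1, g2, g3]
  simp only [vF_val]
  simp [Field.const, mfield, covMat]

/-- The squared gradient of the posterior average, as a field. -/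
def sqF (ρ f : (Fin n → ℝ) → ℝ) : Field n :=
  Field.sum Finset.univ fun i => (vF ρ f i).mul (vF ρ f i)

theorem sqF_val (s : ℝ) (θ : Fin n → ℝ) :
    (sqF ρ f).val s θ = ∑ i, (vF ρ f i).val s θ ^ 2 := by
  simp [sqF, Field.sum, Field.mul, sq]

theorem reg_sqF (h : Ulc t ρ) (hf : CP f) : (sqF ρ f).Reg :=
  reg_sum fun i _ => reg_mul (reg_vF h hf i) (reg_vF h hf i)

theorem cp_gen (h : Ulc t ρ) {u : Field n} (hu : u.Reg) (hs : 0 ≤ s) : CP (u.gen ρ s) := by
  have hb : ∀ i, CP fun θ => bary ρ s θ i := fun i =>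
    cp_mg h ⟨continuous_apply i, polyB_coord i⟩ hs
  have hc : ∀ {F : ℝ → (Fin n → ℝ) → ℝ},
      ContinuousOn (Function.uncurry F) (Set.Ici 0 ×ˢ Set.univ) → PolyT F → CP (F s) :=
    fun hF hF' => ⟨hF.comp_continuous (Continuous.prodMk continuous_const continuous_id)
      fun _ => ⟨hs, Set.mem_univ _⟩, hF'.polyB hs⟩
  have h2 := ((hc hu.contDt hu.polyDt).add
    (CP.sum Finset.univ fun i _ => (hb i).mul (hc (hu.contDx i) (hu.polyDx i)))).add
      ((CP.sum Finset.univ fun i _ => hc (hu.contDxx i) (hu.polyDxx i)).smul (1 / 2))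
  have e : u.gen ρ s = fun θ => (u.dt s θ + ∑ i, bary ρ s θ i * u.dx i s θ)
      + 1 / 2 * ∑ i, u.dxx i s θ := funext fun θ => by simp only [Field.gen]; ring
  rw [e]
  exact h2

theorem cp_val_vF (h : Ulc t ρ) (hf : CP f) (hs : 0 < s) (i : Fin n) :
    C1P ((vF ρ f i).val s) := (contDiff_val (reg_vF h hf i) hs).1

theorem pd_mg (h : Ulc t ρ) (hf : CP f) (hs : 0 < s) (i : Fin n) (θ : Fin n → ℝ) :
    pd i (mg ρ f s) θ = (vF ρ f i).val s θ := by
  rw [vF_val]; exact (contDiff_val (reg_mfield h hf.1 hf.2) hs).2 i θ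

theorem gradSq_mg (h : Ulc t ρ) (hf : CP f) (hs : 0 < s) :
    gradSq (mg ρ f s) = (sqF ρ f).val s := by
  funext θ; simp only [gradSq, pd_mg h hf hs, sqF_val]

theorem c1p_mg (h : Ulc t ρ) (hf : CP f) (hs : 0 < s) : C1P (mg ρ f s) :=
  (contDiff_val (reg_mfield h hf.1 hf.2) hs).1

theorem gen_sqF_ge (h : Ulc t ρ) (hf : CP f) (hs : 0 < s) (θ : Fin n → ℝ) :
    -(2 / (t + s)) * (sqF ρ f).val s θ + ∑ i, gradSq ((vF ρ f i).val s) θ
      ≤ (sqF ρ f).gen ρ s θ := by
  have h1 := covLe_inv (post_ulc h hs.le θ) (fun i => (vF ρ f i).val s θ)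
  rw [covc_dotp_post h hs.le] at h1
  simp only [nsq] at h1
  have h2 : ∀ i, gradSq ((vF ρ f i).val s) θ = ∑ k, (vF ρ f i).dx k s θ * (vF ρ f i).dx k s θ :=
    fun i => Finset.sum_congr rfl fun k _ => by rw [(contDiff_val (reg_vF h hf i) hs).2, sq]
  simp only [h2]
  rw [sqF_val, sqF, gen_sum]
  simp only [gen_mul, gen_vF h hf _ hs.le, Finset.sum_add_distrib]
  have e : ∑ i, (-∑ k, (vF ρ f k).val s θ * covMat ρ s θ i k) * (vF ρ f i).val s θ
      = -∑ i, ∑ k, (vF ρ f i).val s θ * covMat ρ s θ i k * (vF ρ f k).val s θ := by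
    simp only [neg_mul, Finset.sum_neg_distrib, Finset.sum_mul]
    exact congrArg Neg.neg (Finset.sum_congr rfl fun i _ => Finset.sum_congr rfl fun k _ => by ring)
  have e' : ∑ i, (vF ρ f i).val s θ * (-∑ k, (vF ρ f k).val s θ * covMat ρ s θ i k)
      = -∑ i, ∑ k, (vF ρ f i).val s θ * covMat ρ s θ i k * (vF ρ f k).val s θ := by
    rw [← e]
    exact Finset.sum_congr rfl fun i _ => mul_comm _ _
  rw [e, e', show 2 / (t + s) = 2 * (1 / (t + s)) by ring]
  linarith

theorem pcov_dotp (h : Ulc t ρ) {g : (Fin n → ℝ) → ℝ} (hg : CP g) (hs : 0 ≤ s)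
    (θ u : Fin n → ℝ) :
    covc (post ρ s θ) g (dotp u) = ∑ i, u i * pcov ρ g (fun x => x i) s θ := by
  have hp := post_ulc h hs θ
  have hi : ∀ i, CP fun x : Fin n → ℝ => x i := fun i => ⟨continuous_apply i, polyB_coord i⟩
  rw [covc_eq hp hg.1.measurable (continuous_dotp u).measurable hg.2 (polyB_dotp u)]
  have e1 : ∫ x, g x * dotp u x ∂law (post ρ s θ)
      = ∑ i, u i * ∫ x, g x * x i ∂law (post ρ s θ) := by
    have e : (fun x => g x * dotp u x) = fun x => ∑ i, u i * (g x * x i) := funext fun x => by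
      simp only [dotp, Finset.mul_sum]
      exact Finset.sum_congr rfl fun i _ => by ring
    rw [e, integral_finsetSum _ fun i _ => ((hg.mul (hi i)).integrable hp).const_mul (u i)]
    exact Finset.sum_congr rfl fun i _ => integral_const_mul _ _
  have e2 : ∫ x, dotp u x ∂law (post ρ s θ) = ∑ i, u i * ∫ x, x i ∂law (post ρ s θ) := by
    simp only [dotp]
    rw [integral_finsetSum _ fun i _ => ((hi i).integrable hp).const_mul (u i)]
    exact Finset.sum_congr rfl fun i _ => integral_const_mul _ _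
  rw [e1, e2, Finset.mul_sum, ← Finset.sum_sub_distrib]
  simp only [integral_post h hs, pcov]
  exact Finset.sum_congr rfl fun i _ => by ring

theorem sqF_le (h : Ulc t ρ) (hf : C1P f) (hs : 0 ≤ s) (θ : Fin n → ℝ) :
    (sqF ρ f).val s θ ≤ (1 / (t + s)) ^ 2 * mg ρ (gradSq f) s θ := by
  have hp := post_ulc h hs θ
  set v : Fin n → ℝ := fun i => (vF ρ f i).val s θ with hv
  have e : covc (post ρ s θ) f (dotp v) = nsq v := by
    rw [pcov_dotp h hf.cp hs]
    simp [hv, nsq, vF_val, sq]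
  have h1 := covc_sq_le hp hf.1.continuous.measurable (continuous_dotp v).measurable
    hf.2.1 (polyB_dotp v)
  rw [e] at h1
  have h2 := poincare hp hf
  rw [energy, integral_post h hs] at h2
  have h4 : 0 ≤ 1 / (t + s) := by have := hp.pos; positivity
  have h5 : 0 ≤ mg ρ (gradSq f) s θ := by
    rw [← integral_post h hs]; exact integral_nonneg (gradSq_nonneg f)
  rw [sqF_val]
  show nsq v ≤ _
  rcases (nsq_nonneg v).eq_or_lt with h0 | h0
  · rw [← h0]; positivity
  · refine le_of_mul_le_mul_right ?_ h0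
    have h6 := mul_le_mul h2 (covLe_inv hp v) (covc_self_nonneg _) (mul_nonneg h4 h5)
    linarith

/-- The gradient term stays below the energy. -/
theorem grad_le (h : Ulc t ρ) (hf : C1P f) (hs : 0 < s) :
    s ^ 2 * Ep ρ s ((sqF ρ f).val s) ≤ energy (law ρ) f := by
  have hq := cp_mg h hf.cp_gradSq hs.le
  have h2 := Ep_le h hs.le ((reg_sqF h hf.cp).cp hs.le) (hq.smul _) (sqF_le h hf hs.le)
  rw [Ep_smul, Ep_mg h hf.cp_gradSq hs, ← energy] at h2
  refine (mul_le_mul_of_nonneg_left h2 (sq_nonneg s)).trans ?_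
  rw [← mul_assoc, ← mul_pow]
  have := h.pos
  refine mul_le_of_le_one_left (integral_nonneg (gradSq_nonneg f))
    (pow_le_one₀ (by positivity) ?_)
  rw [mul_one_div, div_le_one (by positivity)]
  linarith

/-- The posterior average keeps most of the variance. -/
theorem var_ge (h : Ulc t ρ) (hf : C1P f) (hs : 0 < s) (h1 : ∫ x, f x ^ 2 ∂law ρ = 1) :
    1 - energy (law ρ) f / s ≤ Ep ρ s fun θ => mg ρ f s θ * mg ρ f s θ := by
  have hU := cp_mg h hf.cp hs.le
  have hq := cp_mg h hf.cp_gradSq hs.le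
  have hle : ∀ θ, mg ρ (fun x => f x * f x) s θ
      ≤ mg ρ f s θ * mg ρ f s θ + 1 / s * mg ρ (gradSq f) s θ := fun θ => by
    have h2 := poincare (post_ulc h hs.le θ) hf
    rw [energy, integral_post h hs.le,
      covc_post h hs.le θ hf.1.continuous.measurable hf.1.continuous.measurable hf.2.1 hf.2.1]
      at h2
    have h3 : 0 ≤ mg ρ (gradSq f) s θ := by
      rw [← integral_post h hs.le]; exact integral_nonneg (gradSq_nonneg f)
    have h4 := mul_le_mul_of_nonneg_right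
      (one_div_le_one_div_of_le hs (le_add_of_nonneg_left h.pos.le : s ≤ t + s)) h3
    simp only [pcov] at h2
    linarith
  have h5 := Ep_le h hs.le (cp_mg h (hf.cp.mul hf.cp) hs.le) ((hU.mul hU).add (hq.smul _)) hle
  rw [Ep_mg h (hf.cp.mul hf.cp) hs, Ep_add' h hs.le (hU.mul hU) (hq.smul _), Ep_smul,
    Ep_mg h hf.cp_gradSq hs, ← energy] at h5
  simp only [← sq, h1] at h5 ⊢
  rw [one_div_mul_eq_div] at h5
  linarith

/-- The spectral gap of the channel law at the posterior average. -/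
theorem chan_le (h : Ulc t ρ) (hK : 0 ≤ K)
    (hP : ∀ g, C1P g → covc ρ g g ≤ K * energy (law ρ) g) (hf : C1P f) (hs : 0 < s)
    (h0 : ∫ x, f x ∂law ρ = 0) :
    (Ep ρ s fun θ => mg ρ f s θ * mg ρ f s θ) ≤ (K * s ^ 2 + s) * Ep ρ s ((sqF ρ f).val s) := by
  have h2 := channel_poincare h hK hP hs.le (c1p_mg h hf.cp hs)
  rw [Ep_mg h hf.cp hs, h0, gradSq_mg h hf.cp hs] at h2
  simp only [sq, mul_zero, sub_zero] at h2 ⊢
  exact h2

theorem gauss_dotp (u : Fin n → ℝ) : ∫ g, dotp u g ∂P166W.gauss (Fin n) = 0 := by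
  simp only [dotp]
  rw [integral_finsetSum _ fun i _ =>
    ((CP.integrable_gauss ⟨continuous_apply i, polyB_coord i⟩).const_mul (u i))]
  refine Finset.sum_eq_zero fun i _ => ?_
  have := gauss_ibp_c1p (c1p_const (n := n) 1) i
  simp only [mul_one, pd_const, integral_zero] at this
  rw [integral_const_mul, this, mul_zero]

/-- Cauchy-Schwarz for the spectral gap form of the channel law against a linear function. -/
theorem mean_dot_le (h : Ulc t ρ) (hc : 0 < c) (hcov : CovLe ρ c) (hK : 0 < K)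
    (hP : ∀ g, C1P g → covc ρ g g ≤ K * energy (law ρ) g) (hf : C1P f)
    (h0 : ∫ x, f x ∂law ρ = 0) (h1 : ∫ x, f x ^ 2 ∂law ρ = 1) (hs : 0 < s) {D : ℝ}
    (hD : (K * s ^ 2 + s) * Ep ρ s ((sqF ρ f).val s)
      - (Ep ρ s fun θ => mg ρ f s θ * mg ρ f s θ) ≤ D) :
    s ^ 2 * ∑ i, Ep ρ s ((vF ρ f i).val s) ^ 2
      ≤ (Real.sqrt c / K + Real.sqrt (D / K)) ^ 2 := by
  set P := K * s ^ 2 + s with hPd
  have hP0 : 0 < P := by positivity
  set m : Fin n → ℝ := fun i => Ep ρ s ((vF ρ f i).val s) with hm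
  have hl := c1p_dotp m
  have hU := c1p_mg h hf.cp hs
  have hD0 : 0 ≤ P * Ep ρ s ((sqF ρ f).val s)
      - (Ep ρ s fun θ => mg ρ f s θ * mg ρ f s θ) := sub_nonneg.2 (chan_le h hK.le hP hf hs h0)
  have hDn : 0 ≤ D := hD0.trans hD
  set L₁ := Ep ρ s (dotp m) with hL₁
  set L₂ := Ep ρ s (fun θ => dotp m θ ^ 2) with hL₂
  set B₁ := Ep ρ s (fun θ => mg ρ f s θ * dotp m θ) with hB₁
  have hgl : gradSq (dotp m) = fun _ => nsq m := funext fun θ => by simp [gradSq, nsq, pd_dotp]
  have hLA : L₂ - L₁ ^ 2 ≤ P * nsq m := by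
    have h2 := channel_poincare h hK.le hP hs.le hl
    rw [hgl, Ep_const h] at h2
    exact h2
  have hquad : ∀ a : ℝ, 0 ≤ (P * nsq m - L₂ + L₁ ^ 2) * (a * a)
      + 2 * (P * nsq m - B₁) * a + D := fun a => by
    have h2 := channel_poincare h hK.le hP hs.le (c1p_add hU (c1p_smul a hl))
    have e1 : Ep ρ s (fun θ => mg ρ f s θ + a * dotp m θ) = a * L₁ := by
      rw [Ep_add' h hs.le hU.cp (hl.cp.smul a), Ep_smul, Ep_mg h hf.cp hs, h0, zero_add]
    have e2 : Ep ρ s (fun θ => (mg ρ f s θ + a * dotp m θ) ^ 2)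
        = (Ep ρ s fun θ => mg ρ f s θ * mg ρ f s θ) + (2 * a * B₁ + a ^ 2 * L₂) := by
      rw [show (fun θ => (mg ρ f s θ + a * dotp m θ) ^ 2) = fun θ =>
          mg ρ f s θ * mg ρ f s θ + ((2 * a) * (mg ρ f s θ * dotp m θ) + a ^ 2 * dotp m θ ^ 2)
          from funext fun θ => by ring,
        Ep_add' h hs.le (hU.cp.mul hU.cp) (((hU.cp.mul hl.cp).smul _).add (hl.cp.sq.smul _)),
        Ep_add' h hs.le ((hU.cp.mul hl.cp).smul _) (hl.cp.sq.smul _), Ep_smul, Ep_smul]
    have e3 : Ep ρ s (gradSq fun θ => mg ρ f s θ + a * dotp m θ)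
        = Ep ρ s ((sqF ρ f).val s) + (2 * a * nsq m + a ^ 2 * nsq m) := by
      have hp : ∀ i, CP ((vF ρ f i).val s) := fun i => (reg_vF h hf.cp i).cp hs.le
      have e : (gradSq fun θ => mg ρ f s θ + a * dotp m θ) = fun θ =>
          (sqF ρ f).val s θ
            + ((∑ i, (2 * a * m i) * (vF ρ f i).val s θ) + a ^ 2 * nsq m) := funext fun θ => by
        simp only [gradSq, pd_add hU (c1p_smul a hl), pd_smul a hl, pd_mg h hf.cp hs, pd_dotp,
          sqF_val, nsq, Finset.mul_sum, ← Finset.sum_add_distrib]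
        exact Finset.sum_congr rfl fun i _ => by ring
      rw [e, Ep_add' h hs.le ((reg_sqF h hf.cp).cp hs.le)
          ((CP.sum Finset.univ fun i _ => (hp i).smul _).add (CP.const _)),
        Ep_add' h hs.le (CP.sum Finset.univ fun i _ => (hp i).smul _) (CP.const _),
        Ep_const h, Ep_sum' h hs.le Finset.univ fun i _ => (hp i).smul _]
      simp only [Ep_smul, nsq, Finset.mul_sum]
      simp only [hm]
      exact congrArg₂ _ rfl (congrArg₂ _ (Finset.sum_congr rfl fun i _ => by ring) rfl)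
    rw [e1, e2, e3] at h2
    nlinarith
  have hdisc := discrim_le_zero hquad
  rw [discrim] at hdisc
  have h10 : P * nsq m - L₂ + L₁ ^ 2 ≤ P * nsq m := by
    have := Ep_var_nonneg h hs.le hl.cp
    rw [← hL₁, ← hL₂] at this
    linarith
  have h8 : (P * nsq m - B₁) ^ 2 ≤ D * (P * nsq m) := by
    have := mul_le_mul_of_nonneg_left h10 hDn
    linarith
  have hBB : |B₁| ≤ s * Real.sqrt (c * nsq m) := by
    have e : B₁ = s * covc ρ f (dotp m) := by
      rw [hB₁, Ep_mul_mg h hf.cp hl.cp hs, covc_eq h hf.1.continuous.measurable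
        hl.1.continuous.measurable hf.2.1 hl.2.1, h0, zero_mul, sub_zero, ← integral_const_mul]
      refine integral_congr_ae (ae_of_all _ fun x => ?_)
      have hlin : ∀ g, dotp m (s • x + Real.sqrt s • g)
          = s * dotp m x + Real.sqrt s * dotp m g := fun g => by
        simp only [dotp, Pi.add_apply, Pi.smul_apply, smul_eq_mul, Finset.mul_sum,
          ← Finset.sum_add_distrib]
        exact Finset.sum_congr rfl fun i _ => by ring
      simp only [hlin]
      rw [integral_add (integrable_const _) (hl.cp.integrable_gauss.const_mul _),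
        integral_const_mul (Real.sqrt s), gauss_dotp]
      simp only [integral_const, probReal_univ, one_smul]
      ring
    rw [e, abs_mul, abs_of_pos hs]
    refine mul_le_mul_of_nonneg_left (Real.abs_le_sqrt ?_) hs.le
    refine (covc_sq_le h hf.1.continuous.measurable hl.1.continuous.measurable hf.2.1
      hl.2.1).trans ?_
    have : covc ρ f f = 1 := by
      rw [covc_eq h hf.1.continuous.measurable hf.1.continuous.measurable hf.2.1 hf.2.1, h0]
      simp [← sq, h1]
    rw [this, one_mul]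
    exact hcov m
  set M := Real.sqrt (nsq m) with hMd
  have hM : M ^ 2 = nsq m := Real.sq_sqrt (nsq_nonneg m)
  have hMn : 0 ≤ M := Real.sqrt_nonneg _
  have h11 : P * M ≤ s * Real.sqrt c + Real.sqrt (D * P) := by
    rcases hMn.eq_or_lt with hz' | hpos
    · rw [← hz', mul_zero]; positivity
    refine le_of_mul_le_mul_right ?_ hpos
    have h12 := Real.abs_le_sqrt h8
    rw [Real.sqrt_mul hc.le, ← hMd] at hBB
    rw [show D * (P * nsq m) = (D * P) * M ^ 2 from by rw [hM]; ring,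
      Real.sqrt_mul (by positivity), Real.sqrt_sq hMn] at h12
    have h13 : P * M * M = P * nsq m := by rw [← hM]; ring
    linarith [(abs_le.1 hBB).2, (abs_le.1 h12).2]
  have h13 : s * M ≤ Real.sqrt c / K + Real.sqrt (D / K) := by
    have h14 : K * s ^ 2 ≤ P := by rw [hPd]; linarith
    have h15 : s * M ≤ s * s * Real.sqrt c / P + s * Real.sqrt (D * P) / P := by
      rw [← add_div, le_div_iff₀ hP0]
      nlinarith [mul_le_mul_of_nonneg_left h11 hs.le]
    refine h15.trans (add_le_add ?_ ?_)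
    · rw [div_le_div_iff₀ hP0 hK]
      nlinarith [mul_le_mul_of_nonneg_left h14 (Real.sqrt_nonneg c)]
    · rw [Real.sqrt_div hDn, div_le_div_iff₀ hP0 (Real.sqrt_pos.2 hK), Real.sqrt_mul hDn]
      have h16 : s * Real.sqrt K ≤ Real.sqrt P := by
        refine Real.le_sqrt_of_sq_le ?_
        rw [mul_pow, Real.sq_sqrt hK.le]; linarith
      calc s * (Real.sqrt D * Real.sqrt P) * Real.sqrt K
          = Real.sqrt D * Real.sqrt P * (s * Real.sqrt K) := by ring
        _ ≤ Real.sqrt D * Real.sqrt P * Real.sqrt P :=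
            mul_le_mul_of_nonneg_left h16 (by positivity)
        _ = Real.sqrt D * P := by rw [mul_assoc, Real.mul_self_sqrt hP0.le]
  calc s ^ 2 * ∑ i, Ep ρ s ((vF ρ f i).val s) ^ 2 = (s * M) ^ 2 := by
        rw [mul_pow, hM]; simp only [nsq, hm]
    _ ≤ _ := pow_le_pow_left₀ (by positivity) h13 2

/-- The growth of the gradient term along the channel. -/
theorem deriv_ge (h : Ulc t ρ) (hK : 0 < K)
    (hP : ∀ g, C1P g → covc ρ g g ≤ K * energy (law ρ) g) (hf : C1P f) (hs : 0 < s) {w zm e : ℝ}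
    (hw : 1 / s ≤ w) (hzm : 0 ≤ zm) (hlow : zm ≤ s ^ 2 * Ep ρ s ((sqF ρ f).val s))
    (he : s ^ 2 * ∑ i, Ep ρ s ((vF ρ f i).val s) ^ 2 ≤ e) :
    ∃ G', HasDerivAt (fun r => r ^ 2 * Ep ρ r ((sqF ρ f).val r)) G' s ∧
      ((zm - e) / (K + w) + 2 * t * zm / (1 + t * w)) / s ^ 2 ≤ G' := by
  have ht := h.pos
  have hw0 : 0 < w := lt_of_lt_of_le (by positivity) hw
  refine ⟨_, (hasDerivAt_pow 2 s).mul (hasDerivAt_Ep h (reg_sqF h hf.cp) hs), ?_⟩
  set E₂ := Ep ρ s ((sqF ρ f).val s) with hE₂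
  set m := ∑ i, Ep ρ s ((vF ρ f i).val s) ^ 2 with hm
  set P := K * s ^ 2 + s with hPd
  have hv : ∀ i, C1P ((vF ρ f i).val s) := cp_val_vF h hf.cp hs
  have hs2 := (reg_sqF h hf.cp).cp hs.le
  have hlow' := Ep_le h hs.le
    ((hs2.smul (-(2 / (t + s)))).add (CP.sum Finset.univ fun i _ => (hv i).cp_gradSq))
    (cp_gen h (reg_sqF h hf.cp) hs.le) (gen_sqF_ge h hf.cp hs)
  rw [Ep_add' h hs.le (hs2.smul _) (CP.sum Finset.univ fun i _ => (hv i).cp_gradSq), Ep_smul,
    Ep_sum' h hs.le Finset.univ fun i _ => (hv i).cp_gradSq, ← hE₂] at hlow'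
  set Y := ∑ i, Ep ρ s (gradSq ((vF ρ f i).val s)) with hY
  have hY0 : 0 ≤ Y := Finset.sum_nonneg fun i _ => Ep_nonneg ρ s fun θ => gradSq_nonneg _ _
  have hpc : E₂ - m ≤ P * Y := by
    have e' : E₂ = ∑ i, Ep ρ s fun θ => (vF ρ f i).val s θ ^ 2 := by
      rw [hE₂, show (sqF ρ f).val s = fun θ => ∑ i, (vF ρ f i).val s θ ^ 2 from
        funext (sqF_val s)]
      exact Ep_sum' h hs.le Finset.univ fun i _ => (hv i).cp.sq
    rw [e', hm, hY, ← Finset.sum_sub_distrib, Finset.mul_sum]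
    exact Finset.sum_le_sum fun i _ => channel_poincare h hK.le hP hs.le (hv i)
  have t1 : (zm - e) / (K + w) / s ^ 2 ≤ s ^ 2 * Y := by
    rcases le_or_gt (zm - e) 0 with hneg | hpos
    · exact (div_nonpos_of_nonpos_of_nonneg (div_nonpos_of_nonpos_of_nonneg hneg
        (by positivity)) (sq_nonneg s)).trans (by positivity)
    · rw [div_div, div_le_iff₀ (by positivity)]
      have h3 : P ≤ (K + w) * s ^ 2 := by
        have h3' : s ≤ w * s ^ 2 := by
          have := mul_le_mul_of_nonneg_right hw (sq_nonneg s)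
          rwa [show 1 / s * s ^ 2 = s by field_simp] at this
        rw [hPd]; linarith
      have h4 := mul_le_mul_of_nonneg_left hpc (sq_nonneg s)
      have h5 := mul_le_mul_of_nonneg_left h3 (mul_nonneg (sq_nonneg s) hY0)
      linarith
  have t2 : 2 * t * zm / (1 + t * w) / s ^ 2
      ≤ 2 * s * E₂ - s ^ 2 * (2 / (t + s)) * E₂ := by
    have e' : 2 * s * E₂ - s ^ 2 * (2 / (t + s)) * E₂
        = 2 * t * (s ^ 2 * E₂) / (s * (t + s)) := by
      field_simp; ring
    rw [e', div_div, div_le_div_iff₀ (by positivity) (by positivity)]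
    have h3 : s * (t + s) ≤ (1 + t * w) * s ^ 2 := by
      have := mul_le_mul_of_nonneg_left hw (mul_nonneg ht.le (sq_nonneg s))
      rw [show t * s ^ 2 * (1 / s) = t * s by field_simp] at this
      linarith
    calc 2 * t * zm * (s * (t + s)) ≤ 2 * t * zm * ((1 + t * w) * s ^ 2) :=
          mul_le_mul_of_nonneg_left h3 (by positivity)
      _ ≤ 2 * t * (s ^ 2 * E₂) * ((1 + t * w) * s ^ 2) := by gcongr
  have h6 := mul_le_mul_of_nonneg_left hlow' (sq_nonneg s)
  rw [add_div]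
  simp only [Nat.cast_ofNat, Nat.add_one_sub_one, pow_one]
  linarith

/-- The gap tested on the averaged function `x ↦ E[mg f | X = x]`. -/
theorem test_le (h : Ulc t ρ) (hK : 0 < K)
    (hP : ∀ g, C1P g → covc ρ g g ≤ K * energy (law ρ) g) (hf : C1P f) (hs : 0 < s)
    (h0 : ∫ x, f x ∂law ρ = 0) (h1 : ∫ x, f x ^ 2 ∂law ρ = 1) {e : ℝ}
    (he : s ^ 2 * ∑ i, Ep ρ s ((vF ρ f i).val s) ^ 2 ≤ e) :
    (1 + 1 / (s * K)) * ((Ep ρ s fun θ => mg ρ f s θ * mg ρ f s θ) ^ 2 / K)
      ≤ s ^ 2 * Ep ρ s ((sqF ρ f).val s) + e / (s * K) := by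
  have := isProb h
  set γ := P166W.gauss (Fin n) with hγ
  have hγi : ∀ k : ℕ, Integrable (fun g => (1 + nsq g) ^ k) γ := integrable_gauss_pow
  have hU := c1p_mg h hf.cp hs
  have hv := cp_val_vF h hf.cp hs
  obtain ⟨hhc, hhpd⟩ := c1p_avg hγi hU s (Real.sqrt s)
  set hh : (Fin n → ℝ) → ℝ := fun x => ∫ g, mg ρ f s (s • x + Real.sqrt s • g) ∂γ with hhh
  have hR : ∀ i, C1P (fun x => ∫ g, (vF ρ f i).val s (s • x + Real.sqrt s • g) ∂γ) :=
    fun i => (c1p_avg hγi (hv i) s (Real.sqrt s)).1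
  set R : Fin n → (Fin n → ℝ) → ℝ :=
    fun i x => s * ∫ g, (vF ρ f i).val s (s • x + Real.sqrt s • g) ∂γ with hRd
  have hRc : ∀ i, C1P (R i) := fun i => c1p_smul s (hR i)
  have hRmean : ∀ i, ∫ x, R i x ∂law ρ = s * Ep ρ s ((vF ρ f i).val s) := fun i => by
    rw [Ep_prod h (hv i).cp hs.le]
    exact integral_const_mul _ _
  have hkey : (Ep ρ s fun θ => mg ρ f s θ * mg ρ f s θ) ^ 2
      ≤ K * ∑ i, ∫ x, R i x ^ 2 ∂law ρ := by
    have hfh : covc ρ f hh = Ep ρ s fun θ => mg ρ f s θ * mg ρ f s θ := by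
      rw [covc_eq h hf.1.continuous.measurable hhc.1.continuous.measurable hf.2.1 hhc.2.1, h0,
        zero_mul, sub_zero, Ep_mul_mg h hf.cp hU.cp hs]
    have h2 := covc_sq_le h hf.1.continuous.measurable hhc.1.continuous.measurable hf.2.1 hhc.2.1
    have hff : covc ρ f f = 1 := by
      rw [covc_eq h hf.1.continuous.measurable hf.1.continuous.measurable hf.2.1 hf.2.1, h0]
      simp [← sq, h1]
    rw [hfh, hff, one_mul] at h2
    refine h2.trans ((hP hh hhc).trans_eq ?_)
    have e' : gradSq hh = fun x => ∑ i, R i x ^ 2 := funext fun x => by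
      simp only [gradSq, hhpd, pd_mg h hf.cp hs, hRd]
    rw [energy, e', integral_finsetSum _ fun i _ => (hRc i).cp.sq.integrable h]
  have hsum : ∀ i, ∫ x, R i x ^ 2 ∂law ρ + (∫ x, gradSq (R i) x ∂law ρ) / s
      ≤ s ^ 2 * Ep ρ s fun θ => (vF ρ f i).val s θ ^ 2 := fun i => by
    have hpt : ∀ x, R i x ^ 2 + gradSq (R i) x / s
        ≤ s ^ 2 * ∫ g, (vF ρ f i).val s (s • x + Real.sqrt s • g) ^ 2 ∂γ := fun x => by
      obtain ⟨hF, hFpd⟩ := c1p_avg (ν := Measure.dirac x) (fun k => integrable_dirac (by simp))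
        (hv i) (Real.sqrt s) s
      simp only [integral_dirac, add_comm (Real.sqrt s • _) (s • x)] at hF hFpd
      have h2 := hermite_le hF
      simp only [hFpd, integral_const_mul, mul_pow, Real.sq_sqrt hs.le, ← hγ] at h2
      have e' : gradSq (R i) x / s = s ^ 2 * (s * ∑ l,
          (∫ g, pd l ((vF ρ f i).val s) (s • x + Real.sqrt s • g) ∂γ) ^ 2) := by
        simp only [gradSq, hRd, pd_smul s (hR i), (c1p_avg hγi (hv i) s (Real.sqrt s)).2,
          Finset.mul_sum, Finset.sum_div]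
        exact Finset.sum_congr rfl fun l _ => by field_simp
      rw [e', hRd]
      simp only [mul_pow]
      rw [← mul_add]
      refine mul_le_mul_of_nonneg_left (le_trans (le_of_eq ?_) h2) (sq_nonneg s)
      rw [← Finset.mul_sum]
    have hi1 := (hRc i).cp.sq.integrable h
    have hi2 := (hRc i).cp_gradSq.integrable h
    have hi3 : CP fun x => ∫ g, (vF ρ f i).val s (s • x + Real.sqrt s • g) ^ 2 ∂γ :=
      ⟨continuous_avg hγi (hv i).cp.sq.1 (hv i).cp.sq.2 _ _,
        polyB_avg hγi (hv i).cp.sq.2 _ _⟩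
    rw [Ep_prod h (hv i).cp.sq hs.le, ← integral_const_mul, ← integral_div,
      ← integral_add hi1 (hi2.div_const s)]
    exact integral_mono (hi1.add (hi2.div_const s)) ((hi3.integrable h).const_mul _) hpt
  set X := ∑ i, ∫ x, R i x ^ 2 ∂law ρ with hX
  set Y := ∑ i, ∫ x, gradSq (R i) x ∂law ρ with hY
  have hXY : X + Y / s ≤ s ^ 2 * Ep ρ s ((sqF ρ f).val s) := by
    rw [hX, hY, Finset.sum_div, ← Finset.sum_add_distrib]
    refine (Finset.sum_le_sum fun i _ => hsum i).trans_eq ?_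
    rw [← Finset.mul_sum, ← Ep_sum' h hs.le Finset.univ fun i _ => (hv i).cp.sq]
    exact congrArg _ (congrArg _ (funext fun θ => (sqF_val s θ).symm))
  have hXK : X - e ≤ K * Y := by
    have h2 : X - s ^ 2 * ∑ i, Ep ρ s ((vF ρ f i).val s) ^ 2 ≤ K * Y := by
      rw [hX, hY, Finset.mul_sum, Finset.mul_sum, ← Finset.sum_sub_distrib]
      refine Finset.sum_le_sum fun i _ => ?_
      have h3 := hP (R i) (hRc i)
      rw [covc_eq h (hRc i).1.continuous.measurable (hRc i).1.continuous.measurable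
        (hRc i).2.1 (hRc i).2.1, hRmean, energy] at h3
      simp only [← sq, mul_pow] at h3
      exact h3
    linarith
  have h4 := mul_le_mul_of_nonneg_left hXK (show 0 ≤ 1 / (s * K) by positivity)
  rw [show 1 / (s * K) * (K * Y) = Y / s by field_simp, mul_sub, one_div_mul_eq_div,
    one_div_mul_eq_div] at h4
  have h5 : (1 + 1 / (s * K)) * ((Ep ρ s fun θ => mg ρ f s θ * mg ρ f s θ) ^ 2 / K)
      ≤ (1 + 1 / (s * K)) * X :=
    mul_le_mul_of_nonneg_left ((div_le_iff₀ hK).2 (by linarith)) (by positivity)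
  refine h5.trans ?_
  rw [add_mul, one_mul, one_div_mul_eq_div]
  linarith

/-- The inequality satisfied by a function of unit variance at the channel time `1 / w`. -/
theorem key (h : Ulc t ρ) (hc : 0 < c) (hcov : CovLe ρ c) (hK : 0 < K)
    (hP : ∀ g, C1P g → covc ρ g g ≤ K * energy (law ρ) g) (hf : C1P f)
    (h0 : ∫ x, f x ∂law ρ = 0) (h1 : ∫ x, f x ^ 2 ∂law ρ = 1) {w z₀ : ℝ}
    (hz : z₀ = energy (law ρ) f) (hw : 0 < w) (hwz : w * z₀ ≤ 1) :
    (1 + w / K) * (1 - w * z₀) ^ 2 / K ≤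
      z₀ - w * (((1 - w * z₀) / (K + w)
            - (Real.sqrt c / K + Real.sqrt (((K + w) * z₀ - 1 + w * z₀) / K)) ^ 2) / (K + w)
          + 2 * t * ((1 - w * z₀) / (K + w)) / (1 + t * w))
        + w * (Real.sqrt c / K + Real.sqrt (((K + w) * z₀ - 1 + w * z₀) / K)) ^ 2 / K := by
  have hz0 : 0 ≤ z₀ := hz ▸ integral_nonneg (gradSq_nonneg f)
  set δ := (K + w) * z₀ - 1 + w * z₀ with hδ
  set ε := (Real.sqrt c / K + Real.sqrt (δ / K)) ^ 2 with hε
  set zm := (1 - w * z₀) / (K + w) with hzm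
  have hzm0 : 0 ≤ zm := div_nonneg (by linarith) (by positivity)
  have hfacts : ∀ {σ : ℝ}, 1 / w ≤ σ → 0 < σ ∧ 1 / σ ≤ w ∧
      zm ≤ σ ^ 2 * Ep ρ σ ((sqF ρ f).val σ) ∧
      σ ^ 2 * ∑ i, Ep ρ σ ((vF ρ f i).val σ) ^ 2 ≤ ε := fun {σ} hσw => by
    have hσ : 0 < σ := lt_of_lt_of_le (by positivity) hσw
    have hwσ : 1 / σ ≤ w := by rwa [one_div_le hσ hw]
    have h4 : z₀ / σ ≤ w * z₀ := by
      rw [div_eq_mul_inv, mul_comm w, ← one_div]
      exact mul_le_mul_of_nonneg_left hwσ hz0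
    have h5 : (K * σ ^ 2 + σ) * Ep ρ σ ((sqF ρ f).val σ)
        = (K + 1 / σ) * (σ ^ 2 * Ep ρ σ ((sqF ρ f).val σ)) := by field_simp
    have hB := var_ge h hf hσ h1
    rw [← hz] at hB
    have hA := grad_le h hf hσ
    rw [← hz] at hA
    have hE0 : 0 ≤ σ ^ 2 * Ep ρ σ ((sqF ρ f).val σ) :=
      mul_nonneg (sq_nonneg σ) (Ep_nonneg ρ σ fun θ => by rw [sqF_val]; positivity)
    refine ⟨hσ, hwσ, ?_, ?_⟩
    · rw [hzm, div_le_iff₀ (by positivity)]
      have h3 := hB.trans (chan_le h hK.le hP hf hσ h0)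
      have h6 := mul_le_mul_of_nonneg_left (show K + 1 / σ ≤ K + w by linarith) hE0
      linarith
    · refine mean_dot_le h hc hcov hK hP hf h0 h1 hσ ?_
      have h6 := mul_le_mul (show K + 1 / σ ≤ K + w by linarith) hA hE0 (by positivity)
      rw [hδ]
      linarith
  set Cb := (zm - ε) / (K + w) + 2 * t * zm / (1 + t * w) with hCb
  set G := fun r : ℝ => r ^ 2 * Ep ρ r ((sqF ρ f).val r) + Cb / r with hG
  have hd : ∀ r, 1 / w ≤ r → ∃ d, HasDerivAt G d r ∧ 0 ≤ d := fun r hr => by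
    obtain ⟨hr0, hwr, hlow, he⟩ := hfacts hr
    obtain ⟨G', hG', hle⟩ := deriv_ge h hK hP hf hr0 hwr hzm0 hlow he
    refine ⟨G' + Cb * (-(r ^ 2)⁻¹), hG'.add (((hasDerivAt_inv hr0.ne').const_mul
      Cb).congr_of_eventuallyEq (Eventually.of_forall fun y => div_eq_mul_inv Cb y)), ?_⟩
    rw [← hCb, div_eq_mul_inv] at hle
    linarith
  choose! d hd1 hd2 using hd
  have hmono : MonotoneOn G (Set.Ici (1 / w)) := by
    refine monotoneOn_of_hasDerivWithinAt_nonneg (f' := d) (convex_Ici _)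
      (fun r hr => (hd1 r hr).continuousAt.continuousWithinAt) (fun r hr => ?_) fun r hr => ?_
    · rw [interior_Ici] at hr ⊢; exact (hd1 r (le_of_lt hr)).hasDerivWithinAt
    · rw [interior_Ici] at hr; exact hd2 r (le_of_lt hr)
  have hint : (1 / w) ^ 2 * Ep ρ (1 / w) ((sqF ρ f).val (1 / w)) + Cb * w ≤ z₀ := by
    have hlim : Tendsto (fun r : ℝ => z₀ + Cb / r) atTop (𝓝 z₀) := by
      simpa using tendsto_const_nhds.add (tendsto_id.const_div_atTop Cb)
    refine le_of_tendsto_of_tendsto tendsto_const_nhds hlim ?_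
    filter_upwards [eventually_ge_atTop (1 / w)] with r hr
    have h2 := hmono Set.self_mem_Ici hr hr
    simp only [hG, div_div_eq_mul_div, div_one] at h2
    have h3 := grad_le h hf (hfacts hr).1
    rw [← hz] at h3
    linarith
  obtain ⟨hs, -, -, he⟩ := hfacts (σ := 1 / w) le_rfl
  have htest := test_le h hK hP hf hs h0 h1 he
  have hU1 := var_ge h hf hs h1
  rw [← hz, show z₀ / (1 / w) = w * z₀ by field_simp] at hU1
  have hsq : (1 + w / K) * ((1 - w * z₀) ^ 2 / K)
      ≤ (1 + w / K) * ((Ep ρ (1 / w) fun θ => mg ρ f (1 / w) θ * mg ρ f (1 / w) θ) ^ 2 / K) :=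
    mul_le_mul_of_nonneg_left
      (div_le_div_of_nonneg_right (pow_le_pow_left₀ (by linarith) hU1 2) hK.le) (by positivity)
  rw [show 1 / (1 / w * K) = w / K by field_simp,
    show ε / (1 / w * K) = w * ε / K by field_simp] at htest
  calc (1 + w / K) * (1 - w * z₀) ^ 2 / K = (1 + w / K) * ((1 - w * z₀) ^ 2 / K) := by ring
    _ ≤ _ := hsq.trans htest
    _ ≤ _ := by linarith

/-- The spectral gap of a `t`-uniformly log-concave measure with covariance at most `c`. -/
theorem lichnerowicz {n : ℕ} {t c : ℝ} {ρ : (Fin n → ℝ) → ℝ} (h : Ulc t ρ) (hc : 0 < c)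
    (hcov : CovLe ρ c) {f : (Fin n → ℝ) → ℝ} (hf : C1P f) :
    covc ρ f f ≤ Real.sqrt (c / t) * energy (law ρ) f := by
  have ht : 0 < t := h.pos
  have := isProb h
  set S : Set ℝ := insert 0
    {r | ∃ g, C1P g ∧ 0 < energy (law ρ) g ∧ r = covc ρ g g / energy (law ρ) g} with hS
  have hbd : ∀ r ∈ S, r ≤ 1 / t := by
    rintro r (rfl | ⟨g, hg, he, rfl⟩)
    · positivity
    · exact (div_le_iff₀ he).2 (poincare h hg)
  have hne : S.Nonempty := Set.insert_nonempty _ _
  have hbdd : BddAbove S := ⟨1 / t, hbd⟩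
  set K := sSup S with hKd
  have hK0 : 0 ≤ K := le_csSup hbdd (Set.mem_insert _ _)
  have hP : ∀ g, C1P g → covc ρ g g ≤ K * energy (law ρ) g := fun g hg => by
    have he0 : 0 ≤ energy (law ρ) g := integral_nonneg (gradSq_nonneg g)
    rcases he0.eq_or_lt with he | he
    · have := poincare h hg
      rw [← he, mul_zero] at this ⊢
      exact this
    · exact (div_le_iff₀ he).1 (le_csSup hbdd (Set.mem_insert_of_mem _ ⟨g, hg, he, rfl⟩))
  suffices hKle : K ≤ Real.sqrt (c / t) from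
    (hP f hf).trans (mul_le_mul_of_nonneg_right hKle (integral_nonneg (gradSq_nonneg f)))
  rcases hK0.eq_or_lt with hK | hK
  · rw [← hK]; positivity
  have hext : ∀ δ : ℝ, 0 < δ → δ < K → ∃ g, C1P g ∧ ∫ x, g x ∂law ρ = 0 ∧
      ∫ x, g x ^ 2 ∂law ρ = 1 ∧ 1 / K ≤ energy (law ρ) g ∧ energy (law ρ) g ≤ 1 / (K - δ) := by
    intro δ hδ hδK
    obtain ⟨r, hr, hlt⟩ := exists_lt_of_lt_csSup hne (show K - δ < K by linarith)
    rcases hr with rfl | ⟨g, hg, he, rfl⟩
    · linarith
    have hv : 0 < covc ρ g g := by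
      rw [lt_div_iff₀ he] at hlt
      linarith [mul_pos (show 0 < K - δ by linarith) he]
    set m := ∫ x, g x ∂law ρ with hm
    set a := (Real.sqrt (covc ρ g g))⁻¹ with ha
    set g' : (Fin n → ℝ) → ℝ := fun x => a * (g x + -m) with hg'
    have hg'c : C1P g' := c1p_smul a (c1p_add hg (c1p_const _))
    have e0 : ∫ x, g' x ∂law ρ = 0 := by
      simp only [hg']
      rw [integral_const_mul, integral_add (hg.cp.integrable h) (integrable_const _)]
      simp [hm]
    have e1 : ∫ x, g' x ^ 2 ∂law ρ = 1 := by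
      simp only [hg', mul_pow]
      rw [integral_const_mul, ha, inv_pow, Real.sq_sqrt hv.le,
        inv_mul_eq_div, div_eq_one_iff_eq hv.ne', covc]
      simp only [← hm, ← sub_eq_add_neg, sq]
    have ee : energy (law ρ) g' = energy (law ρ) g / covc ρ g g := by
      have e : gradSq g' = fun x => a ^ 2 * gradSq g x := funext fun x => by
        simp only [hg', gradSq, pd_smul a (c1p_add hg (c1p_const _)),
          pd_add hg (c1p_const _), pd_const, add_zero, Finset.mul_sum, mul_pow]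
      rw [energy, e, integral_const_mul, ha, inv_pow, Real.sq_sqrt hv.le, inv_mul_eq_div, energy]
    refine ⟨g', hg'c, e0, e1, ?_, ?_⟩
    · rw [ee, div_le_div_iff₀ hK hv, one_mul, mul_comm]; exact hP g hg
    · rw [ee, div_le_div_iff₀ hv (by linarith), one_mul]
      rw [lt_div_iff₀ he] at hlt
      linarith
  set G : ℝ → ℝ → ℝ := fun w z =>
    (1 + w / K) * (1 - w * z) ^ 2 / K - (z - w * (((1 - w * z) / (K + w)
            - (Real.sqrt c / K + Real.sqrt (((K + w) * z - 1 + w * z) / K)) ^ 2) / (K + w)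
          + 2 * t * ((1 - w * z) / (K + w)) / (1 + t * w))
        + w * (Real.sqrt c / K + Real.sqrt (((K + w) * z - 1 + w * z) / K)) ^ 2 / K) with hG
  have hG0 : ∀ w, 0 < w → w ≤ K / 2 → G w (1 / K) ≤ 0 := by
    intro w hw hwK
    by_contra hpos
    push Not at hpos
    have hc1 : ContinuousAt (G w) (1 / K) := by
      simp only [hG]; fun_prop
    obtain ⟨η, hη, hball⟩ := Metric.eventually_nhds_iff.1 (hc1.eventually_const_lt hpos)
    have hlim : Tendsto (fun δ : ℝ => 1 / (K - δ)) (𝓝[>] 0) (𝓝 (1 / K)) := by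
      refine tendsto_nhdsWithin_of_tendsto_nhds ?_
      simpa using (tendsto_const_nhds.sub tendsto_id).inv₀ (show K - 0 ≠ 0 by simpa using hK.ne')
    have e1 : ∀ᶠ δ in 𝓝[>] (0 : ℝ), dist (1 / (K - δ)) (1 / K) < η :=
      hlim.eventually (Metric.ball_mem_nhds _ hη)
    have e2 : ∀ᶠ δ in 𝓝[>] (0 : ℝ), δ ∈ Set.Ioo 0 (K / 2) := Ioo_mem_nhdsGT (by linarith)
    obtain ⟨δ, hδd, hδ⟩ := (e1.and e2).exists
    obtain ⟨g, hg, g0, g1, hlo, hhi⟩ := hext δ hδ.1 (by linarith [hδ.2])
    have hd : dist (energy (law ρ) g) (1 / K) < η := by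
      refine lt_of_le_of_lt ?_ hδd
      rw [Real.dist_eq, Real.dist_eq, abs_of_nonneg (by linarith),
        abs_of_nonneg (by linarith [hlo.trans hhi])]
      linarith
    have hwz : w * energy (law ρ) g ≤ 1 := by
      refine (mul_le_mul_of_nonneg_left hhi hw.le).trans ?_
      rw [mul_one_div, div_le_one (by linarith [hδ.2])]
      linarith [hδ.2]
    have h2 := key h hc hcov hK hP hg g0 g1 rfl hw hwz
    have h3 := hball hd
    simp only [hG] at h3
    linarith
  set F : ℝ → ℝ := fun w => (-(1 / K) - w / K ^ 2 + w ^ 2 / K ^ 3) / K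
      + (((1 - w * (1 / K)) / (K + w)
            - (Real.sqrt c / K + Real.sqrt (((K + w) * (1 / K) - 1 + w * (1 / K)) / K)) ^ 2)
              / (K + w)
          + 2 * t * ((1 - w * (1 / K)) / (K + w)) / (1 + t * w))
      - (Real.sqrt c / K + Real.sqrt (((K + w) * (1 / K) - 1 + w * (1 / K)) / K)) ^ 2 / K with hF
  have hFle : ∀ w, 0 < w → w ≤ K / 2 → F w ≤ 0 := fun w hw hwK => by
    have h2 := hG0 w hw hwK
    have e : G w (1 / K) = w * F w := by
      simp only [hG, hF]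
      field_simp
      ring
    rw [e] at h2
    exact nonpos_of_mul_nonpos_right h2 hw
  have hcont : ContinuousAt F 0 := by
    simp only [hF]
    fun_prop (disch := simp [hK.ne'])
  have hF0 : F 0 ≤ 0 := by
    refine le_of_tendsto (hcont.tendsto.mono_left nhdsWithin_le_nhds : Tendsto F (𝓝[>] 0) _) ?_
    filter_upwards [Ioo_mem_nhdsGT (show (0 : ℝ) < K / 2 by linarith)] with w hw
    exact hFle w hw.1 hw.2.le
  have e : F 0 = 2 * (t - c / K ^ 2) / K := by
    simp only [hF]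
    simp only [add_zero, mul_zero, sub_zero, zero_div, zero_pow two_ne_zero, mul_one_div,
      div_self hK.ne', sub_self, Real.sqrt_zero, div_pow, Real.sq_sqrt hc.le]
    field_simp
    ring
  rw [e] at hF0
  refine Real.le_sqrt_of_sq_le ?_
  rw [le_div_iff₀ ht]
  have h2 : t - c / K ^ 2 ≤ 0 := by
    by_contra h3
    push Not at h3
    have : 0 < 2 * (t - c / K ^ 2) / K := by positivity
    linarith
  rw [sub_nonpos, le_div_iff₀ (by positivity)] at h2
  linarith

end

end Vale.Agent.P245.General
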