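import Vale.Agent.P245.General.Poincare

/-!
# P245: the logarithmic Sobolev constant is at most `n^(1/3)` up to logarithms
-/

open MeasureTheory Filter Topology
open scoped ENNReal

namespace Vale.Agent.P245.General

noncomputable section

variable {n : ℕ} {ρ : (Fin n → ℝ) → ℝ}

/-! ### The inequality at the normalised scale -/

theorem ell_pow_le {n : ℕ} (hn : 1 ≤ n) :
    (1 + Real.log n) ^ 5 ≤ 1000 * ((n : ℝ) ^ (1 / 3 : ℝ) * (1 + Real.log n) ^ 2) := by
  have h1 : (1 : ℝ) ≤ n := by exact_mod_cast hn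
  have hl : 0 ≤ 1 + Real.log n := by linarith [Real.log_nonneg h1]
  have hb : 1 + Real.log n ≤ 10 * (n : ℝ) ^ (1 / 9 : ℝ) := by
    have := Real.log_le_rpow_div (x := (n : ℝ)) (by linarith) (show (0 : ℝ) < 1 / 9 by norm_num)
    have := Real.one_le_rpow h1 (show (0 : ℝ) ≤ 1 / 9 by norm_num)
    linarith
  have h3 := pow_le_pow_left₀ hl hb 3
  rw [mul_pow, ← Real.rpow_natCast ((n : ℝ) ^ (1 / 9 : ℝ)) 3, ← Real.rpow_mul (by linarith)] at h3
  norm_num at h3
  have h4 := mul_le_mul_of_nonneg_right h3 (sq_nonneg (1 + Real.log n))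
  linarith

theorem lsi_subG : ∃ C : ℝ, 0 < C ∧ ∀ n : ℕ, 1 ≤ n → ∀ (η : ℝ) (ρ : (Fin n → ℝ) → ℝ),
    Ulc η ρ → center ρ = 0 → SubG ρ → ∀ f, Tame f →
      ent (law ρ) (fun x => f x ^ 2)
        ≤ C * ((n : ℝ) ^ (1 / 3 : ℝ) * (1 + Real.log n) ^ 2) * energy (law ρ) f := by
  obtain ⟨D, hD1, hD⟩ := defective
  obtain ⟨P, hP1, hP⟩ := poincare_subG
  refine ⟨9 / 4 * (D * D + D * P) + 1000 * ((9 / 4 + 70) * P), by positivity,
    fun n hn η ρ h hc hs f hf => ?_⟩
  have := isProb h
  set ℓ := 1 + Real.log n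
  have h1 : (1 : ℝ) ≤ n := by exact_mod_cast hn
  have hℓ : 1 ≤ ℓ := le_add_of_nonneg_right (Real.log_nonneg h1)
  set A := (n : ℝ) ^ (1 / 3 : ℝ) * ℓ ^ 2
  have hA5 : ℓ ^ 5 ≤ 1000 * A := ell_pow_le hn
  have hn0 : (0 : ℝ) ≤ n := n.cast_nonneg
  set Q := ((n : ℝ) * ℓ ^ 5) ^ (1 / 3 : ℝ)
  have hQ1 : 1 ≤ Q := Real.one_le_rpow (one_le_mul_of_one_le_of_one_le h1 (one_le_pow₀ hℓ))
    (by norm_num)
  have hQ3 : Q ^ 3 = n * ℓ ^ 5 := by
    rw [← Real.rpow_natCast Q 3, ← Real.rpow_mul (by positivity)]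
    norm_num
  have hQA : Q ≤ A := by
    refine le_of_pow_le_pow_left₀ three_ne_zero (by positivity) ?_
    rw [hQ3, mul_pow, ← Real.rpow_natCast ((n : ℝ) ^ (1 / 3 : ℝ)) 3, ← Real.rpow_mul hn0,
      ← pow_mul]
    norm_num
    exact mul_le_mul_of_nonneg_left (pow_le_pow_right₀ hℓ (by norm_num)) hn0
  set T := 1 / (D * Q) with hTdef
  have hD0 : 0 < D := by linarith
  have hT : 0 < T := by positivity
  have hT1 : T ≤ 1 / D :=
    one_div_le_one_div_of_le hD0 (le_mul_of_one_le_right hD0.le hQ1)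
  have hφ := hf.sub_const (∫ y, f y ∂law ρ)
  set m := ∫ y, f y ∂law ρ
  set φ := fun x => f x - m with hφdef
  have hE : energy (law ρ) φ = energy (law ρ) f := by
    simp only [energy, gradSq, pd, hφdef, fderiv_sub_const]
  set E := energy (law ρ) f
  have hE0 : 0 ≤ E := integral_nonneg (gradSq_nonneg f)
  set Var := ∫ x, φ x ^ 2 ∂law ρ
  have hVar : Var ≤ P * ℓ ^ 5 * E := by
    refine le_trans (le_of_eq ?_) (hP n η ρ h hc hs f hf)
    simp only [covc, Var, hφdef, m, sq]
  have hdef := hD n η ρ h hc hs T hT hT1 φ hφ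
  rw [hE] at hdef
  have hr := rothaus (μ := law ρ) hf
  have h5 := mul_le_mul_of_nonneg_left hVar
    (show 0 ≤ 9 / 4 * (D * (T ^ 2 * n + T)) + 70 by positivity)
  refine hr.trans ?_
  have e1 : D / T = D * D * Q := by rw [hTdef]; field_simp
  have e2 : D * (T ^ 2 * n) * (P * ℓ ^ 5) ≤ D * P * Q := by
    have : T ^ 2 * (n * ℓ ^ 5) ≤ Q := by
      rw [← hQ3, hTdef, div_pow, one_pow, mul_pow, div_mul_eq_mul_div, one_mul,
        div_le_iff₀ (by positivity)]
      nlinarith [one_le_pow₀ (n := 2) hD1, pow_nonneg (zero_le_one.trans hQ1) 3]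
    have := mul_le_mul_of_nonneg_left this (show 0 ≤ D * P by positivity)
    linarith
  have e3 : (D * T + 70 * 4 / 9) * (P * ℓ ^ 5) ≤ (1 + 70 * 4 / 9) * (P * (1000 * A)) := by
    have : D * T ≤ 1 := by
      have := (le_div_iff₀ hD0).1 hT1
      linarith
    exact mul_le_mul (by linarith) (mul_le_mul_of_nonneg_left hA5 (by linarith)) (by positivity)
      (by norm_num)
  have e4 : 9 / 4 * (D / T) + (9 / 4 * (D * (T ^ 2 * n + T)) + 70) * (P * ℓ ^ 5)
      ≤ (9 / 4 * (D * D + D * P) + 1000 * ((9 / 4 + 70) * P)) * A := by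
    have := mul_le_mul_of_nonneg_left hQA (show 0 ≤ D * D + D * P by positivity)
    rw [e1]
    linarith
  have := mul_le_mul_of_nonneg_right e4 hE0
  linarith

/-! ### The uniformly log-concave approximation -/

/-- Multiplying a log-concave density by a Gaussian makes it uniformly log-concave. -/
theorem ulc_tilt (hm : Measurable ρ) (h0 : ∀ x, 0 ≤ ρ x)
    (h1 : ∫⁻ x, ENNReal.ofReal (ρ x) = 1)
    (hlc : ∀ x y (s t : ℝ), 0 < s → 0 < t → s + t = 1 → ρ x ^ s * ρ y ^ t ≤ ρ (s • x + t • y))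
    {η : ℝ} (hη : 0 < η) (hZ : 0 < part ρ η 0) : Ulc η (post ρ η 0) where
  pos := hη
  meas := (hm.mul (continuous_wgt η 0).measurable).div_const _
  nonneg x := div_nonneg (mul_nonneg (h0 x) (Real.exp_pos _).le) hZ.le
  mass := by
    have hP : IsProbabilityMeasure (law ρ) :=
      ⟨by rw [law, withDensity_apply _ MeasurableSet.univ, setLIntegral_univ, h1]⟩
    have hi : Integrable (fun x => wgt η 0 x / part ρ η 0) (law ρ) :=
      (Integrable.of_bound (continuous_wgt η 0).aestronglyMeasurable 1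
        (Eventually.of_forall fun x => by
          rw [Real.norm_eq_abs, wgt, abs_of_pos (Real.exp_pos _), Real.exp_le_one_iff]
          simp only [dotp, Pi.zero_apply, zero_mul, Finset.sum_const_zero, zero_sub]
          linarith [mul_nonneg hη.le (nsq_nonneg x)])).div_const _
    have e : (fun x => ENNReal.ofReal (post ρ η 0 x))
        = fun x => ENNReal.ofReal (ρ x) * ENNReal.ofReal (wgt η 0 x / part ρ η 0) :=
      funext fun x => by rw [← ENNReal.ofReal_mul (h0 x), post, mul_div_assoc]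
    rw [e, ← lintegral_law hm ((continuous_wgt η 0).measurable.div_const _).ennreal_ofReal,
      ← ofReal_integral_eq_lintegral_ofReal hi
        (Eventually.of_forall fun x => div_nonneg (Real.exp_pos _).le hZ.le),
      integral_div, show (∫ x, wgt η 0 x ∂law ρ) = part ρ η 0 by simp [part, num],
      div_self hZ.ne', ENNReal.ofReal_one]
  conc x y a b ha hb hab := by
    simp only [post]
    have hw : ∀ z : Fin n → ℝ, 0 ≤ wgt η 0 z := fun z => (Real.exp_pos _).le
    rw [Real.div_rpow (mul_nonneg (h0 x) (hw x)) hZ.le,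
      Real.div_rpow (mul_nonneg (h0 y) (hw y)) hZ.le, div_mul_div_comm,
      ← Real.rpow_add hZ, hab, Real.rpow_one, div_mul_eq_mul_div]
    refine div_le_div_of_nonneg_right ?_ hZ.le
    rw [Real.mul_rpow (h0 x) (hw x), Real.mul_rpow (h0 y) (hw y)]
    have key : wgt η 0 x ^ a * wgt η 0 y ^ b * Real.exp (η * a * b / 2 * nsq (x - y))
        = wgt η 0 (a • x + b • y) := by
      simp only [wgt, ← Real.exp_mul, ← Real.exp_add, dotp_combo]
      congr 1
      linear_combination (-(η / 2)) * nsq_combo x y a b hab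
    calc ρ x ^ a * wgt η 0 x ^ a * (ρ y ^ b * wgt η 0 y ^ b)
          * Real.exp (η * a * b / 2 * nsq (x - y))
        = ρ x ^ a * ρ y ^ b * (wgt η 0 x ^ a * wgt η 0 y ^ b
          * Real.exp (η * a * b / 2 * nsq (x - y))) := by ring
      _ = ρ x ^ a * ρ y ^ b * wgt η 0 (a • x + b • y) := by rw [key]
      _ ≤ _ := mul_le_mul_of_nonneg_right (hlc x y a b ha hb hab) (hw _)

/-- The density of `(X - b) / r` when `X` has density `σ`. -/
def std (σ : (Fin n → ℝ) → ℝ) (b : Fin n → ℝ) (r : ℝ) : (Fin n → ℝ) → ℝ :=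
  fun y => r ^ n * σ (b + r • y)

theorem ulc_std {η : ℝ} {σ : (Fin n → ℝ) → ℝ} (h : Ulc η σ) (b : Fin n → ℝ) {r : ℝ} (hr : 0 < r)
    (hmass : ∫⁻ y, ENNReal.ofReal (std σ b r y) = 1) : Ulc (η * r ^ 2) (std σ b r) where
  pos := by have := h.pos; positivity
  meas := (h.meas.comp (measurable_id.const_smul r |>.const_add b)).const_mul _
  nonneg y := mul_nonneg (pow_nonneg hr.le n) (h.nonneg _)
  mass := hmass
  conc x y a c ha hc hac := by
    simp only [std]
    have h1 := h.conc (b + r • x) (b + r • y) a c ha hc hac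
    have e1 : a • (b + r • x) + c • (b + r • y) = b + r • (a • x + c • y) := by
      funext i
      simp only [Pi.add_apply, Pi.smul_apply, smul_eq_mul]
      linear_combination (b i) * hac
    have e2 : nsq ((b + r • x) - (b + r • y)) = r ^ 2 * nsq (x - y) := by
      simp only [nsq, Pi.add_apply, Pi.sub_apply, Pi.smul_apply, smul_eq_mul, Finset.mul_sum]
      exact Finset.sum_congr rfl fun i _ => by ring
    rw [e1, e2] at h1
    have hrn := pow_pos hr n
    rw [Real.mul_rpow hrn.le (h.nonneg _), Real.mul_rpow hrn.le (h.nonneg _),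
      mul_mul_mul_comm, ← Real.rpow_add hrn, hac, Real.rpow_one, mul_assoc]
    refine mul_le_mul_of_nonneg_left (le_trans (le_of_eq ?_) h1) hrn.le
    ring_nf

theorem lintegral_std {σ : (Fin n → ℝ) → ℝ} (hm : Measurable σ) (b : Fin n → ℝ) {r : ℝ}
    (hr : 0 < r) {u : (Fin n → ℝ) → ℝ≥0∞} (hu : Measurable u) :
    ∫⁻ y, ENNReal.ofReal (std σ b r y) * u y
      = ∫⁻ x, ENNReal.ofReal (σ x) * u (r⁻¹ • (x - b)) := by
  set H := fun x => ENNReal.ofReal (σ (b + x)) * u (r⁻¹ • x)
  have hH : Measurable H :=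
    (hm.comp (measurable_id.const_add b)).ennreal_ofReal.mul (hu.comp (by fun_prop))
  have h1 : ∫⁻ x, H x = ∫⁻ x, ENNReal.ofReal (σ x) * u (r⁻¹ • (x - b)) := by
    rw [← lintegral_add_left_eq_self (fun x => ENNReal.ofReal (σ x) * u (r⁻¹ • (x - b))) b]
    simp only [H, add_sub_cancel_left]
  rw [← h1]
  have h2 := lintegral_map (μ := (volume : Measure (Fin n → ℝ))) hH (g := fun x => r • x) (by fun_prop)
  rw [Measure.map_addHaar_smul volume hr.ne', lintegral_smul_measure, Module.finrank_pi,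
    Fintype.card_fin] at h2
  have e : ∀ y, ENNReal.ofReal (std σ b r y) * u y = ENNReal.ofReal (r ^ n) * H (r • y) := fun y => by
    simp only [std, H, inv_smul_smul₀ hr.ne', ENNReal.ofReal_mul (pow_nonneg hr.le n), mul_assoc]
  simp only [e] at h2 ⊢
  rw [lintegral_const_mul' _ _ ENNReal.ofReal_ne_top, ← h2, smul_eq_mul, ← mul_assoc,
    ← ENNReal.ofReal_mul (pow_nonneg hr.le n), abs_inv, abs_of_pos (pow_pos hr n),
    mul_inv_cancel₀ (pow_ne_zero n hr.ne'), ENNReal.ofReal_one, one_mul]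

theorem law_std {σ : (Fin n → ℝ) → ℝ} (hm : Measurable σ) (b : Fin n → ℝ) {r : ℝ} (hr : 0 < r) :
    law (std σ b r) = Measure.map (fun x => r⁻¹ • (x - b)) (law σ) := by
  have hms : Measurable (std σ b r) :=
    (hm.comp (measurable_id.const_smul r |>.const_add b)).const_mul _
  have hT : Measurable fun x : Fin n → ℝ => r⁻¹ • (x - b) := by fun_prop
  refine Measure.ext_of_lintegral _ fun u hu => ?_
  rw [lintegral_map hu hT, lintegral_law hms hu, lintegral_law hm (u := fun x => u (r⁻¹ • (x - b)))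
    (hu.comp hT), lintegral_std hm b hr hu]

theorem tame_comp_affine {f : (Fin n → ℝ) → ℝ} (hf : Tame f) (b : Fin n → ℝ) {r : ℝ} (hr : r ≠ 0) :
    Tame fun y => f (b + r • y) := by
  obtain ⟨c, hc⟩ := hf.const_outside
  refine ⟨hf.smooth.comp (contDiff_const.add (contDiff_id.const_smul r)), c, ?_⟩
  exact hc.comp_homeomorph ((Homeomorph.smulOfNeZero r hr).trans (Homeomorph.addLeft b))

theorem gradSq_comp_affine {f : (Fin n → ℝ) → ℝ} (hf : Differentiable ℝ f) (b : Fin n → ℝ) (r : ℝ)
    (y : Fin n → ℝ) : gradSq (fun y => f (b + r • y)) y = r ^ 2 * gradSq f (b + r • y) := by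
  have hd : HasFDerivAt (fun y : Fin n → ℝ => b + r • y)
      (r • ContinuousLinearMap.id ℝ (Fin n → ℝ)) y := ((hasFDerivAt_id y).const_smul r).const_add b
  have e : fderiv ℝ (fun y => f (b + r • y)) y
      = (fderiv ℝ f (b + r • y)).comp (r • ContinuousLinearMap.id ℝ (Fin n → ℝ)) :=
    ((hf _).hasFDerivAt.comp y hd).fderiv
  simp only [gradSq, pd, e, Finset.mul_sum]
  refine Finset.sum_congr rfl fun i _ => ?_
  simp [mul_pow]

theorem exp_sq_shift {a : ℝ} (ha : 0 < a) (p q : ℝ) :
    Real.exp ((p - q) ^ 2 / (2 * a ^ 2)) ≤ Real.exp (q ^ 2 / a ^ 2) * Real.exp (p ^ 2 / a ^ 2) := by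
  rw [← Real.exp_add, Real.exp_le_exp, ← add_div, div_le_div_iff₀ (by positivity) (by positivity)]
  nlinarith [mul_nonneg (sq_nonneg (p + q)) (sq_nonneg a)]

theorem lsi_subgaussian : ∃ C : ℝ, 0 < C ∧ ∀ (n : ℕ) (ρ : (Fin n → ℝ) → ℝ),
    Measurable ρ → (∀ x, 0 ≤ ρ x) → ∫⁻ x, ENNReal.ofReal (ρ x) = 1 →
    (∀ x y (s t : ℝ), 0 < s → 0 < t → s + t = 1 → ρ x ^ s * ρ y ^ t ≤ ρ (s • x + t • y)) →
    (∀ i, ∫ x, x i ∂law ρ = 0) → ∀ a : ℝ, 0 < a → Subgauss (law ρ) a → ∀ f, Tame f →
      ent (law ρ) (fun x => f x ^ 2) ≤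
        C * a ^ 2 * (n : ℝ) ^ (1 / 3 : ℝ) * (1 + Real.log n) ^ 2 * energy (law ρ) f := by
  obtain ⟨C, hC, hlsi⟩ := lsi_subG
  refine ⟨2 * C, by positivity, fun n ρ hm h0 h1 hlc hmean a ha hs f hf => ?_⟩
  have hP : IsProbabilityMeasure (law ρ) :=
    ⟨by rw [law, withDensity_apply _ MeasurableSet.univ, setLIntegral_univ, h1]⟩
  rcases Nat.eq_zero_or_pos n with rfl | hn
  · have e : (fun x => f x ^ 2) = fun _ => f 0 ^ 2 := funext fun x => by rw [Subsingleton.elim x 0]
    rw [e, ent]
    simp only [integral_const, probReal_univ, one_smul, sub_self]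
    have : 0 ≤ energy (law ρ) f := integral_nonneg (gradSq_nonneg f)
    exact mul_nonneg (by positivity) this
  have hfd := hf.differentiable
  -- the weights tend to one
  set w := fun (k : ℕ) (x : Fin n → ℝ) => wgt (1 / ((k : ℝ) + 1)) 0 x
  have hw01 : ∀ k x, |w k x| ≤ 1 := fun k x => by
    simp only [w, wgt, abs_of_pos (Real.exp_pos _), Real.exp_le_one_iff, dotp, Pi.zero_apply,
      zero_mul, Finset.sum_const_zero, zero_sub]
    have := mul_nonneg (show 0 ≤ 1 / ((k : ℝ) + 1) / 2 by positivity) (nsq_nonneg x)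
    linarith
  have hw1 : ∀ x, Tendsto (fun k => w k x) atTop (𝓝 1) := fun x => by
    have h := (Real.continuous_exp.tendsto _).comp
      (((tendsto_one_div_add_atTop_nhds_zero_nat (𝕜 := ℝ)).div_const 2).mul_const (nsq x)).neg
    simp only [zero_div, zero_mul, neg_zero, Real.exp_zero] at h
    refine h.congr fun k => ?_
    simp [w, wgt, dotp]
  have hnum : ∀ {g : (Fin n → ℝ) → ℝ}, Integrable g (law ρ) →
      Tendsto (fun k : ℕ => num ρ g (1 / ((k : ℝ) + 1)) 0) atTop (𝓝 (∫ x, g x ∂law ρ)) := fun {g} hg =>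
    tendsto_integral_of_dominated_convergence (fun x => |g x|)
      (fun k => hg.aestronglyMeasurable.mul (continuous_wgt _ 0).aestronglyMeasurable) hg.abs
      (fun k => Eventually.of_forall fun x => by
        rw [Real.norm_eq_abs, abs_mul]
        exact mul_le_of_le_one_right (abs_nonneg _) (hw01 k x))
      (Eventually.of_forall fun x => by simpa [w] using (hw1 x).const_mul (g x))
  set Z := fun k : ℕ => part ρ (1 / ((k : ℝ) + 1)) 0
  have hZ : Tendsto Z atTop (𝓝 1) := by
    have := hnum (integrable_const (1 : ℝ))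
    simpa [Z, part] using this
  have hZ0 : ∀ k, 0 < Z k := fun k => by
    have hi : Integrable (fun x => Real.exp (dotp (0 : Fin n → ℝ) x - 1 / ((k : ℝ) + 1) / 2 * nsq x))
        (law ρ) := Integrable.of_bound (continuous_wgt _ 0).aestronglyMeasurable 1
      (Eventually.of_forall fun x => (Real.norm_eq_abs _).le.trans (hw01 k x))
    simp only [Z, part, num, one_mul]
    exact integral_exp_pos hi
  set σ := fun k : ℕ => post ρ (1 / ((k : ℝ) + 1)) 0
  have hσ : ∀ k : ℕ, Ulc (1 / ((k : ℝ) + 1)) (σ k) := fun k =>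
    ulc_tilt hm h0 h1 hlc (by positivity) (hZ0 k)
  have hσint : ∀ (k : ℕ) (g : (Fin n → ℝ) → ℝ),
      ∫ x, g x ∂law (σ k) = num ρ g (1 / ((k : ℝ) + 1)) 0 / Z k := fun k g => by
    rw [integral_law (hσ k).meas (hσ k).nonneg, show num ρ g _ 0 = _ from integral_law hm h0 _,
      ← integral_div]
    exact integral_congr_ae (Eventually.of_forall fun x => by simp only [σ, post, Z]; ring)
  have hlim : ∀ {g : (Fin n → ℝ) → ℝ}, Integrable g (law ρ) →
      Tendsto (fun k => ∫ x, g x ∂law (σ k)) atTop (𝓝 (∫ x, g x ∂law ρ)) := fun hg => by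
    simp only [hσint]
    simpa [Pi.div_def] using (hnum hg).div hZ one_ne_zero
  -- the coordinates are integrable
  have hcoord : ∀ i : Fin n, Integrable (fun x => x i) (law ρ) := fun i => by
    have hi := hs (Pi.single i 1) (by simp [Pi.single_apply])
    have he : ∀ x : Fin n → ℝ, ∑ j, (Pi.single i 1 : Fin n → ℝ) j * x j = x i := fun x => by
      simp [Pi.single_apply]
    simp only [he] at hi
    have iE : Integrable (fun x : Fin n → ℝ => Real.exp (x i ^ 2 / a ^ 2)) (law ρ) :=
      (lintegral_ofReal_ne_top_iff_integrable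
        (((measurable_pi_apply i).pow_const 2).div_const _).exp.aestronglyMeasurable
        (Eventually.of_forall fun x => (Real.exp_pos _).le)).1
        (hi.trans_lt ENNReal.ofNat_lt_top).ne
    refine (iE.const_mul a).mono' (measurable_pi_apply i).aestronglyMeasurable
      (Eventually.of_forall fun x => ?_)
    have h2 := Real.add_one_le_exp (x i ^ 2 / a ^ 2)
    have h3 : |x i| ≤ a * (x i ^ 2 / a ^ 2 + 1) := by
      rw [show a * (x i ^ 2 / a ^ 2 + 1) = (x i ^ 2 + a ^ 2) / a by field_simp, le_div_iff₀ ha]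
      nlinarith [sq_nonneg (|x i| - a), sq_abs (x i), abs_nonneg (x i)]
    rw [Real.norm_eq_abs]
    exact h3.trans (mul_le_mul_of_nonneg_left h2 ha.le)
  have hcen : ∀ i, Tendsto (fun k => center (σ k) i) atTop (𝓝 0) := fun i => by
    have := hlim (hcoord i)
    rwa [hmean i] at this
  have hgood : ∀ᶠ k in atTop, 2 / Z k * Real.exp (nsq (center (σ k)) / a ^ 2) ≤ 3 := by
    have hn' : Tendsto (fun k => nsq (center (σ k))) atTop (𝓝 0) := by
      simpa [nsq] using tendsto_finsetSum (Finset.univ : Finset (Fin n)) fun i _ => (hcen i).pow 2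
    have h2 := (((tendsto_const_nhds (x := (2 : ℝ))).div hZ one_ne_zero).mul
      ((Real.continuous_exp.tendsto _).comp (hn'.div_const (a ^ 2))))
    simp only [zero_div, Real.exp_zero, mul_one, div_one] at h2
    exact (h2.eventually_lt_const (by norm_num)).mono fun k hk => hk.le
  set B := C * ((n : ℝ) ^ (1 / 3 : ℝ) * (1 + Real.log n) ^ 2)
  have key : ∀ᶠ k in atTop,
      ent (law (σ k)) (fun x => f x ^ 2) ≤ B * (2 * a ^ 2) * energy (law (σ k)) f := by
    filter_upwards [hgood] with k hk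
    have hk' := hσ k
    have := isProb hk'
    set b := center (σ k) with hb
    set r := Real.sqrt 2 * a
    have hr : 0 < r := by positivity
    have hr2 : r ^ 2 = 2 * a ^ 2 := by rw [mul_pow, Real.sq_sqrt two_pos.le]
    have hT : Measurable fun x : Fin n → ℝ => r⁻¹ • (x - b) := by fun_prop
    have hlaw := law_std hk'.meas b hr
    have hg : Ulc (1 / ((k : ℝ) + 1) * r ^ 2) (std (σ k) b r) := by
      refine ulc_std hk' b hr ?_
      have h2 := lintegral_std hk'.meas b hr (u := fun _ => 1) measurable_const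
      simpa [hk'.mass] using h2
    have hc0 : center (std (σ k) b r) = 0 := funext fun i => by
      rw [center, hlaw, integral_map hT.aemeasurable (measurable_pi_apply i).aestronglyMeasurable]
      simp only [Pi.smul_apply, Pi.sub_apply, smul_eq_mul, Pi.zero_apply]
      rw [integral_const_mul, integral_sub
          (integrable_polyB hk' (measurable_pi_apply i) (polyB_coord i)) (integrable_const _),
        integral_const, probReal_univ, one_smul]
      simp [hb, center]
    have hsub : SubG (std (σ k) b r) := fun u hu => by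
      have hu' : ∑ i, u i ^ 2 = 1 := hu
      have hmd : Measurable fun y => ENNReal.ofReal (Real.exp (dotp u y ^ 2)) :=
        (((continuous_dotp u).measurable.pow_const 2).exp).ennreal_ofReal
      rw [hlaw, lintegral_map hmd hT, lintegral_law hk'.meas
        (u := fun x => ENNReal.ofReal (Real.exp (dotp u (r⁻¹ • (x - b)) ^ 2))) (hmd.comp hT)]
      set K := Real.exp (nsq b / a ^ 2) / Z k
      have hK : 0 ≤ K := div_nonneg (Real.exp_pos _).le (hZ0 k).le
      calc ∫⁻ x, ENNReal.ofReal (σ k x) *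
            ENNReal.ofReal (Real.exp (dotp u (r⁻¹ • (x - b)) ^ 2))
          ≤ ∫⁻ x, ENNReal.ofReal K * (ENNReal.ofReal (ρ x) *
              ENNReal.ofReal (Real.exp ((∑ i, u i * x i) ^ 2 / a ^ 2))) := by
            refine lintegral_mono fun x => ?_
            rw [← ENNReal.ofReal_mul (h0 x), ← ENNReal.ofReal_mul hK,
              ← ENNReal.ofReal_mul (hk'.nonneg x)]
            refine ENNReal.ofReal_le_ofReal ?_
            have e : dotp u (r⁻¹ • (x - b)) ^ 2 = (dotp u x - dotp u b) ^ 2 / (2 * a ^ 2) := by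
              rw [← hr2, ← div_pow, ← dotp_sub]
              congr 1
              simp only [dotp, Pi.smul_apply, smul_eq_mul, Finset.sum_div]
              exact Finset.sum_congr rfl fun i _ => by ring
            have hq : dotp u b ^ 2 ≤ nsq b := by
              have := Finset.sum_mul_sq_le_sq_mul_sq Finset.univ u b
              rwa [hu', one_mul] at this
            have hwle : w k x ≤ 1 := (le_abs_self _).trans (hw01 k x)
            have h2 : Real.exp (dotp u (r⁻¹ • (x - b)) ^ 2)
                ≤ Real.exp (nsq b / a ^ 2) * Real.exp (dotp u x ^ 2 / a ^ 2) := by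
              rw [e]
              refine (exp_sq_shift ha _ _).trans (mul_le_mul_of_nonneg_right ?_ (Real.exp_pos _).le)
              exact Real.exp_le_exp.2 (div_le_div_of_nonneg_right hq (by positivity))
            calc σ k x * Real.exp (dotp u (r⁻¹ • (x - b)) ^ 2)
                = ρ x / Z k * (w k x * Real.exp (dotp u (r⁻¹ • (x - b)) ^ 2)) := by
                  simp only [σ, post, Z, w]; ring
              _ ≤ ρ x / Z k * (1 * (Real.exp (nsq b / a ^ 2) * Real.exp (dotp u x ^ 2 / a ^ 2))) :=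
                  mul_le_mul_of_nonneg_left (mul_le_mul hwle h2 (Real.exp_pos _).le zero_le_one)
                    (div_nonneg (h0 x) (hZ0 k).le)
              _ = _ := by simp only [K, dotp]; ring
        _ = ENNReal.ofReal K * ∫⁻ x, ENNReal.ofReal (ρ x) *
              ENNReal.ofReal (Real.exp ((∑ i, u i * x i) ^ 2 / a ^ 2)) :=
            lintegral_const_mul' _ _ ENNReal.ofReal_ne_top
        _ ≤ ENNReal.ofReal K * 2 := by
            rw [← lintegral_law hm (u := fun x => ENNReal.ofReal (Real.exp ((∑ i, u i * x i) ^ 2 / a ^ 2)))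
              (by fun_prop)]
            exact mul_le_mul_right (hs u hu') _
        _ ≤ 3 := by
            rw [show (2 : ℝ≥0∞) = ENNReal.ofReal 2 by simp, ← ENNReal.ofReal_mul hK,
              show (3 : ℝ≥0∞) = ENNReal.ofReal 3 by simp]
            refine ENNReal.ofReal_le_ofReal (le_trans (le_of_eq ?_) hk)
            simp only [K, hb]; ring
    have hF := tame_comp_affine hf b hr.ne'
    have h2 := hlsi n hn _ _ hg hc0 hsub _ hF
    have eint : ∀ {φ : (Fin n → ℝ) → ℝ}, Continuous φ →
        ∫ y, φ (b + r • y) ∂law (std (σ k) b r) = ∫ x, φ x ∂law (σ k) := fun hφ => by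
      rw [hlaw, integral_map hT.aemeasurable (hφ.comp' (by fun_prop)).aestronglyMeasurable]
      simp only [smul_inv_smul₀ hr.ne', add_sub_cancel]
    have eE : energy (law (std (σ k) b r)) (fun y => f (b + r • y))
        = 2 * a ^ 2 * energy (law (σ k)) f := by
      simp only [energy, gradSq_comp_affine hfd, integral_const_mul, hr2]
      rw [eint hf.continuous_gradSq]
    have e2 := eint (φ := fun x => f x ^ 2) (hf.continuous.pow 2)
    have e3 := eint (φ := fun x => f x ^ 2 * Real.log (f x ^ 2))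
      (Real.continuous_mul_log.comp (hf.continuous.pow 2))
    simp only [ent] at h2 ⊢
    rw [e2, e3, eE] at h2
    linarith
  have hE : Tendsto (fun k => energy (law (σ k)) f) atTop (𝓝 (energy (law ρ) f)) :=
    hlim hf.integrable_gradSq
  have hEnt : Tendsto (fun k => ent (law (σ k)) fun x => f x ^ 2) atTop
      (𝓝 (ent (law ρ) fun x => f x ^ 2)) :=
    (hlim (hf.sq.integrable_comp Real.continuous_mul_log)).sub
      ((Real.continuous_mul_log.tendsto _).comp (hlim hf.sq.integrable))
  refine (le_of_tendsto_of_tendsto hEnt (hE.const_mul _) key).trans (le_of_eq ?_)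
  simp only [B]
  ring

end

end Vale.Agent.P245.General
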