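import Vale.Agent.P245.General.Basic

/-!
# P245, general measures: integrability, posteriors and moments
-/

open MeasureTheory
open scoped ENNReal

namespace Vale.Agent.P245.General

noncomputable section

variable {n : ℕ} {η r s : ℝ} {ρ : (Fin n → ℝ) → ℝ}

theorem dotp_add (θ θ' x : Fin n → ℝ) : dotp (θ + θ') x = dotp θ x + dotp θ' x := by
  simp only [dotp, Pi.add_apply, add_mul, Finset.sum_add_distrib]

theorem dotp_combo (θ x y : Fin n → ℝ) (a b : ℝ) :
    dotp θ (a • x + b • y) = a * dotp θ x + b * dotp θ y := by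
  simp only [dotp, Pi.add_apply, Pi.smul_apply, smul_eq_mul, Finset.mul_sum,
    ← Finset.sum_add_distrib]
  exact Finset.sum_congr rfl fun i _ => by ring

theorem nsq_combo (x y : Fin n → ℝ) (a b : ℝ) (hab : a + b = 1) :
    a * nsq x + b * nsq y - nsq (a • x + b • y) = a * b * nsq (x - y) := by
  obtain rfl : b = 1 - a := by linarith
  simp only [nsq, Pi.add_apply, Pi.smul_apply, Pi.sub_apply, smul_eq_mul, Finset.mul_sum,
    ← Finset.sum_add_distrib, ← Finset.sum_sub_distrib]
  exact Finset.sum_congr rfl fun i _ => by ring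

theorem nsq_nonneg (x : Fin n → ℝ) : 0 ≤ nsq x := Finset.sum_nonneg fun i _ => sq_nonneg _

theorem dotp_le (θ x : Fin n → ℝ) {κ : ℝ} (hκ : 0 < κ) :
    dotp θ x ≤ κ * nsq x + nsq θ / (4 * κ) := by
  simp only [dotp, nsq, Finset.mul_sum, Finset.sum_div, ← Finset.sum_add_distrib]
  refine Finset.sum_le_sum fun i _ => ?_
  have e : κ * x i ^ 2 + θ i ^ 2 / (4 * κ) - θ i * x i = (2 * κ * x i - θ i) ^ 2 / (4 * κ) := by
    field_simp
    ring
  linarith [show 0 ≤ (2 * κ * x i - θ i) ^ 2 / (4 * κ) by positivity]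

@[fun_prop]
theorem continuous_nsq : Continuous (nsq : (Fin n → ℝ) → ℝ) := by unfold nsq; fun_prop

@[fun_prop]
theorem continuous_dotp (θ : Fin n → ℝ) : Continuous (dotp θ) := by unfold dotp; fun_prop

theorem continuous_wgt (s : ℝ) (θ : Fin n → ℝ) : Continuous (wgt s θ) := by unfold wgt; fun_prop

/-- Integrals against the law of a density. -/
theorem integral_law (hm : Measurable ρ) (h0 : ∀ x, 0 ≤ ρ x) (g : (Fin n → ℝ) → ℝ) :
    ∫ x, g x ∂law ρ = ∫ x, ρ x * g x := by
  rw [law, integral_withDensity_eq_integral_toReal_smul hm.ennreal_ofReal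
    (Filter.Eventually.of_forall fun x => ENNReal.ofReal_lt_top)]
  exact integral_congr_ae (Filter.Eventually.of_forall fun x => by
    simp [ENNReal.toReal_ofReal (h0 x)])

theorem lintegral_law (hm : Measurable ρ) {u : (Fin n → ℝ) → ℝ≥0∞} (hu : Measurable u) :
    ∫⁻ x, u x ∂law ρ = ∫⁻ x, ENNReal.ofReal (ρ x) * u x := by
  rw [law, lintegral_withDensity_eq_lintegral_mul _ hm.ennreal_ofReal hu]
  rfl

theorem isProb (h : Ulc η ρ) : IsProbabilityMeasure (law ρ) :=
  ⟨by rw [law, withDensity_apply _ MeasurableSet.univ, setLIntegral_univ, h.mass]⟩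

/-- Prékopa-Leindler in terms of the law. -/
theorem pl_law (h : Ulc η ρ) {a b : ℝ} (ha : 0 < a) (hb : 0 < b) (hab : a + b = 1)
    {u v w : (Fin n → ℝ) → ℝ≥0∞} (hu : Measurable u) (hv : Measurable v) (hw : Measurable w)
    (huvw : ∀ x y, u x ^ a * v y ^ b
      ≤ ENNReal.ofReal (Real.exp (η * a * b / 2 * nsq (x - y))) * w (a • x + b • y)) :
    (∫⁻ x, u x ∂law ρ) ^ a * (∫⁻ x, v x ∂law ρ) ^ b ≤ ∫⁻ x, w x ∂law ρ := by
  have hρ := h.meas.ennreal_ofReal
  rw [lintegral_law h.meas hu, lintegral_law h.meas hv, lintegral_law h.meas hw]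
  refine Vale.Agent.P254.Sym.pl_vol ha hb hab n (hρ.mul hu) (hρ.mul hv) (hρ.mul hw) fun x y => ?_
  rw [ENNReal.mul_rpow_of_nonneg _ _ ha.le, ENNReal.mul_rpow_of_nonneg _ _ hb.le,
    ENNReal.ofReal_rpow_of_nonneg (h.nonneg x) ha.le,
    ENNReal.ofReal_rpow_of_nonneg (h.nonneg y) hb.le, mul_mul_mul_comm,
    ← ENNReal.ofReal_mul (Real.rpow_nonneg (h.nonneg x) a)]
  refine (mul_le_mul_of_nonneg_left (huvw x y) zero_le).trans ?_
  rw [← mul_assoc, ← ENNReal.ofReal_mul (mul_nonneg (Real.rpow_nonneg (h.nonneg x) a)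
    (Real.rpow_nonneg (h.nonneg y) b))]
  exact mul_le_mul_of_nonneg_right (ENNReal.ofReal_le_ofReal (h.conc x y a b ha hb hab)) zero_le

/-- Maurey's inequality. -/
theorem maurey (h : Ulc η ρ) {F f : (Fin n → ℝ) → ℝ} (hF : Measurable F) (hf : Measurable f)
    (hFf : ∀ x y, F x - f y ≤ η / 4 * nsq (x - y)) :
    (∫⁻ x, ENNReal.ofReal (Real.exp (F x)) ∂law ρ) *
      (∫⁻ x, ENNReal.ofReal (Real.exp (-f x)) ∂law ρ) ≤ 1 := by
  have := isProb h
  have key := pl_law h (a := 1 / 2) (b := 1 / 2) (by norm_num) (by norm_num) (by norm_num)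
    hF.exp.ennreal_ofReal hf.neg.exp.ennreal_ofReal (w := fun _ => 1) measurable_const
    (fun x y => ?_)
  · rw [← ENNReal.mul_rpow_of_nonneg _ _ (by norm_num : (0 : ℝ) ≤ 1 / 2), lintegral_const,
      measure_univ, one_mul] at key
    exact (ENNReal.rpow_le_rpow_iff (by norm_num : (0 : ℝ) < 1 / 2)).1 (by rwa [ENNReal.one_rpow])
  · rw [ENNReal.ofReal_rpow_of_nonneg (Real.exp_pos _).le (by norm_num),
      ENNReal.ofReal_rpow_of_nonneg (Real.exp_pos _).le (by norm_num), ← Real.exp_mul,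
      ← Real.exp_mul, ← ENNReal.ofReal_mul (Real.exp_pos _).le, ← Real.exp_add, mul_one]
    exact ENNReal.ofReal_le_ofReal (Real.exp_le_exp.2 (by simp only [Pi.neg_apply]; linarith [hFf x y]))

theorem measurableSet_nsq_le (R : ℝ) : MeasurableSet {x : Fin n → ℝ | nsq x ≤ R} :=
  measurableSet_le continuous_nsq.measurable measurable_const

theorem integrable_exp_nsq (h : Ulc η ρ) :
    Integrable (fun x => Real.exp (η / 16 * nsq x)) (law ρ) := by
  have := isProb h
  have hm : Measurable fun x : Fin n → ℝ => Real.exp (η / 16 * nsq x) :=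
    (continuous_nsq.measurable.const_mul _).exp
  obtain ⟨R, hR⟩ : ∃ R : ℕ, law ρ {x | nsq x ≤ R} ≠ 0 := by
    by_contra hne
    simp only [not_exists, ne_eq, not_not] at hne
    have hU : law ρ (⋃ R : ℕ, {x | nsq x ≤ R}) = 0 := measure_iUnion_null hne
    rw [Set.eq_univ_of_forall fun x => Set.mem_iUnion.2 ⟨⌈nsq x⌉₊, Nat.le_ceil (nsq x)⟩,
      measure_univ] at hU
    exact one_ne_zero hU
  set B := {x : Fin n → ℝ | nsq x ≤ R}
  set v : (Fin n → ℝ) → ℝ≥0∞ :=
    B.indicator fun _ => ENNReal.ofReal (Real.exp (-(η / 8 * R)))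
  have key := pl_law h (a := 1 / 2) (b := 1 / 2) (by norm_num) (by norm_num) (by norm_num)
    hm.ennreal_ofReal (v := v) (measurable_const.indicator (measurableSet_nsq_le _))
    (w := fun _ => 1) measurable_const (fun x y => ?_)
  · refine ⟨hm.aestronglyMeasurable, ?_⟩
    rw [hasFiniteIntegral_iff_ofReal (Filter.Eventually.of_forall fun x => (Real.exp_pos _).le)]
    rw [lintegral_const, measure_univ, one_mul] at key
    refine lt_top_iff_ne_top.2 fun htop => ?_
    rw [htop, ENNReal.top_rpow_of_pos (by norm_num), ENNReal.top_mul] at key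
    · simp at key
    · have hv : ∫⁻ x, v x ∂law ρ ≠ 0 := by
        rw [lintegral_indicator (measurableSet_nsq_le _), setLIntegral_const]
        exact mul_ne_zero (ENNReal.ofReal_ne_zero_iff.2 (Real.exp_pos _)) hR
      exact fun h0 => hv ((ENNReal.rpow_eq_zero_iff_of_pos (by norm_num)).1 h0)
  · by_cases hy : y ∈ B
    · simp only [v, Set.indicator_of_mem hy]
      rw [ENNReal.ofReal_rpow_of_nonneg (Real.exp_pos _).le (by norm_num),
        ENNReal.ofReal_rpow_of_nonneg (Real.exp_pos _).le (by norm_num), ← Real.exp_mul,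
        ← Real.exp_mul, ← ENNReal.ofReal_mul (Real.exp_pos _).le, ← Real.exp_add, mul_one]
      refine ENNReal.ofReal_le_ofReal (Real.exp_le_exp.2 ?_)
      have hy' : nsq y ≤ R := hy
      have h2 : nsq x ≤ 2 * nsq (x - y) + 2 * nsq y := by
        simp only [nsq, Pi.sub_apply, Finset.mul_sum, ← Finset.sum_add_distrib]
        exact Finset.sum_le_sum fun i _ => by nlinarith [sq_nonneg (x i - 2 * y i)]
      nlinarith [mul_le_mul_of_nonneg_left h2 h.pos.le, mul_le_mul_of_nonneg_left hy' h.pos.le,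
        mul_nonneg h.pos.le (nsq_nonneg (x - y)), mul_nonneg h.pos.le (nsq_nonneg y)]
    · simp [v, Set.indicator_of_notMem hy]

theorem pow_le_exp {κ t : ℝ} (hκ : 0 < κ) (ht : 0 ≤ t) (k : ℕ) :
    (1 + t) ^ k ≤ (k.factorial * Real.exp κ / κ ^ k) * Real.exp (κ * t) := by
  have h := Real.pow_div_factorial_le_exp (x := κ * (1 + t)) (by positivity) k
  rw [div_le_iff₀ (by positivity), mul_pow, mul_one_add, Real.exp_add] at h
  rw [div_mul_eq_mul_div, le_div_iff₀ (by positivity)]
  linarith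

/-- Growth below a Gaussian is integrable. -/
theorem integrable_growth (h : Ulc η ρ) {g : (Fin n → ℝ) → ℝ} (hm : Measurable g) {A : ℝ} {k : ℕ}
    (hA : ∀ x, |g x| ≤ A * (1 + nsq x) ^ k * Real.exp (η / 32 * nsq x)) :
    Integrable g (law ρ) := by
  have hη : 0 < η / 32 := by linarith [h.pos]
  refine ((integrable_exp_nsq h).const_mul
    (|A| * (k.factorial * Real.exp (η / 32) / (η / 32) ^ k))).mono'
    hm.aestronglyMeasurable (Filter.Eventually.of_forall fun x => ?_)
  rw [Real.norm_eq_abs]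
  have h0 : 0 ≤ 1 + nsq x := by linarith [nsq_nonneg x]
  calc |g x| ≤ |A| * (1 + nsq x) ^ k * Real.exp (η / 32 * nsq x) := (hA x).trans (by
        gcongr
        exact le_abs_self A)
    _ ≤ |A| * ((k.factorial * Real.exp (η / 32) / (η / 32) ^ k) * Real.exp (η / 32 * nsq x))
          * Real.exp (η / 32 * nsq x) := by
        gcongr
        exact pow_le_exp hη (nsq_nonneg x) k
    _ = _ := by
        rw [show η / 16 * nsq x = η / 32 * nsq x + η / 32 * nsq x by ring, Real.exp_add]
        ring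

theorem integrable_polyB (h : Ulc η ρ) {g : (Fin n → ℝ) → ℝ} (hm : Measurable g) (hg : PolyB g) :
    Integrable g (law ρ) := by
  obtain ⟨A, k, hA⟩ := hg
  refine integrable_growth h hm (A := A) (k := k) fun x => (hA x).trans
    (le_mul_of_one_le_right ((abs_nonneg _).trans (hA x))
      (Real.one_le_exp (mul_nonneg (by linarith [h.pos]) (nsq_nonneg x))))

theorem integrable_wgt (h : Ulc η ρ) {g : (Fin n → ℝ) → ℝ} (hm : Measurable g) (hg : PolyB g)
    (hs : 0 ≤ s) (θ : Fin n → ℝ) : Integrable (fun x => g x * wgt s θ x) (law ρ) := by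
  obtain ⟨A, k, hA⟩ := hg
  refine integrable_growth h (hm.mul (continuous_wgt s θ).measurable)
    (A := A * Real.exp (nsq θ / (4 * (η / 32)))) (k := k) fun x => ?_
  rw [abs_mul, wgt, abs_of_pos (Real.exp_pos _)]
  have h1 := dotp_le θ x (show 0 < η / 32 by linarith [h.pos])
  have h2 : 0 ≤ s / 2 * nsq x := mul_nonneg (by linarith) (nsq_nonneg x)
  calc |g x| * Real.exp (dotp θ x - s / 2 * nsq x)
      ≤ A * (1 + nsq x) ^ k * Real.exp (nsq θ / (4 * (η / 32)) + η / 32 * nsq x) :=
        mul_le_mul (hA x) (Real.exp_le_exp.2 (by linarith)) (Real.exp_pos _).le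
          ((abs_nonneg _).trans (hA x))
    _ = _ := by rw [Real.exp_add]; ring

theorem polyB_const (c : ℝ) : PolyB fun _ : Fin n → ℝ => c := ⟨|c|, 0, fun x => by simp⟩

theorem part_pos (h : Ulc η ρ) (hs : 0 ≤ s) (θ : Fin n → ℝ) : 0 < part ρ s θ := by
  have := isProb h
  have hi := integrable_wgt h measurable_const (polyB_const (n := n) 1) hs θ
  simp only [part, num, one_mul] at *
  exact integral_exp_pos (f := fun x => dotp θ x - s / 2 * nsq x) hi

theorem num_eq (h : Ulc η ρ) (g : (Fin n → ℝ) → ℝ) (s : ℝ) (θ : Fin n → ℝ) :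
    num ρ g s θ = ∫ x, ρ x * (g x * wgt s θ x) := integral_law h.meas h.nonneg _

theorem measurable_post (h : Ulc η ρ) (s : ℝ) (θ : Fin n → ℝ) : Measurable (post ρ s θ) :=
  (h.meas.mul (continuous_wgt s θ).measurable).div_const _

theorem post_nonneg (h : Ulc η ρ) (hs : 0 ≤ s) (θ x : Fin n → ℝ) : 0 ≤ post ρ s θ x :=
  div_nonneg (mul_nonneg (h.nonneg x) (Real.exp_pos _).le) (part_pos h hs θ).le

theorem post_ulc (h : Ulc η ρ) (hs : 0 ≤ s) (θ : Fin n → ℝ) : Ulc (η + s) (post ρ s θ) where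
  pos := by linarith [h.pos]
  meas := measurable_post h s θ
  nonneg := post_nonneg h hs θ
  mass := by
    have hp := part_pos h hs θ
    have hi := (integrable_wgt h measurable_const (polyB_const (n := n) 1) hs θ).div_const
      (part ρ s θ)
    simp only [one_mul] at hi
    have e : (fun x => ENNReal.ofReal (post ρ s θ x))
        = fun x => ENNReal.ofReal (ρ x) * ENNReal.ofReal (wgt s θ x / part ρ s θ) :=
      funext fun x => by rw [← ENNReal.ofReal_mul (h.nonneg x), post, mul_div_assoc]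
    rw [e, ← lintegral_law h.meas ((continuous_wgt s θ).measurable.div_const _).ennreal_ofReal,
      ← ofReal_integral_eq_lintegral_ofReal hi
        (Filter.Eventually.of_forall fun x => div_nonneg (Real.exp_pos _).le hp.le),
      integral_div, show (∫ x, wgt s θ x ∂law ρ) = part ρ s θ by simp [part, num],
      div_self hp.ne', ENNReal.ofReal_one]
  conc x y a b ha hb hab := by
    have hp := part_pos h hs θ
    simp only [post]
    have hw : ∀ z, 0 ≤ wgt s θ z := fun z => (Real.exp_pos _).le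
    rw [Real.div_rpow (mul_nonneg (h.nonneg x) (hw x)) hp.le,
      Real.div_rpow (mul_nonneg (h.nonneg y) (hw y)) hp.le, div_mul_div_comm,
      ← Real.rpow_add hp, hab, Real.rpow_one, div_mul_eq_mul_div]
    refine div_le_div_of_nonneg_right ?_ hp.le
    rw [Real.mul_rpow (h.nonneg x) (hw x), Real.mul_rpow (h.nonneg y) (hw y)]
    have key : wgt s θ x ^ a * wgt s θ y ^ b * Real.exp ((η + s) * a * b / 2 * nsq (x - y))
        = Real.exp (η * a * b / 2 * nsq (x - y)) * wgt s θ (a • x + b • y) := by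
      simp only [wgt, ← Real.exp_mul, ← Real.exp_add, dotp_combo]
      congr 1
      linear_combination (-(s / 2)) * nsq_combo x y a b hab
    calc ρ x ^ a * wgt s θ x ^ a * (ρ y ^ b * wgt s θ y ^ b)
          * Real.exp ((η + s) * a * b / 2 * nsq (x - y))
        = ρ x ^ a * ρ y ^ b * (wgt s θ x ^ a * wgt s θ y ^ b
          * Real.exp ((η + s) * a * b / 2 * nsq (x - y))) := by ring
      _ = ρ x ^ a * ρ y ^ b * Real.exp (η * a * b / 2 * nsq (x - y))
          * wgt s θ (a • x + b • y) := by rw [key]; ring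
      _ ≤ _ := mul_le_mul_of_nonneg_right (h.conc x y a b ha hb hab) (Real.exp_pos _).le

theorem integral_post (h : Ulc η ρ) (hs : 0 ≤ s) (θ : Fin n → ℝ) (g : (Fin n → ℝ) → ℝ) :
    ∫ x, g x ∂law (post ρ s θ) = mg ρ g s θ := by
  rw [integral_law (measurable_post h s θ) (post_nonneg h hs θ), mg, num_eq h g, ← integral_div]
  exact integral_congr_ae (Filter.Eventually.of_forall fun x => by simp only [post]; ring)

theorem center_post (h : Ulc η ρ) (hs : 0 ≤ s) (θ : Fin n → ℝ) :
    center (post ρ s θ) = bary ρ s θ := funext fun _ => integral_post h hs θ _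

theorem polyB_add {f g : (Fin n → ℝ) → ℝ} (hf : PolyB f) (hg : PolyB g) :
    PolyB fun x => f x + g x := by
  obtain ⟨A, k, hA⟩ := hf
  obtain ⟨B, m, hB⟩ := hg
  refine ⟨|A| + |B|, k + m, fun x => (abs_add_le _ _).trans ?_⟩
  have h1 : 1 ≤ 1 + nsq x := by linarith [nsq_nonneg x]
  have h0 : 0 ≤ 1 + nsq x := by linarith
  rw [add_mul]
  exact add_le_add
    ((hA x).trans (mul_le_mul (le_abs_self A) (pow_le_pow_right₀ h1 (by omega))
      (pow_nonneg h0 _) (abs_nonneg A)))
    ((hB x).trans (mul_le_mul (le_abs_self B) (pow_le_pow_right₀ h1 (by omega))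
      (pow_nonneg h0 _) (abs_nonneg B)))

theorem polyB_mul {f g : (Fin n → ℝ) → ℝ} (hf : PolyB f) (hg : PolyB g) :
    PolyB fun x => f x * g x := by
  obtain ⟨A, k, hA⟩ := hf
  obtain ⟨B, m, hB⟩ := hg
  refine ⟨A * B, k + m, fun x => ?_⟩
  rw [abs_mul]
  refine (mul_le_mul (hA x) (hB x) (abs_nonneg _) ((abs_nonneg _).trans (hA x))).trans (le_of_eq ?_)
  ring

theorem polyB_sum {ι : Type*} (S : Finset ι) {f : ι → (Fin n → ℝ) → ℝ} (hf : ∀ j ∈ S, PolyB (f j)) :
    PolyB fun x => ∑ j ∈ S, f j x := by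
  classical
  induction S using Finset.induction_on with
  | empty => simpa using polyB_const (n := n) 0
  | @insert a S ha ih =>
    simp only [Finset.sum_insert ha]
    exact polyB_add (hf a (Finset.mem_insert_self a S))
      (ih fun j hj => hf j (Finset.mem_insert_of_mem hj))

theorem polyB_coord (i : Fin n) : PolyB fun x : Fin n → ℝ => x i := by
  refine ⟨1, 1, fun x => ?_⟩
  have h1 : x i ^ 2 ≤ nsq x :=
    Finset.single_le_sum (f := fun j => x j ^ 2) (fun j _ => sq_nonneg _) (Finset.mem_univ i)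
  have h2 := sq_abs (x i)
  nlinarith [sq_nonneg (|x i| - 1), abs_nonneg (x i)]

theorem polyB_nsq : PolyB (nsq : (Fin n → ℝ) → ℝ) :=
  ⟨1, 1, fun x => by rw [abs_of_nonneg (nsq_nonneg x)]; simp⟩

theorem covc_eq (h : Ulc η ρ) {f g : (Fin n → ℝ) → ℝ} (hf : Measurable f) (hg : Measurable g)
    (hf' : PolyB f) (hg' : PolyB g) :
    covc ρ f g = (∫ x, f x * g x ∂law ρ) - (∫ x, f x ∂law ρ) * ∫ x, g x ∂law ρ := by
  have := isProb h
  have i1 := integrable_polyB h (g := fun x => f x * g x) (hf.mul hg) (polyB_mul hf' hg')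
  have i2 := integrable_polyB h hf hf'
  have i3 := integrable_polyB h hg hg'
  set a := ∫ x, f x ∂law ρ with ha
  set b := ∫ x, g x ∂law ρ with hb
  have j1 : Integrable (fun x => f x * b) (law ρ) := i2.mul_const b
  have j2 : Integrable (fun x => a * g x) (law ρ) := i3.const_mul a
  have e : (fun x => (f x - a) * (g x - b)) = fun x => f x * g x - f x * b - (a * g x - a * b) :=
    funext fun x => by ring
  rw [covc, e, integral_sub (f := fun x => f x * g x - f x * b) (g := fun x => a * g x - a * b)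
      (i1.sub j1) (j2.sub (integrable_const _)),
    integral_sub i1 j1, integral_sub j2 (integrable_const _), integral_mul_const,
    integral_const_mul, integral_const, probReal_univ, one_smul, ← ha, ← hb]
  ring

theorem covc_post (h : Ulc η ρ) (hs : 0 ≤ s) (θ : Fin n → ℝ) {f g : (Fin n → ℝ) → ℝ}
    (hf : Measurable f) (hg : Measurable g) (hf' : PolyB f) (hg' : PolyB g) :
    covc (post ρ s θ) f g = pcov ρ f g s θ := by
  rw [covc_eq (post_ulc h hs θ) hf hg hf' hg', integral_post h hs θ, integral_post h hs θ,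
    integral_post h hs θ]
  rfl

theorem polyB_dotp (u : Fin n → ℝ) : PolyB (dotp u) :=
  polyB_sum Finset.univ (f := fun i x => u i * x i)
    fun i _ => polyB_mul (polyB_const (u i)) (polyB_coord i)

theorem covc_dotp (h : Ulc η ρ) (u : Fin n → ℝ) :
    covc ρ (dotp u) (dotp u)
      = ∑ i, ∑ j, u i * covc ρ (fun x => x i) (fun x => x j) * u j := by
  have := isProb h
  have hu : ∫ x, dotp u x ∂law ρ = ∑ i, u i * ∫ x, x i ∂law ρ := by
    simp only [dotp]
    rw [integral_finsetSum _ fun i _ =>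
      (integrable_polyB h (measurable_pi_apply i) (polyB_coord i)).const_mul (u i)]
    simp only [integral_const_mul]
  have hi : ∀ i j, Integrable (fun x : Fin n → ℝ =>
      (x i - ∫ y, y i ∂law ρ) * (x j - ∫ y, y j ∂law ρ)) (law ρ) := fun i j => by
    refine integrable_polyB h (((measurable_pi_apply i).sub_const _).mul
      ((measurable_pi_apply j).sub_const _)) (polyB_mul ?_ ?_) <;>
    · simp only [sub_eq_add_neg]
      exact polyB_add (polyB_coord _) (polyB_const _)
  have e : ∀ x, (dotp u x - ∫ y, dotp u y ∂law ρ) * (dotp u x - ∫ y, dotp u y ∂law ρ)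
      = ∑ i, ∑ j, u i * ((x i - ∫ y, y i ∂law ρ) * (x j - ∫ y, y j ∂law ρ)) * u j := fun x => by
    rw [hu, dotp, ← Finset.sum_sub_distrib, Finset.sum_mul_sum]
    exact Finset.sum_congr rfl fun i _ => Finset.sum_congr rfl fun j _ => by ring
  simp only [covc, e]
  rw [integral_finsetSum _ fun i _ => integrable_finsetSum _ fun j _ =>
    ((hi i j).const_mul (u i)).mul_const (u j)]
  refine Finset.sum_congr rfl fun i _ => ?_
  rw [integral_finsetSum _ fun j _ => ((hi i j).const_mul (u i)).mul_const (u j)]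
  simp only [integral_mul_const, integral_const_mul]

theorem covc_dotp_post (h : Ulc η ρ) (hs : 0 ≤ s) (θ u : Fin n → ℝ) :
    covc (post ρ s θ) (dotp u) (dotp u) = ∑ i, ∑ j, u i * covMat ρ s θ i j * u j := by
  rw [covc_dotp (post_ulc h hs θ)]
  refine Finset.sum_congr rfl fun i _ => Finset.sum_congr rfl fun j _ => ?_
  rw [covc_post h hs θ (measurable_pi_apply i) (measurable_pi_apply j) (polyB_coord i)
    (polyB_coord j)]
  rfl

theorem wgt_mul (r s : ℝ) (θ θ' x : Fin n → ℝ) :
    wgt r θ x * wgt s θ' x = wgt (r + s) (θ + θ') x := by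
  simp only [wgt, ← Real.exp_add, dotp_add]
  ring_nf

theorem num_post (h : Ulc η ρ) (hr : 0 ≤ r) (θ θ' : Fin n → ℝ) (g : (Fin n → ℝ) → ℝ) :
    num (post ρ r θ) g s θ' = num ρ g (r + s) (θ + θ') / part ρ r θ := by
  rw [num, integral_post h hr θ, mg]
  congr 1
  refine integral_congr_ae (Filter.Eventually.of_forall fun x => ?_)
  simp only [← wgt_mul]
  ring

theorem post_post (h : Ulc η ρ) (hr : 0 ≤ r) (hs : 0 ≤ s) (θ θ' : Fin n → ℝ) :
    post (post ρ r θ) s θ' = post ρ (r + s) (θ + θ') := by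
  funext x
  have h1 := (part_pos h hr θ).ne'
  have h2 := (part_pos h (add_nonneg hr hs) (θ + θ')).ne'
  simp only [post]
  rw [show part (post ρ r θ) s θ' = part ρ (r + s) (θ + θ') / part ρ r θ from
    num_post h hr θ θ' _, ← wgt_mul]
  field_simp

theorem mg_post (h : Ulc η ρ) (hr : 0 ≤ r) (hs : 0 ≤ s) (θ θ' : Fin n → ℝ)
    (g : (Fin n → ℝ) → ℝ) : mg (post ρ r θ) g s θ' = mg ρ g (r + s) (θ + θ') := by
  have h1 := (part_pos h hr θ).ne'
  have h2 := (part_pos h (add_nonneg hr hs) (θ + θ')).ne'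
  simp only [mg, part, num_post h hr θ θ'] at *
  field_simp

theorem part_zero (h : Ulc η ρ) : part ρ 0 0 = 1 := by
  have := isProb h
  simp [part, num, wgt, dotp]

theorem mg_zero (h : Ulc η ρ) (g : (Fin n → ℝ) → ℝ) : mg ρ g 0 0 = ∫ x, g x ∂law ρ := by
  rw [mg, part_zero h, div_one]
  simp [num, wgt, dotp]

theorem polyB_of_bounded {f : (Fin n → ℝ) → ℝ} {C : ℝ} (hC : ∀ x, |f x| ≤ C) : PolyB f :=
  ⟨C, 0, fun x => by simpa using hC x⟩

theorem c1p_tame {f : (Fin n → ℝ) → ℝ} (hf : Tame f) : C1P f := by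
  refine ⟨hf.smooth.of_le one_le_smooth, ?_, fun i => ?_⟩
  · obtain ⟨C, hC⟩ := hf.bounded
    exact polyB_of_bounded hC
  · obtain ⟨C, hC⟩ := (hf.compact_pd i).exists_bound_of_continuous (hf.continuous_pd i)
    exact polyB_of_bounded fun x => by simpa using hC x

theorem pd_dotp (u : Fin n → ℝ) (i : Fin n) : pd i (dotp u) = fun _ => u i := by
  funext x
  have h : HasFDerivAt (dotp u)
      (∑ j, u j • (ContinuousLinearMap.proj j : (Fin n → ℝ) →L[ℝ] ℝ)) x :=
    HasFDerivAt.fun_sum fun j _ => (hasFDerivAt_apply j x).const_mul (u j)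
  simp [pd, h.fderiv, Pi.single_apply]

theorem c1p_dotp (u : Fin n → ℝ) : C1P (dotp u) :=
  ⟨ContDiff.sum fun i _ => contDiff_const.mul (contDiff_apply ℝ ℝ i), polyB_dotp u,
    fun i => by rw [pd_dotp]; exact polyB_const _⟩

theorem covc_self_nonneg (f : (Fin n → ℝ) → ℝ) : 0 ≤ covc ρ f f :=
  integral_nonneg fun _ => mul_self_nonneg _

theorem covc_sq_le (h : Ulc η ρ) {f g : (Fin n → ℝ) → ℝ} (hf : Measurable f) (hg : Measurable g)
    (hf' : PolyB f) (hg' : PolyB g) : covc ρ f g ^ 2 ≤ covc ρ f f * covc ρ g g := by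
  have := isProb h
  set a := ∫ x, f x ∂law ρ with ha
  set b := ∫ x, g x ∂law ρ with hb
  have pf : PolyB fun x => f x - a := by
    simp only [sub_eq_add_neg]; exact polyB_add hf' (polyB_const _)
  have pg : PolyB fun x => g x - b := by
    simp only [sub_eq_add_neg]; exact polyB_add hg' (polyB_const _)
  have i1 : Integrable (fun x => (f x - a) * (f x - a)) (law ρ) :=
    integrable_polyB h ((hf.sub_const a).mul (hf.sub_const a)) (polyB_mul pf pf)
  have i2 : Integrable (fun x => (f x - a) * (g x - b)) (law ρ) :=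
    integrable_polyB h ((hf.sub_const a).mul (hg.sub_const b)) (polyB_mul pf pg)
  have i3 : Integrable (fun x => (g x - b) * (g x - b)) (law ρ) :=
    integrable_polyB h ((hg.sub_const b).mul (hg.sub_const b)) (polyB_mul pg pg)
  have key : ∀ t : ℝ, 0 ≤ covc ρ g g * (t * t) + 2 * covc ρ f g * t + covc ρ f f := by
    intro t
    have e : (fun x => ((f x - a) + t * (g x - b)) ^ 2) = fun x =>
        (f x - a) * (f x - a) + (2 * t) * ((f x - a) * (g x - b))
          + (t * t) * ((g x - b) * (g x - b)) := funext fun x => by ring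
    have h0 : 0 ≤ ∫ x, ((f x - a) + t * (g x - b)) ^ 2 ∂law ρ :=
      integral_nonneg fun x => sq_nonneg _
    rw [e, integral_add (f := fun x => (f x - a) * (f x - a) + (2 * t) * ((f x - a) * (g x - b)))
        (g := fun x => (t * t) * ((g x - b) * (g x - b))) (i1.add (i2.const_mul _)) (i3.const_mul _),
      integral_add i1 (i2.const_mul _), integral_const_mul, integral_const_mul] at h0
    simp only [covc, ← ha, ← hb]
    linarith
  have hd := discrim_le_zero key
  rw [discrim] at hd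
  linarith

end

end Vale.Agent.P245.General
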