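import Vale.Agent.P245.General.Guan
import Vale.Agent.P245.General.Lichn

/-!
# P245, general measures: quadratic forms

The variance of a normalised quadratic form is at most `C (1 + log n)` times the square of the
covariance bound: a bootstrap along the Gaussian channel.
-/

open MeasureTheory

namespace Vale.Agent.P245.General

noncomputable section

variable {n : ℕ} {η c : ℝ} {ρ : (Fin n → ℝ) → ℝ} {M : Matrix (Fin n) (Fin n) ℝ}

/-! ### The quadratic form -/

theorem qf_sq_le (hM : ∑ i, ∑ j, M i j ^ 2 ≤ 1) (y : Fin n → ℝ) : qf M y ^ 2 ≤ nsq y ^ 2 := by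
  have h := Finset.sum_mul_sq_le_sq_mul_sq (Finset.univ : Finset (Fin n × Fin n))
    (fun p => M p.1 p.2) (fun p => y p.1 * y p.2)
  simp only [Fintype.sum_prod_type, mul_pow, ← Finset.mul_sum, ← Finset.sum_mul, ← mul_assoc] at h
  refine h.trans ?_
  rw [sq (nsq y)]
  rw [mul_assoc]
  exact mul_le_of_le_one_left (mul_nonneg (nsq_nonneg y) (nsq_nonneg y)) hM

theorem hasFDerivAt_qf (hM : M.IsSymm) (a x : Fin n → ℝ) :
    HasFDerivAt (fun x => qf M (x - a))
      (∑ i, (2 * dotp (M i) (x - a)) • (ContinuousLinearMap.proj i : (Fin n → ℝ) →L[ℝ] ℝ)) x := by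
  have hy : ∀ i, HasFDerivAt (fun x : Fin n → ℝ => (x - a) i)
      (ContinuousLinearMap.proj i : (Fin n → ℝ) →L[ℝ] ℝ) x := fun i => by
    simpa using (hasFDerivAt_apply i x).sub_const (a i)
  have h := HasFDerivAt.fun_sum (u := Finset.univ) fun i (_ : i ∈ Finset.univ) =>
    HasFDerivAt.fun_sum (u := Finset.univ) fun j (_ : j ∈ Finset.univ) =>
      ((hy i).const_mul (M i j)).mul (hy j)
  refine h.congr_fderiv ?_
  ext v
  simp only [sum_apply, add_apply, smul_apply, ContinuousLinearMap.proj_apply, smul_eq_mul,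
    Finset.sum_add_distrib, dotp, Finset.mul_sum, Finset.sum_mul]
  conv_lhs =>
    arg 1
    rw [Finset.sum_comm]
  rw [← Finset.sum_add_distrib]
  refine Finset.sum_congr rfl fun i _ => ?_
  rw [← Finset.sum_add_distrib]
  refine Finset.sum_congr rfl fun j _ => ?_
  rw [hM.apply i j]
  ring

theorem pd_qf (hM : M.IsSymm) (a : Fin n → ℝ) (i : Fin n) :
    pd i (fun x => qf M (x - a)) = fun x => 2 * dotp (M i) (x - a) := by
  funext x
  rw [pd, (hasFDerivAt_qf hM a x).fderiv]
  simp [Pi.single_apply]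

theorem polyB_sub_coord (a : Fin n → ℝ) (i : Fin n) : PolyB fun x : Fin n → ℝ => (x - a) i := by
  simpa [sub_eq_add_neg] using polyB_add (polyB_coord i) (polyB_const (-(a i)))

theorem c1p_qf (hM : M.IsSymm) (a : Fin n → ℝ) : C1P fun x => qf M (x - a) := by
  refine ⟨by unfold qf; fun_prop, ?_, fun i => ?_⟩
  · exact polyB_sum Finset.univ (f := fun i (x : Fin n → ℝ) => ∑ j, M i j * (x - a) i * (x - a) j) fun i _ =>
      polyB_sum Finset.univ (f := fun j (x : Fin n → ℝ) => M i j * (x - a) i * (x - a) j) fun j _ =>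
        polyB_mul (polyB_mul (polyB_const _) (polyB_sub_coord a i)) (polyB_sub_coord a j)
  · rw [pd_qf hM]
    exact polyB_smul 2 (polyB_sum Finset.univ (f := fun j (x : Fin n → ℝ) => M i j * (x - a) j)
      fun j _ => polyB_mul (polyB_const _) (polyB_sub_coord a j))

theorem gradSq_qf_le (hM : M.IsSymm) (hM1 : ∑ i, ∑ j, M i j ^ 2 ≤ 1) (a x : Fin n → ℝ) :
    gradSq (fun x => qf M (x - a)) x ≤ 4 * nsq (x - a) := by
  simp only [gradSq, pd_qf hM, mul_pow]
  calc ∑ i, 2 ^ 2 * dotp (M i) (x - a) ^ 2 ≤ ∑ i, 2 ^ 2 * (nsq (M i) * nsq (x - a)) :=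
        Finset.sum_le_sum fun i _ => mul_le_mul_of_nonneg_left (dotp_sq_le _ _) (by norm_num)
    _ = 4 * ((∑ i, ∑ j, M i j ^ 2) * nsq (x - a)) := by
        rw [← Finset.mul_sum, ← Finset.sum_mul]
        norm_num [nsq]
    _ ≤ _ := mul_le_mul_of_nonneg_left (mul_le_of_le_one_left (nsq_nonneg _) hM1) (by norm_num)

theorem integral_gradSq_qf_le (h : Ulc η ρ) (hc : 0 ≤ c) (hcov : CovLe ρ c) (hM : M.IsSymm)
    (hM1 : ∑ i, ∑ j, M i j ^ 2 ≤ 1) :
    ∫ x, gradSq (fun x => qf M (x - center ρ)) x ∂law ρ ≤ 4 * c := by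
  have := isProb h
  simp only [gradSq, pd_qf hM, mul_pow]
  have hi : ∀ i, Integrable (fun x => dotp (M i) (x - center ρ) ^ 2) (law ρ) := fun i => by
    refine integrable_polyB h ((measurable_sub_dotp _ _).pow_const 2) (polyB_pow_two ?_)
    exact polyB_sum Finset.univ (f := fun j (x : Fin n → ℝ) => M i j * (x - center ρ) j)
      fun j _ => polyB_mul (polyB_const _) (polyB_sub_coord _ j)
  rw [integral_finsetSum _ fun i _ => (hi i).const_mul _]
  simp only [integral_const_mul]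
  have e : ∀ i, ∫ x, dotp (M i) (x - center ρ) ^ 2 ∂law ρ = covc ρ (dotp (M i)) (dotp (M i)) :=
    fun i => by
      obtain ⟨h1, h2⟩ := integral_dotp_centred h (M i)
      simp only [dotp_sub] at h2 ⊢
      rw [integral_sub (integrable_polyB h (continuous_dotp (M i)).measurable (polyB_dotp (M i)))
        (integrable_const _), integral_const, probReal_univ, one_smul, sub_eq_zero] at h2
      simp only [covc, h2, sq]
  simp only [e]
  calc ∑ i, 2 ^ 2 * covc ρ (dotp (M i)) (dotp (M i)) ≤ ∑ i, 2 ^ 2 * (c * nsq (M i)) :=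
        Finset.sum_le_sum fun i _ => mul_le_mul_of_nonneg_left (hcov _) (by norm_num)
    _ = 4 * c * ∑ i, ∑ j, M i j ^ 2 := by
        simp only [Finset.mul_sum, nsq]
        norm_num [mul_assoc]
    _ ≤ 4 * c := mul_le_of_le_one_right (by positivity) hM1

/-! ### The channel -/

theorem Ep_le_of_nonneg_meas (h : Ulc η ρ) {s : ℝ} (hs : 0 ≤ s) {F G : (Fin n → ℝ) → ℝ}
    (hm : Measurable G) (hG : PolyB G) (h0 : ∀ θ, 0 ≤ F θ) (hle : ∀ θ, F θ ≤ G θ) :
    Ep ρ s F ≤ Ep ρ s G :=
  integral_mono_of_nonneg (ae_of_all _ fun _ => h0 _) (integrable_state h hm hG hs)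
    (ae_of_all _ fun _ => hle _)

theorem mg_sq_le (h : Ulc η ρ) {g : (Fin n → ℝ) → ℝ} (hg : CP g) {s : ℝ} (hs : 0 ≤ s)
    (θ : Fin n → ℝ) : mg ρ g s θ ^ 2 ≤ mg ρ (fun x => g x ^ 2) s θ := by
  have h1 := covc_self_nonneg (ρ := post ρ s θ) g
  rw [covc_post h hs θ hg.1.measurable hg.1.measurable hg.2 hg.2, pcov] at h1
  simp only [sq] at h1 ⊢
  linarith

/-- Expectations on the exceptional set. -/
theorem Ep_bad_mul_le (h : Ulc η ρ) {g : (Fin n → ℝ) → ℝ} (hg : CP g) {s b R S : ℝ} (hs : 0 < s)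
    (hR : 0 < R) (hS : 0 < S) (hP : Ep ρ s (bad ρ s b) ≤ R ^ 2)
    (hg2 : ∫ x, g x ^ 2 ∂law ρ ≤ S ^ 2) :
    Ep ρ s (fun θ => bad ρ s b θ * mg ρ g s θ) ≤ R * S := by
  have hbm := measurable_bad h hs.le b
  have hbp := polyB_bad (ρ := ρ) s b
  have hq := cp_mg h hg hs.le
  have hq2 := cp_mg h hg.sq hs.le
  have hle : ∀ θ, bad ρ s b θ * mg ρ g s θ
      ≤ R / (2 * S) * mg ρ (fun x => g x ^ 2) s θ + S / (2 * R) * bad ρ s b θ := fun θ => by
    have h1 := mg_sq_le h hg hs.le θ
    have h0 : 0 ≤ mg ρ (fun x => g x ^ 2) s θ := (sq_nonneg _).trans h1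
    by_cases hθ : θ ∈ badSet ρ s b
    · simp only [bad, Set.indicator_of_mem hθ, one_mul, mul_one]
      rw [div_mul_eq_mul_div, div_add_div _ _ (by positivity) (by positivity),
        le_div_iff₀ (by positivity)]
      have := sq_nonneg (R * mg ρ g s θ - S)
      have := mul_le_mul_of_nonneg_left h1 (sq_nonneg R)
      nlinarith
    · simp only [bad, Set.indicator_of_notMem hθ, zero_mul, mul_zero, add_zero]
      positivity
  have h1 := Ep_mono h hs.le (F := fun θ => bad ρ s b θ * mg ρ g s θ)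
    (G := fun θ => R / (2 * S) * mg ρ (fun x => g x ^ 2) s θ + S / (2 * R) * bad ρ s b θ)
    (hbm.mul hq.1.measurable)
    ((hq2.1.measurable.const_mul _).add (hbm.const_mul _)) (polyB_mul hbp hq.2)
    (polyB_add (polyB_smul _ hq2.2) (polyB_smul _ hbp)) hle
  refine h1.trans ?_
  rw [Ep_add h hs.le (hq2.1.measurable.const_mul _) (hbm.const_mul _) (polyB_smul _ hq2.2)
    (polyB_smul _ hbp), Ep_smul, Ep_smul, Ep_mg h hg.sq hs]
  have h2 := mul_le_mul_of_nonneg_left hg2 (show 0 ≤ R / (2 * S) by positivity)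
  have h3 := mul_le_mul_of_nonneg_left hP (show 0 ≤ S / (2 * R) by positivity)
  have e1 : R / (2 * S) * S ^ 2 = R * S / 2 := by field_simp
  have e2 : S / (2 * R) * R ^ 2 = R * S / 2 := by field_simp
  linarith

/-- The squared gradient of a posterior average is at most the covariance times the variance. -/
theorem sum_pcov_sq_le (h : Ulc η ρ) {g : (Fin n → ℝ) → ℝ} (hg : CP g) {s lam : ℝ} (hs : 0 ≤ s)
    (hlam : 0 ≤ lam) (θ : Fin n → ℝ) (hcov : CovLe (post ρ s θ) lam) :
    ∑ i, pcov ρ g (fun x => x i) s θ ^ 2 ≤ lam * covc (post ρ s θ) g g := by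
  have hp := post_ulc h hs θ
  set v : Fin n → ℝ := fun i => pcov ρ g (fun x => x i) s θ with hv
  have e : covc (post ρ s θ) g (dotp v) = nsq v := by
    rw [pcov_dotp h hg hs]
    simp [hv, nsq, sq]
  have h1 := covc_sq_le hp hg.1.measurable (continuous_dotp v).measurable hg.2 (polyB_dotp v)
  rw [e] at h1
  show nsq v ≤ _
  rcases (nsq_nonneg v).eq_or_lt with h0 | h0
  · rw [← h0]; exact mul_nonneg hlam (covc_self_nonneg _)
  · refine le_of_mul_le_mul_right ?_ h0
    have h6 := mul_le_mul_of_nonneg_left (hcov v) (covc_self_nonneg (ρ := post ρ s θ) g)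
    linarith

theorem covLe_of_not_bad {s b : ℝ} {θ : Fin n → ℝ} (hθ : θ ∉ badSet ρ s b) :
    CovLe (post ρ s θ) b := not_not.1 hθ

/-- The mean squared gradient of the posterior average. -/
theorem grad_bound (h : Ulc η ρ) {g : (Fin n → ℝ) → ℝ} (hg : CP g) {s b : ℝ} (hs : 0 < s)
    (hb : 0 ≤ b) :
    (Ep ρ s fun θ => ∑ i, pcov ρ g (fun x => x i) s θ ^ 2)
      ≤ b * covc ρ g g + 1 / s * Ep ρ s (fun θ => bad ρ s b θ * mg ρ (fun x => g x ^ 2) s θ) := by
  have hbm := measurable_bad h hs.le b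
  have hbp := polyB_bad (ρ := ρ) s b
  have hU := cp_mg h hg hs.le
  have hqq := cp_mg h (hg.mul hg) hs.le
  have hsq := cp_mg h hg.sq hs.le
  have hV : CP fun θ => mg ρ (fun x => g x * g x) s θ + (-1) * (mg ρ g s θ * mg ρ g s θ) :=
    hqq.add ((hU.mul hU).smul _)
  have hle : ∀ θ, ∑ i, pcov ρ g (fun x => x i) s θ ^ 2
      ≤ b * (mg ρ (fun x => g x * g x) s θ + (-1) * (mg ρ g s θ * mg ρ g s θ))
        + 1 / s * (bad ρ s b θ * mg ρ (fun x => g x ^ 2) s θ) := fun θ => by
    have e : covc (post ρ s θ) g g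
        = mg ρ (fun x => g x * g x) s θ + (-1) * (mg ρ g s θ * mg ρ g s θ) := by
      rw [covc_post h hs.le θ hg.1.measurable hg.1.measurable hg.2 hg.2, pcov]; ring
    by_cases hθ : θ ∈ badSet ρ s b
    · have hη := h.pos
      refine (sum_pcov_sq_le h hg hs.le (lam := 1 / (η + s)) (by positivity) θ
        (covLe_inv (post_ulc h hs.le θ))).trans ?_
      rw [← e]
      simp only [bad, Set.indicator_of_mem hθ, one_mul]
      have h1 := mul_le_mul_of_nonneg_right
        (one_div_le_one_div_of_le hs (le_add_of_nonneg_left hη.le : s ≤ η + s))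
        (covc_self_nonneg (ρ := post ρ s θ) g)
      have h2 : covc (post ρ s θ) g g ≤ mg ρ (fun x => g x ^ 2) s θ := by
        rw [e]
        simp only [sq]
        linarith [mul_self_nonneg (mg ρ g s θ)]
      have h3 := mul_le_mul_of_nonneg_left h2 (show 0 ≤ 1 / s by positivity)
      linarith [mul_nonneg hb (covc_self_nonneg (ρ := post ρ s θ) g)]
    · refine (sum_pcov_sq_le h hg hs.le hb θ (covLe_of_not_bad hθ)).trans ?_
      rw [e]
      simp [bad, Set.indicator_of_notMem hθ]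
  have h1 := Ep_le_of_nonneg_meas h hs.le
    (G := fun θ => b * (mg ρ (fun x => g x * g x) s θ + (-1) * (mg ρ g s θ * mg ρ g s θ))
      + 1 / s * (bad ρ s b θ * mg ρ (fun x => g x ^ 2) s θ))
    ((hV.smul b).1.measurable.add ((hbm.mul hsq.1.measurable).const_mul _))
    (polyB_add (hV.smul b).2 (polyB_smul _ (polyB_mul hbp hsq.2)))
    (fun θ => Finset.sum_nonneg fun i _ => sq_nonneg _) hle
  refine h1.trans ?_
  rw [Ep_add h hs.le (hV.smul b).1.measurable ((hbm.fun_mul hsq.1.measurable).const_mul _)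
      (hV.smul b).2 (polyB_smul _ (polyB_mul hbp hsq.2)), Ep_smul, Ep_smul,
    Ep_add' h hs.le hqq ((hU.mul hU).smul _), Ep_smul, Ep_mg h (hg.mul hg) hs,
    covc_eq h hg.1.measurable hg.1.measurable hg.2 hg.2]
  refine add_le_add (mul_le_mul_of_nonneg_left ?_ hb) le_rfl
  have h2 := Ep_var_nonneg h hs.le hU
  rw [Ep_mg h hg hs] at h2
  simp only [sq] at h2
  linarith

/-- The variance is split at time `T`. -/
theorem var_le_at (h : Ulc η ρ) {g : (Fin n → ℝ) → ℝ} (hg : CP g) {T G : ℝ} (hT : 0 < T)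
    (hG : ∀ s, 0 < s → s < T → (Ep ρ s fun θ => ∑ i, pcov ρ g (fun x => x i) s θ ^ 2) ≤ G) :
    covc ρ g g ≤ Ep ρ T (pcov ρ g g T) + G * T := by
  set u : Field n := (mfield ρ g).mul (mfield ρ g) with hu
  have hr : u.Reg := reg_mul (reg_mfield h hg.1 hg.2) (reg_mfield h hg.1 hg.2)
  have hgen : ∀ s, 0 ≤ s → u.gen ρ s = fun θ => ∑ i, pcov ρ g (fun x => x i) s θ ^ 2 :=
    fun s hs => funext fun θ => by
      rw [hu, gen_mul, gen_mfield h hg.1 hg.2 hs θ]
      simp [mfield, sq]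
  set φ : ℝ → ℝ := fun r => Ep ρ r (u.val r) - G * r with hφ
  have hd : ∀ r, 0 < r → HasDerivAt φ (Ep ρ r (u.gen ρ r) - G) r := fun r hr0 =>
    ((hasDerivAt_Ep h hr hr0).sub ((hasDerivAt_id r).const_mul G)).congr_deriv (by simp)
  have hmono : AntitoneOn φ (Set.Icc 0 T) := by
    refine antitoneOn_of_deriv_nonpos (convex_Icc 0 T)
      (((continuousOn_Ep h hr).mono fun r hr' => hr'.1).sub (by fun_prop))
      (fun r hr' => (hd r ?_).differentiableAt.differentiableWithinAt) fun r hr' => ?_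
    · rw [interior_Icc] at hr'; exact hr'.1
    · rw [interior_Icc] at hr'
      rw [(hd r hr'.1).deriv, hgen r hr'.1.le]
      linarith [hG r hr'.1 hr'.2]
  have h1 := hmono (Set.left_mem_Icc.2 hT.le) (Set.right_mem_Icc.2 hT.le) hT.le
  simp only [hφ, Ep_zero h, mul_zero, sub_zero] at h1
  have h2 : u.val 0 0 = (∫ x, g x ∂law ρ) * ∫ x, g x ∂law ρ := by
    show mg ρ g 0 0 * mg ρ g 0 0 = _
    rw [mg_zero h]
  rw [h2] at h1
  have e : pcov ρ g g T = fun θ => mg ρ (fun x => g x * g x) T θ + (-1) * u.val T θ :=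
    funext fun θ => by
      show mg ρ (fun x => g x * g x) T θ - mg ρ g T θ * mg ρ g T θ
        = mg ρ (fun x => g x * g x) T θ + (-1) * (mg ρ g T θ * mg ρ g T θ)
      ring
  rw [covc_eq h hg.1.measurable hg.1.measurable hg.2 hg.2, e,
    Ep_add' h hT.le (cp_mg h (hg.mul hg) hT.le) ((hr.cp hT.le).smul _), Ep_smul,
    Ep_mg h (hg.mul hg) hT]
  linarith

/-- The variance left at time `T`. -/
theorem var_at_le (h : Ulc η ρ) {g : (Fin n → ℝ) → ℝ} (hg : C1P g) {T b : ℝ} (hT : 0 < T)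
    (hb : 0 < b) :
    Ep ρ T (pcov ρ g g T) ≤ Real.sqrt (b / T) * ∫ x, gradSq g x ∂law ρ
      + 1 / T * Ep ρ T (fun θ => bad ρ T b θ * mg ρ (gradSq g) T θ) := by
  have hη := h.pos
  have hbm := measurable_bad h hT.le b
  have hbp := polyB_bad (ρ := ρ) T b
  have hq := cp_mg h hg.cp_gradSq hT.le
  have hle : ∀ θ, pcov ρ g g T θ ≤ Real.sqrt (b / T) * mg ρ (gradSq g) T θ
      + 1 / T * (bad ρ T b θ * mg ρ (gradSq g) T θ) := fun θ => by
    have hp := post_ulc h hT.le θ
    have h0 : 0 ≤ mg ρ (gradSq g) T θ := by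
      rw [← integral_post h hT.le]; exact integral_nonneg (gradSq_nonneg g)
    rw [← covc_post h hT.le θ hg.1.continuous.measurable hg.1.continuous.measurable hg.2.1 hg.2.1]
    by_cases hθ : θ ∈ badSet ρ T b
    · have h1 := poincare hp hg
      rw [energy, integral_post h hT.le] at h1
      simp only [bad, Set.indicator_of_mem hθ, one_mul]
      have h2 := mul_le_mul_of_nonneg_right
        (one_div_le_one_div_of_le hT (le_add_of_nonneg_left hη.le : T ≤ η + T)) h0
      linarith [mul_nonneg (Real.sqrt_nonneg (b / T)) h0]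
    · have h1 := lichnerowicz hp hb (covLe_of_not_bad hθ) hg
      rw [energy, integral_post h hT.le] at h1
      simp only [bad, Set.indicator_of_notMem hθ, zero_mul, mul_zero, add_zero]
      refine h1.trans (mul_le_mul_of_nonneg_right (Real.sqrt_le_sqrt ?_) h0)
      exact div_le_div_of_nonneg_left hb.le hT (le_add_of_nonneg_left hη.le)
  have hnn : ∀ θ, 0 ≤ pcov ρ g g T θ := fun θ => by
    rw [← covc_post h hT.le θ hg.1.continuous.measurable hg.1.continuous.measurable hg.2.1 hg.2.1]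
    exact covc_self_nonneg _
  have h1 := Ep_le_of_nonneg_meas h hT.le
    (G := fun θ => Real.sqrt (b / T) * mg ρ (gradSq g) T θ
      + 1 / T * (bad ρ T b θ * mg ρ (gradSq g) T θ))
    ((hq.1.measurable.const_mul _).add ((hbm.mul hq.1.measurable).const_mul _))
    (polyB_add (polyB_smul _ hq.2) (polyB_smul _ (polyB_mul hbp hq.2))) hnn hle
  refine h1.trans (le_of_eq ?_)
  rw [Ep_add h hT.le (hq.1.measurable.const_mul _) ((hbm.fun_mul hq.1.measurable).const_mul _)
    (polyB_smul _ hq.2) (polyB_smul _ (polyB_mul hbp hq.2)), Ep_smul, Ep_smul,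
    Ep_mg h hg.cp_gradSq hT]

/-! ### The bootstrap -/

theorem cube_mul_exp_le {x : ℝ} (hn : 1 ≤ n) (hx : 12 * (1 + Real.log n) ≤ x) :
    (n : ℝ) ^ 3 * Real.exp (-(x / 4)) ≤ 1 := by
  have h0 : (0 : ℝ) < n := by exact_mod_cast hn
  rw [← Real.exp_log (pow_pos h0 3), ← Real.exp_add, Real.exp_le_one_iff, Real.log_pow]
  push_cast
  linarith

theorem mul_exp_neg_le (x : ℝ) : x * Real.exp (-(x / 2)) ≤ 4 * Real.exp (-(x / 4)) := by
  have h1 := mul_le_mul_of_nonneg_right (Real.add_one_le_exp (x / 4))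
    (Real.exp_pos (-(x / 2))).le
  rw [← Real.exp_add, show x / 4 + -(x / 2) = -(x / 4) by ring] at h1
  linarith [Real.exp_pos (-(x / 2))]

/-- One step of the bootstrap. -/
theorem qbound_step : ∃ A : ℝ, 1 ≤ A ∧ ∀ n : ℕ, 1 ≤ n → ∀ V : ℝ, 1 ≤ V → QBound n V →
    QBound n (A * Real.sqrt (V * (1 + Real.log n)) + V / 4) := by
  obtain ⟨C, hC, hmom⟩ := moment_le
  obtain ⟨D, hD, hguan⟩ := guan
  set a := Real.sqrt C with had
  set d := Real.sqrt D with hdd
  have ha : 0 < a := Real.sqrt_pos.2 hC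
  have hd : 0 < d := Real.sqrt_pos.2 hD
  have ha2 : a ^ 2 = C := Real.sq_sqrt hC.le
  have hd2 : d ^ 2 = D := Real.sq_sqrt hD.le
  set K := d * a * D with hK
  set B := 12 * D + 8 * (2 + 4 * K) + 8 * 128 * (d * a * D ^ 2) + 1 with hBdef
  have hB : 0 < B := by positivity
  refine ⟨4 * Real.sqrt (2 * B) + 1, le_add_of_nonneg_left (by positivity),
    fun n hn V hV hQ η ρ h c hc hcov M hM hM1 => ?_⟩
  have := isProb h
  set ℓ := 1 + Real.log n
  have hn1 : (1 : ℝ) ≤ n := by exact_mod_cast hn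
  have hℓ : 1 ≤ ℓ := le_add_of_nonneg_right (Real.log_nonneg hn1)
  have hℓn : ℓ ≤ n := by linarith [Real.log_le_sub_one_of_pos (show (0 : ℝ) < n by linarith)]
  set q := fun x => qf M (x - center ρ) with hqdef
  have hq : C1P q := c1p_qf hM _
  have hvar : covc ρ q q ≤ V * c ^ 2 := hQ η ρ h c hc hcov M hM hM1
  -- moments
  have hnp : ∀ k : ℕ, Integrable (fun x => nsq (x - center ρ) ^ k) (law ρ) := fun k => by
    refine integrable_polyB h ((measurable_nsq_sub _).pow_const k) ?_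
    induction k with
    | zero => simpa using polyB_const (n := n) 1
    | succ k ih =>
      simp only [pow_succ]
      exact polyB_mul ih (polyB_sum Finset.univ (f := fun i (x : Fin n → ℝ) => (x - center ρ) i ^ 2)
        fun i _ => polyB_pow_two (polyB_sub_coord _ i))
  have hm4 : ∫ x, (q x ^ 2) ^ 2 ∂law ρ ≤ (a * n ^ 2 * c ^ 2) ^ 2 := by
    refine (integral_mono (hq.cp.sq.sq.integrable h) (hnp 4) fun x => ?_).trans
      ((hmom n η ρ h c hc hcov 4 le_rfl).trans (le_of_eq (by rw [← ha2]; ring)))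
    have := pow_le_pow_left₀ (sq_nonneg _) (qf_sq_le hM1 (x - center ρ)) 2
    exact this.trans (le_of_eq (by ring))
  have hm2 : ∫ x, gradSq q x ^ 2 ∂law ρ ≤ (4 * a * n * c) ^ 2 := by
    refine (integral_mono (hq.cp_gradSq.sq.integrable h) ((hnp 2).const_mul 16) fun x => ?_).trans ?_
    · have := pow_le_pow_left₀ (gradSq_nonneg q x) (gradSq_qf_le hM hM1 (center ρ) x) 2
      exact this.trans (le_of_eq (by ring))
    · rw [integral_const_mul]
      refine (mul_le_mul_of_nonneg_left (hmom n η ρ h c hc hcov 2 (by norm_num)) (by norm_num)).trans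
        (le_of_eq ?_)
      rw [← ha2]; ring
  -- the exceptional set
  set T := 1 / (B * V * ℓ * c) with hTdef
  have hT : 0 < T := by positivity
  set X := fun s : ℝ => 1 / (D * V * c * s) with hX
  have hP : ∀ s, 0 < s → Ep ρ s (bad ρ s (2 * c)) ≤ (d * n * Real.exp (-(X s / 2))) ^ 2 := by
    intro s hs
    have h1 := hguan n η ρ h V c 1 s hQ hV hc hcov one_pos le_rfl hs
    rw [one_pow, show c * (1 + 1) = 2 * c by ring] at h1
    refine h1.trans ?_
    rw [mul_pow, mul_pow, hd2, sq (Real.exp _), ← Real.exp_add,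
      show -(X s / 2) + -(X s / 2) = -(1 / (D * V * c * s)) by simp only [hX]; ring]
    refine mul_le_mul_of_nonneg_right (mul_le_mul_of_nonneg_left ?_ hD.le) (Real.exp_pos _).le
    exact le_self_pow₀ hn1 two_ne_zero
  have hX0 : ∀ s, 0 < s → s ≤ T → 12 * ℓ ≤ X s ∧ B / D ≤ X s := fun s hs hsT => by
    have h1 : B * ℓ / D ≤ X s := by
      refine le_trans (le_of_eq ?_)
        (one_div_le_one_div_of_le (by positivity) (mul_le_mul_of_nonneg_left hsT
          (show 0 ≤ D * V * c by positivity)))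
      rw [hTdef]; field_simp
    constructor
    · refine le_trans ?_ h1
      rw [le_div_iff₀ hD]
      have : 12 * D ≤ B := by
        have : 0 ≤ 8 * (2 + 4 * K) + 8 * 128 * (d * a * D ^ 2) := by positivity
        linarith
      linarith [mul_le_mul_of_nonneg_right this (zero_le_one.trans hℓ)]
    · refine le_trans ?_ h1
      exact div_le_div_of_nonneg_right (le_mul_of_one_le_right hB.le hℓ) hD.le
  -- the gradient before time `T`
  have hG : ∀ s, 0 < s → s < T →
      (Ep ρ s fun θ => ∑ i, pcov ρ q (fun x => x i) s θ ^ 2) ≤ (2 + 4 * K) * (V * c ^ 3) := by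
    intro s hs hsT
    obtain ⟨hx, -⟩ := hX0 s hs hsT.le
    have h1 := grad_bound h hq.cp hs (show 0 ≤ 2 * c by positivity)
    have h2 := Ep_bad_mul_le h hq.cp.sq hs (R := d * n * Real.exp (-(X s / 2)))
      (S := a * n ^ 2 * c ^ 2) (by positivity) (by positivity) (hP s hs) hm4
    have h3 := mul_le_mul_of_nonneg_left h2 (show 0 ≤ 1 / s by positivity)
    have e : 1 / s * (d * n * Real.exp (-(X s / 2)) * (a * n ^ 2 * c ^ 2))
        = K * (V * c ^ 3) * ((n : ℝ) ^ 3 * (X s * Real.exp (-(X s / 2)))) := by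
      simp only [hK, hX]; field_simp
    have h4 : (n : ℝ) ^ 3 * (X s * Real.exp (-(X s / 2))) ≤ 4 := by
      refine (mul_le_mul_of_nonneg_left (mul_exp_neg_le _) (by positivity)).trans ?_
      linarith [cube_mul_exp_le hn hx]
    have h5 := mul_le_mul_of_nonneg_left h4 (show 0 ≤ K * (V * c ^ 3) by positivity)
    have h6 := mul_le_mul_of_nonneg_left hvar (show 0 ≤ 2 * c by positivity)
    linarith
  have hsplit := var_le_at h hq.cp hT hG
  -- the variance at time `T`
  obtain ⟨hxT, hxB⟩ := hX0 T hT le_rfl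
  have hvT := var_at_le h hq hT (show 0 < 2 * c by positivity)
  have hbadT := Ep_bad_mul_le h hq.cp_gradSq hT (R := d * n * Real.exp (-(X T / 2)))
    (S := 4 * a * n * c) (by positivity) (by positivity) (hP T hT) hm2
  have h7 : 1 / T * (d * n * Real.exp (-(X T / 2)) * (4 * a * n * c))
      ≤ 128 * (d * a * D ^ 2) / B * (V * c ^ 2) := by
    have e1 : 1 / T * (d * n * Real.exp (-(X T / 2)) * (4 * a * n * c))
        = 4 * (d * a) * B * (V * c ^ 2) * (ℓ * n ^ 2 * Real.exp (-(X T / 2))) := by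
      rw [hTdef]; field_simp
    have e2 : ℓ * n ^ 2 * Real.exp (-(X T / 2)) ≤ 32 * D ^ 2 / B ^ 2 := by
      have h8 : ℓ * n ^ 2 * Real.exp (-(X T / 2)) ≤ Real.exp (-(X T / 4)) := by
        rw [show -(X T / 2) = -(X T / 4) + -(X T / 4) by ring, Real.exp_add, ← mul_assoc]
        refine mul_le_of_le_one_left (Real.exp_pos _).le ((mul_le_mul_of_nonneg_right
          (mul_le_mul_of_nonneg_right hℓn (sq_nonneg _)) (Real.exp_pos _).le).trans ?_)
        rw [← pow_succ']
        exact cube_mul_exp_le hn hxT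
      refine h8.trans ((Real.exp_le_exp.2 (neg_le_neg (div_le_div_of_nonneg_right hxB
        (by norm_num)))).trans ?_)
      rw [Real.exp_neg]
      have h9 := Real.pow_div_factorial_le_exp (x := B / D / 4) (by positivity) 2
      refine le_trans (inv_anti₀ (by positivity) h9) (le_of_eq ?_)
      norm_num [Nat.factorial]
      field_simp
      ring
    rw [e1]
    refine (mul_le_mul_of_nonneg_left e2 (by positivity)).trans (le_of_eq ?_)
    field_simp
    ring
  have h10 : Real.sqrt (2 * c / T) * ∫ x, gradSq q x ∂law ρ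
      ≤ 4 * Real.sqrt (2 * B) * Real.sqrt (V * ℓ) * c ^ 2 := by
    refine (mul_le_mul_of_nonneg_left (integral_gradSq_qf_le h hc.le hcov hM hM1)
      (Real.sqrt_nonneg _)).trans (le_of_eq ?_)
    rw [show 2 * c / T = 2 * B * (V * ℓ) * c ^ 2 by rw [hTdef]; field_simp,
      Real.sqrt_mul (by positivity), Real.sqrt_mul (by positivity), Real.sqrt_sq hc.le]
    ring
  have hcoef : (2 + 4 * K) / B ≤ 1 / 8 ∧ 128 * (d * a * D ^ 2) / B ≤ 1 / 8 := by
    have h0 : 0 ≤ 2 + 4 * K := by positivity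
    have h0' : 0 ≤ 128 * (d * a * D ^ 2) := by positivity
    constructor <;> (rw [div_le_iff₀ hB]; linarith)
  have h11 : (2 + 4 * K) * (V * c ^ 3) * T ≤ 1 / 8 * (V * c ^ 2) := by
    rw [hTdef, show (2 + 4 * K) * (V * c ^ 3) * (1 / (B * V * ℓ * c))
      = (2 + 4 * K) / B * (c ^ 2 / ℓ) by field_simp]
    exact mul_le_mul hcoef.1 ((div_le_self (sq_nonneg c) hℓ).trans
      (le_mul_of_one_le_left (sq_nonneg c) hV)) (by positivity) (by norm_num)
  have h12 := mul_le_mul_of_nonneg_right hcoef.2 (show 0 ≤ V * c ^ 2 by positivity)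
  have h13 := mul_le_mul_of_nonneg_left hbadT (show 0 ≤ 1 / T by positivity)
  have h14 : 0 ≤ Real.sqrt (V * ℓ) * c ^ 2 := by positivity
  show covc ρ q q ≤ _
  linarith

theorem qbound_zero {V : ℝ} (hV : 0 ≤ V) : QBound 0 V := fun η ρ _ c _ _ M _ _ => by
  simp [covc, qf]
  positivity

theorem qbound : ∃ C : ℝ, 1 ≤ C ∧ ∀ n : ℕ, QBound n (C * (1 + Real.log n)) := by
  obtain ⟨A, hA, hstep⟩ := qbound_step
  obtain ⟨C, hC, hmom⟩ := moment_le
  refine ⟨2 * A ^ 2, by linarith [one_le_pow₀ (n := 2) hA], fun n => ?_⟩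
  rcases Nat.eq_zero_or_pos n with rfl | hn
  · exact qbound_zero (by simp; positivity)
  set ℓ := 1 + Real.log n
  have hℓ : 1 ≤ ℓ := le_add_of_nonneg_right (Real.log_nonneg (by exact_mod_cast hn))
  set S := {V : ℝ | 1 ≤ V ∧ QBound n V}
  have hne : S.Nonempty := by
    refine ⟨C * n ^ 2 + 1, le_add_of_nonneg_left (by positivity),
      fun η ρ h c hc hcov M hM hM1 => ?_⟩
    have := isProb h
    have hq := c1p_qf hM (center ρ)
    rw [covc_eq h hq.cp.1.measurable hq.cp.1.measurable hq.2.1 hq.2.1]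
    have h1 : ∫ x, qf M (x - center ρ) * qf M (x - center ρ) ∂law ρ
        ≤ ∫ x, nsq (x - center ρ) ^ 2 ∂law ρ := by
      refine integral_mono ((hq.cp.mul hq.cp).integrable h) (integrable_polyB h
        ((measurable_nsq_sub _).pow_const 2) (polyB_pow_two (polyB_sum Finset.univ
          (f := fun i (x : Fin n → ℝ) => (x - center ρ) i ^ 2)
          fun i _ => polyB_pow_two (polyB_sub_coord _ i)))) fun x => ?_
      simpa [sq] using qf_sq_le hM1 (x - center ρ)
    have h2 := hmom n η ρ h c hc hcov 2 (by norm_num)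
    nlinarith [mul_self_nonneg (∫ x, qf M (x - center ρ) ∂law ρ), sq_nonneg c]
  have hbd : BddBelow S := ⟨1, fun V hV => hV.1⟩
  set W := sInf S
  have hW1 : 1 ≤ W := le_csInf hne fun V hV => hV.1
  have hW : QBound n W := fun η ρ h c hc hcov M hM hM1 => by
    rw [← div_le_iff₀ (by positivity)]
    exact le_csInf hne fun V hV => (div_le_iff₀ (by positivity)).2 (hV.2 η ρ h c hc hcov M hM hM1)
  have hle : W ≤ A * Real.sqrt (W * ℓ) + W / 4 := by
    refine csInf_le hbd ⟨?_, hstep n hn W hW1 hW⟩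
    have h1 : 1 ≤ Real.sqrt (W * ℓ) := Real.one_le_sqrt.2 (one_le_mul_of_one_le_of_one_le hW1 hℓ)
    have := one_le_mul_of_one_le_of_one_le hA h1
    linarith
  have hfin : W ≤ 2 * A ^ 2 * ℓ := by
    have h1 : A * Real.sqrt (W * ℓ) ≤ W / 4 + A ^ 2 * ℓ := by
      have h2 := Real.sq_sqrt (show 0 ≤ W * ℓ by positivity)
      refine le_of_pow_le_pow_left₀ two_ne_zero (by positivity) ?_
      rw [mul_pow, h2]
      nlinarith [sq_nonneg (W / 4 - A ^ 2 * ℓ)]
    linarith
  exact fun η ρ h c hc hcov M hM hM1 =>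
    (hW η ρ h c hc hcov M hM hM1).trans (mul_le_mul_of_nonneg_right hfin (sq_nonneg c))

end

end Vale.Agent.P245.General
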